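import Vale.Agent.P180.H951.LevDef

/-! Elementary properties of the Levi subgroups and unipotent radicals of `IsLevi`. -/

set_option linter.all false

namespace Vale.Agent.P180.H951

open Module

section facts

variable {F : Type} [Field F]

theorem skew_apply {V W : Type} [AddCommGroup V] [Module F V] [AddCommGroup W] [Module F W]
    (a : V ≃ₗ[F] V) (b : W ≃ₗ[F] W) (f : V →ₗ[F] W) (x : V × W) :
    LinearEquiv.skewProd a b f x = (a x.1, b x.2 + f x.1) := rfl

theorem inv_app {V : Type} [AddCommGroup V] [Module F V] (a : V ≃ₗ[F] V) (x : V) :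
    a⁻¹ (a x) = x := a.symm_apply_apply x

theorem app_inv {V : Type} [AddCommGroup V] [Module F V] (a : V ≃ₗ[F] V) (x : V) :
    a (a⁻¹ x) = x := a.apply_symm_apply x

theorem IsLevi.conj {V : Type} [AddCommGroup V] [Module F V] {M U : Subgroup (V ≃ₗ[F] V)} {t : ℕ}
    (h : IsLevi F V M U t) : ∀ g ∈ M, ∀ u ∈ U, g * u * g⁻¹ ∈ U := by
  induction h with
  | base V =>
    intro g _ u hu
    rw [Subgroup.mem_bot] at hu ⊢
    rw [hu, mul_one, mul_inv_cancel]
  | step V W M U t h M' U' hM hU ih =>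
    intro g hg u hu
    obtain ⟨a, ha, b, rfl⟩ := (hM g).mp hg
    obtain ⟨v, hv, f, rfl⟩ := (hU u).mp hu
    refine (hU _).mpr ⟨a * v * a⁻¹, ih a ha v hv, b.toLinearMap ∘ₗ f ∘ₗ (a⁻¹).toLinearMap, ?_⟩
    rw [mul_inv_eq_iff_eq_mul]
    apply LinearEquiv.ext
    intro x
    simp only [LinearEquiv.mul_apply, skew_apply]
    refine Prod.ext ?_ ?_
    · change a (v x.1) = a (v (a⁻¹ (a x.1)))
      rw [inv_app]
    · change b (x.2 + f x.1) + 0 = (b x.2 + 0) + b (f (a⁻¹ (a x.1)))
      rw [inv_app, map_add, add_zero, add_zero]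
  | transport V V' e M U t h ih =>
    rintro _ ⟨g, hg, rfl⟩ _ ⟨u, hu, rfl⟩
    exact ⟨g * u * g⁻¹, ih g hg u hu, by rw [map_mul, map_mul, map_inv]⟩

theorem IsLevi.le_normalizer {V : Type} [AddCommGroup V] [Module F V]
    {M U : Subgroup (V ≃ₗ[F] V)} {t : ℕ} (h : IsLevi F V M U t) :
    M ≤ Subgroup.normalizer (U : Set (V ≃ₗ[F] V)) := by
  intro g hg
  rw [Subgroup.mem_normalizer_iff]
  intro u
  constructor
  · exact h.conj g hg u
  · intro hu
    have := h.conj g⁻¹ (M.inv_mem hg) _ hu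
    have e : g⁻¹ * (g * u * g⁻¹) * g⁻¹⁻¹ = u := by group
    rwa [e] at this

theorem IsLevi.inf_eq_bot {V : Type} [AddCommGroup V] [Module F V] {M U : Subgroup (V ≃ₗ[F] V)}
    {t : ℕ} (h : IsLevi F V M U t) : ∀ g ∈ U, g ∈ M → g = 1 := by
  induction h with
  | base V =>
    intro g hg _
    exact Subgroup.mem_bot.mp hg
  | step V W M U t h M' U' hM hU ih =>
    intro g hgU hgM
    obtain ⟨a, ha, b, hab⟩ := (hM g).mp hgM
    obtain ⟨v, hv, f, hvf⟩ := (hU g).mp hgU
    have h1 : ∀ x, (a x : V) = v x := by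
      intro x
      have := congrArg (fun g : (V × W) ≃ₗ[F] (V × W) => (g (x, 0)).1) (hab.symm.trans hvf)
      exact this
    have hav : a = v := LinearEquiv.ext h1
    have hv1 : v = 1 := ih v hv (hav ▸ ha)
    have hf : ∀ x, f x = 0 := by
      intro x
      have := congrArg (fun g : (V × W) ≃ₗ[F] (V × W) => (g (x, 0)).2) (hab.symm.trans hvf)
      have h2 : b 0 + 0 = (0 : W) + f x := this
      rw [map_zero, zero_add, zero_add] at h2
      exact h2.symm
    rw [hvf, hv1]
    apply LinearEquiv.ext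
    intro x
    rw [skew_apply, hf]
    change ((x.1, x.2 + 0) : V × W) = x
    rw [add_zero]
  | transport V V' e M U t h ih =>
    rintro _ ⟨u, hu, rfl⟩ ⟨g, hg, hgu⟩
    have : g = u := (cE e).injective hgu
    subst this
    rw [ih g hu hg]
    exact map_one _

theorem IsLevi.card {V : Type} [AddCommGroup V] [Module F V] {M U : Subgroup (V ≃ₗ[F] V)}
    {t : ℕ} (h : IsLevi F V M U t) [Finite F] : Finite V → ∃ n : ℕ, Nat.card U = Nat.card F ^ n := by
  induction h with
  | base V =>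
    intro _
    exact ⟨0, by rw [Subgroup.card_bot, pow_zero]⟩
  | step V W M U t h M' U' hM hU ih =>
    intro hfin
    have hV : Finite V := Finite.of_injective (fun x : V => ((x, 0) : V × W)) (fun x y hxy =>
      congrArg Prod.fst hxy)
    have hW : Finite W := Finite.of_injective (fun x : W => ((0, x) : V × W)) (fun x y hxy =>
      congrArg Prod.snd hxy)
    obtain ⟨n, hn⟩ := ih hV
    have hcard : Nat.card U' = Nat.card (U × (V →ₗ[F] W)) := by
      symm
      refine Nat.card_congr (Equiv.ofBijective (fun x : U × (V →ₗ[F] W) =>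
        (⟨LinearEquiv.skewProd x.1.1 (LinearEquiv.refl F W) x.2,
          (hU _).mpr ⟨x.1.1, x.1.2, x.2, rfl⟩⟩ : U')) ⟨?_, ?_⟩)
      · rintro ⟨u, f⟩ ⟨v, g⟩ hx
        have hx' : LinearEquiv.skewProd u.1 (LinearEquiv.refl F W) f =
          LinearEquiv.skewProd v.1 (LinearEquiv.refl F W) g := congrArg Subtype.val hx
        refine Prod.ext (Subtype.ext (LinearEquiv.ext fun x => ?_)) (LinearMap.ext fun x => ?_)
        · exact congrArg (fun g : (V × W) ≃ₗ[F] (V × W) => (g (x, 0)).1) hx'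
        · have h2 : (0 : W) + f x = 0 + g x :=
            congrArg (fun g : (V × W) ≃ₗ[F] (V × W) => (g (x, 0)).2) hx'
          rwa [zero_add, zero_add] at h2
      · rintro ⟨g, hg⟩
        obtain ⟨u, hu, f, rfl⟩ := (hU g).mp hg
        exact ⟨(⟨u, hu⟩, f), rfl⟩
    have hfV : FiniteDimensional F V := Module.Finite.of_finite
    have hfW : FiniteDimensional F W := Module.Finite.of_finite
    refine ⟨n + finrank F (V →ₗ[F] W), ?_⟩
    rw [hcard, Nat.card_prod, hn, pow_add, ← Module.natCard_eq_pow_finrank (K := F)]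
  | transport V V' e M U t h ih =>
    intro hfin
    have hV : Finite V := Finite.of_injective e e.injective
    obtain ⟨n, hn⟩ := ih hV
    refine ⟨n, ?_⟩
    rw [← hn]
    exact Nat.card_congr (Subgroup.equivMapOfInjective U (cE e).toMonoidHom (cE e).injective).toEquiv.symm

end facts

section build

variable {F V W : Type} [Field F] [AddCommGroup V] [Module F V] [AddCommGroup W] [Module F W]

/-- block diagonal subgroup -/
def levM (M : Subgroup (V ≃ₗ[F] V)) (W : Type) [AddCommGroup W] [Module F W] :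
    Subgroup ((V × W) ≃ₗ[F] (V × W)) where
  carrier := {g | ∃ a ∈ M, ∃ b : W ≃ₗ[F] W, g = LinearEquiv.skewProd a b 0}
  one_mem' := ⟨1, M.one_mem, 1, by
    apply LinearEquiv.ext
    intro x
    rw [skew_apply]
    change x = ((x.1, x.2 + 0) : V × W)
    rw [add_zero]⟩
  mul_mem' := by
    rintro _ _ ⟨a, ha, b, rfl⟩ ⟨a', ha', b', rfl⟩
    refine ⟨a * a', M.mul_mem ha ha', b * b', ?_⟩
    apply LinearEquiv.ext
    intro x
    simp only [LinearEquiv.mul_apply, skew_apply]
    refine Prod.ext rfl ?_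
    change b (b' x.2 + 0) + 0 = b (b' x.2) + 0
    rw [add_zero, add_zero, add_zero]
  inv_mem' := by
    rintro _ ⟨a, ha, b, rfl⟩
    refine ⟨a⁻¹, M.inv_mem ha, b⁻¹, ?_⟩
    rw [inv_eq_iff_mul_eq_one]
    apply LinearEquiv.ext
    intro x
    simp only [LinearEquiv.mul_apply, skew_apply]
    refine Prod.ext ?_ ?_
    · change a (a⁻¹ x.1) = x.1
      rw [← LinearEquiv.mul_apply, mul_inv_cancel]; rfl
    · change b (b⁻¹ x.2 + 0) + 0 = x.2
      rw [add_zero, add_zero, ← LinearEquiv.mul_apply, mul_inv_cancel]; rfl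

/-- block unitriangular subgroup -/
def levU (U : Subgroup (V ≃ₗ[F] V)) (W : Type) [AddCommGroup W] [Module F W] :
    Subgroup ((V × W) ≃ₗ[F] (V × W)) where
  carrier := {g | ∃ a ∈ U, ∃ f : V →ₗ[F] W,
    g = LinearEquiv.skewProd a (LinearEquiv.refl F W) f}
  one_mem' := ⟨1, U.one_mem, 0, by
    apply LinearEquiv.ext
    intro x
    rw [skew_apply]
    change x = ((x.1, x.2 + 0) : V × W)
    rw [add_zero]⟩
  mul_mem' := by
    rintro _ _ ⟨a, ha, f, rfl⟩ ⟨a', ha', f', rfl⟩
    refine ⟨a * a', U.mul_mem ha ha', f' + f ∘ₗ a'.toLinearMap, ?_⟩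
    apply LinearEquiv.ext
    intro x
    simp only [LinearEquiv.mul_apply, skew_apply]
    refine Prod.ext rfl ?_
    change (x.2 + f' x.1) + f (a' x.1) = x.2 + (f' x.1 + f (a' x.1))
    rw [add_assoc]
  inv_mem' := by
    rintro _ ⟨a, ha, f, rfl⟩
    refine ⟨a⁻¹, U.inv_mem ha, - (f ∘ₗ (a⁻¹).toLinearMap), ?_⟩
    rw [inv_eq_iff_mul_eq_one]
    apply LinearEquiv.ext
    intro x
    simp only [LinearEquiv.mul_apply, skew_apply]
    refine Prod.ext ?_ ?_
    · change a (a⁻¹ x.1) = x.1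
      rw [← LinearEquiv.mul_apply, mul_inv_cancel]; rfl
    · change (x.2 + - f (a⁻¹ x.1)) + f (a⁻¹ x.1) = x.2
      rw [neg_add_cancel_right]

end build

end Vale.Agent.P180.H951
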