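import Vale.Agent.P180.R2.H954.Hc3a
import Vale.Agent.P180.R2.H471.He4
import Vale.Agent.P180.H951.Lev

/-! The decomposition of a vector space over a finite field under a commutative group of linear
equivalences of order prime to the characteristic. -/

set_option linter.all false

namespace Vale.Agent.P180.H951

open Module

section

variable {F V : Type} [Field F] [AddCommGroup V] [Module F V]

/-- the fixed space -/
def fixV (Q : Subgroup (V ≃ₗ[F] V)) : Submodule F V where
  carrier := {x | ∀ q ∈ Q, q x = x}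
  add_mem' := by
    intro x y hx hy q hq
    rw [map_add, hx q hq, hy q hq]
  zero_mem' := by
    intro q _
    exact map_zero q
  smul_mem' := by
    intro c x hx q hq
    rw [map_smul, hx q hq]

/-- the endomorphism -/
def tE : (V ≃ₗ[F] V) →* End F V where
  toFun g := g.toLinearMap
  map_one' := rfl
  map_mul' _ _ := rfl

theorem tE_apply (g : V ≃ₗ[F] V) (x : V) : tE g x = g x := rfl

theorem tE_injective : Function.Injective (tE : (V ≃ₗ[F] V) →* End F V) := by
  intro g h hgh
  apply LinearEquiv.ext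
  intro x
  exact congrArg (fun a : End F V => a x) hgh

theorem tE_mul_inv (g : V ≃ₗ[F] V) : tE g * tE g⁻¹ = 1 := by
  rw [← map_mul, mul_inv_cancel, map_one]

theorem tE_inv_mul (g : V ≃ₗ[F] V) : tE g⁻¹ * tE g = 1 := by
  rw [← map_mul, inv_mul_cancel, map_one]

/-- `W` is stable under `Q` and homogeneous: each linear combination of elements of `Q` is zero on
`W` or injective on `W`. -/
def HomOn (Q : Subgroup (V ≃ₗ[F] V)) (W : Submodule F V) : Prop :=
  (∀ q ∈ Q, ∀ w ∈ W, q w ∈ W) ∧
    ∀ x ∈ Submodule.span F (Set.range fun q : Q => tE (q : V ≃ₗ[F] V)),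
      (∀ w ∈ W, x w = 0) ∨ (∀ w ∈ W, x w = 0 → w = 0)

/-- The fixed space is homogeneous. -/
theorem homOn_fixV (Q : Subgroup (V ≃ₗ[F] V)) : HomOn Q (fixV Q) := by
  refine ⟨fun q hq w hw => by rw [hw q hq]; exact hw, fun x hx => ?_⟩
  have key : ∃ c : F, ∀ w ∈ fixV Q, x w = c • w := by
    induction hx using Submodule.span_induction with
    | mem x hx =>
      obtain ⟨q, rfl⟩ := hx
      exact ⟨1, fun w hw => by rw [one_smul]; exact hw q q.2⟩
    | zero => exact ⟨0, fun w _ => by rw [zero_smul]; rfl⟩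
    | add x y _ _ hx hy =>
      obtain ⟨c, hc⟩ := hx
      obtain ⟨d, hd⟩ := hy
      exact ⟨c + d, fun w hw => by rw [LinearMap.add_apply, hc w hw, hd w hw, add_smul]⟩
    | smul a x _ hx =>
      obtain ⟨c, hc⟩ := hx
      exact ⟨a * c, fun w hw => by rw [LinearMap.smul_apply, hc w hw, mul_smul]⟩
  obtain ⟨c, hc⟩ := key
  by_cases h0 : c = 0
  · left
    intro w hw
    rw [hc w hw, h0, zero_smul]
  · right
    intro w hw hw0
    rw [hc w hw] at hw0
    exact (smul_eq_zero.mp hw0).resolve_left h0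

/-- The summands of `V` under `Q` other than the one which contains the homogeneous subspace `W`. -/
structure Dec (Q : Subgroup (V ≃ₗ[F] V)) (W : Submodule F V) where
  /-- the number of summands -/
  r : ℕ
  /-- the projections -/
  e : Fin r → End F V
  idem : ∀ i, e i * e i = e i
  orth : ∀ i j, i ≠ j → e i * e j = 0
  ne : ∀ i, e i ≠ 0
  kf : ∀ x ∈ W, ∀ i, e i x = 0
  comm : ∀ a : End F V, (∀ q ∈ Q, a * tE q = tE q * a) → ∀ i, a * e i = e i * a
  cyc : ∀ i, ∃ (K : Type) (_ : Field K) (_ : Finite K) (χ : Q →* Kˣ),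
    ∀ q : Q, χ q = 1 ↔ tE (q : V ≃ₗ[F] V) * e i = e i
  cyc0 : ∃ (K : Type) (_ : Field K) (_ : Finite K) (χ : Q →* Kˣ),
    ∀ q : Q, χ q = 1 ↔ tE (q : V ≃ₗ[F] V) * (1 - ∑ i, e i) = 1 - ∑ i, e i
  hom : ∀ i, ∀ x ∈ Submodule.span F (Set.range fun q : Q => tE (q : V ≃ₗ[F] V)),
    x * e i = 0 ∨ ∀ w, x (e i w) = 0 → e i w = 0
  rc : r ≤ Nat.card Q

/-- **Decomposition of the natural module under a commutative subgroup.** -/
theorem exists_dec [Finite F] (Q : Subgroup (V ≃ₗ[F] V)) [Finite Q] {W : Submodule F V}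
    (hW : HomOn Q W)
    (hQ : (Nat.card F).Coprime (Nat.card Q)) (hab : ∀ x ∈ Q, ∀ y ∈ Q, x * y = y * x) :
    Nonempty (Dec Q W) := by
  classical
  letI : CommGroup Q := { (inferInstance : Group Q) with
    mul_comm := fun x y => Subtype.ext (hab x x.2 y y.2) }
  have hred : IsReduced (MonoidAlgebra F Q) := Vale.Agent.P180.R2.H954.Hc.isReduced hQ
  have hfin : Finite (MonoidAlgebra F Q) := by
    have h1 : Module.Finite F (MonoidAlgebra F Q) :=
      Module.Finite.equiv (MonoidAlgebra.coeffLinearEquiv F (M := Q) (S := F)).symm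
    exact Module.finite_of_finite F
  have hart : IsArtinianRing (MonoidAlgebra F Q) := inferInstance
  have hMfin : Finite (MaximalSpectrum (MonoidAlgebra F Q)) := inferInstance
  -- the action
  let ρ : Q →* End F V :=
    { toFun := fun q => tE (q : V ≃ₗ[F] V)
      map_one' := rfl
      map_mul' := fun _ _ => rfl }
  let Φ : MonoidAlgebra F Q →ₐ[F] End F V := MonoidAlgebra.lift F (End F V) Q ρ
  have hΦ : ∀ q : Q, Φ (MonoidAlgebra.single q 1) = tE (q : V ≃ₗ[F] V) := by
    intro q
    change MonoidAlgebra.lift F (End F V) Q ρ (MonoidAlgebra.single q 1) = _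
    rw [MonoidAlgebra.lift_single, one_smul]
    rfl
  let ψ := IsArtinianRing.equivPi (MonoidAlgebra F Q)
  let ε : MaximalSpectrum (MonoidAlgebra F Q) → MonoidAlgebra F Q := fun I => ψ.symm (Pi.single I 1)
  have hεI : ∀ I, ε I * ε I = ε I := by
    intro I
    change ψ.symm _ * ψ.symm _ = ψ.symm _
    rw [← map_mul, ← Pi.single_mul, one_mul]
  have hεIJ : ∀ I J, I ≠ J → ε I * ε J = 0 := by
    intro I J hIJ
    change ψ.symm _ * ψ.symm _ = 0
    rw [← map_mul]
    have : (Pi.single I 1 : ∀ I : MaximalSpectrum (MonoidAlgebra F Q), MonoidAlgebra F Q ⧸ I.asIdeal) *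
        Pi.single J 1 = 0 := by
      funext L
      rw [Pi.mul_apply, Pi.zero_apply]
      by_cases hL : L = I
      · subst hL
        rw [Pi.single_eq_of_ne hIJ, mul_zero]
      · rw [Pi.single_eq_of_ne hL, zero_mul]
    rw [this, map_zero]
  have := Fintype.ofFinite (MaximalSpectrum (MonoidAlgebra F Q))
  have hεs : ∑ I, ε I = 1 := by
    change ∑ I, ψ.symm (Pi.single I 1) = 1
    rw [← map_sum]
    have : ∑ I : MaximalSpectrum (MonoidAlgebra F Q), (Pi.single I 1 :
        ∀ I : MaximalSpectrum (MonoidAlgebra F Q), MonoidAlgebra F Q ⧸ I.asIdeal) = 1 := by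
      exact Finset.univ_sum_single (1 : ∀ I : MaximalSpectrum (MonoidAlgebra F Q),
        MonoidAlgebra F Q ⧸ I.asIdeal)
    rw [this, map_one]
  have hmem : ∀ I x, x * ε I = 0 ↔ x ∈ I.asIdeal := by
    intro I x
    have h1 : x * ε I = 0 ↔ ψ (x * ε I) = 0 := by
      rw [map_eq_zero_iff ψ ψ.injective]
    rw [h1, map_mul]
    have h2 : ψ (ε I) = Pi.single I 1 := ψ.apply_symm_apply _
    rw [h2]
    constructor
    · intro h
      have h3 := congrFun h I
      rw [Pi.mul_apply, Pi.single_eq_same, mul_one, Pi.zero_apply] at h3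
      exact Ideal.Quotient.eq_zero_iff_mem.mp h3
    · intro h
      funext L
      rw [Pi.mul_apply, Pi.zero_apply]
      by_cases hL : L = I
      · subst hL
        rw [Pi.single_eq_same, mul_one]
        exact Ideal.Quotient.eq_zero_iff_mem.mpr h
      · rw [Pi.single_eq_of_ne hL, mul_zero]
  -- the character of a summand
  have hcyc : ∀ I, Φ (ε I) ≠ 0 → ∃ (K : Type) (_ : Field K) (_ : Finite K) (χ : Q →* Kˣ),
      ∀ q : Q, χ q = 1 ↔ tE (q : V ≃ₗ[F] V) * Φ (ε I) = Φ (ε I) := by
    intro I hI0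
    have hfield : IsField (MonoidAlgebra F Q ⧸ I.asIdeal) :=
      (Ideal.Quotient.maximal_ideal_iff_isField_quotient _).mp I.isMaximal
    have hFf : Finite (MonoidAlgebra F Q ⧸ I.asIdeal) :=
      Finite.of_surjective _ Ideal.Quotient.mk_surjective
    refine ⟨MonoidAlgebra F Q ⧸ I.asIdeal, hfield.toField, hFf, ?_⟩
    refine ⟨(Units.map (Ideal.Quotient.mk I.asIdeal).toMonoidHom).comp
      (MonoidAlgebra.of F Q).toHomUnits, fun q => ?_⟩
    have h1 : (Units.map (Ideal.Quotient.mk I.asIdeal).toMonoidHom).comp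
      (MonoidAlgebra.of F Q).toHomUnits q = 1 ↔
        (MonoidAlgebra.single q (1 : F) - 1) ∈ I.asIdeal := by
      rw [← Ideal.Quotient.eq_zero_iff_mem, map_sub, sub_eq_zero, map_one, Units.ext_iff]
      rfl
    have h2 : Φ ((MonoidAlgebra.single q (1 : F) - 1) * ε I) = 0 ↔
        tE (q : V ≃ₗ[F] V) * Φ (ε I) = Φ (ε I) := by
      rw [map_mul, map_sub, map_one, sub_mul, one_mul, sub_eq_zero, hΦ]
    refine Iff.trans h1 (Iff.trans ?_ h2)
    rw [← hmem]
    refine ⟨fun h => by rw [h, map_zero], fun h => ?_⟩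
    by_contra hne
    rw [hmem] at hne
    have hne' : Ideal.Quotient.mk I.asIdeal (MonoidAlgebra.single q (1 : F) - 1) ≠ 0 := by
      rw [Ne, Ideal.Quotient.eq_zero_iff_mem]
      exact hne
    obtain ⟨y, hy⟩ := hfield.mul_inv_cancel hne'
    obtain ⟨y, rfl⟩ := Ideal.Quotient.mk_surjective y
    have h3 : ((MonoidAlgebra.single q (1 : F) - 1) * y - 1) ∈ I.asIdeal := by
      rw [← Ideal.Quotient.eq_zero_iff_mem, map_sub, map_mul, hy, map_one, sub_self]
    rw [← hmem, sub_mul, one_mul, sub_eq_zero] at h3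
    apply hI0
    rw [← h3, mul_assoc, mul_comm y, ← mul_assoc, map_mul, h, zero_mul]
  -- the images of the elements of the group algebra
  have hspan : ∀ x, Φ x ∈ Submodule.span F (Set.range fun q : Q => tE (q : V ≃ₗ[F] V)) := by
    intro x
    induction x using MonoidAlgebra.induction_linear with
    | zero => rw [map_zero]; exact Submodule.zero_mem _
    | add x y hx hy => rw [map_add]; exact Submodule.add_mem _ hx hy
    | single q c =>
      have h2 : MonoidAlgebra.single q c = c • MonoidAlgebra.single q (1 : F) := by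
        rw [MonoidAlgebra.smul_single, smul_eq_mul, mul_one]
      rw [h2, map_smul, hΦ]
      exact Submodule.smul_mem _ _ (Submodule.subset_span ⟨q, rfl⟩)
  have hstab : ∀ x, ∀ w ∈ W, Φ x w ∈ W := by
    intro x w hw
    induction x using MonoidAlgebra.induction_linear with
    | zero => rw [map_zero]; exact W.zero_mem
    | add x y hx hy => rw [map_add]; exact W.add_mem hx hy
    | single q c =>
      have h2 : MonoidAlgebra.single q c = c • MonoidAlgebra.single q (1 : F) := by
        rw [MonoidAlgebra.smul_single, smul_eq_mul, mul_one]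
      rw [h2, map_smul, hΦ]
      exact W.smul_mem _ (hW.1 q q.2 w hw)
  -- the base summand
  obtain ⟨I₀, hI₀⟩ : ∃ I₀, ∀ I, I ≠ I₀ → ∀ w ∈ W, Φ (ε I) w = 0 := by
    by_cases hW0 : ∃ I, ¬ ∀ w ∈ W, Φ (ε I) w = 0
    · obtain ⟨I₀, h0⟩ := hW0
      refine ⟨I₀, fun I hI w hw => ?_⟩
      have h1 := (hW.2 _ (hspan (ε I₀))).resolve_left h0
      apply h1 _ (hstab _ w hw)
      have h2 : Φ (ε I₀) * Φ (ε I) = 0 := by rw [← map_mul, hεIJ _ _ hI.symm, map_zero]
      exact congrArg (fun a : End F V => a w) h2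
    · push Not at hW0
      have hne : Nonempty (MaximalSpectrum (MonoidAlgebra F Q)) := inferInstance
      exact ⟨hne.some, fun I _ => hW0 I⟩
  -- reindex
  let T := {I : MaximalSpectrum (MonoidAlgebra F Q) // Φ (ε I) ≠ 0 ∧ I ≠ I₀}
  let eqv := Fintype.equivFin T
  refine ⟨⟨Fintype.card T, fun i => Φ (ε (eqv.symm i).1), ?_, ?_, ?_, ?_, ?_, ?_, ?_, ?_, ?_⟩⟩
  · intro i
    rw [← map_mul, hεI]
  · intro i j hij
    rw [← map_mul, hεIJ, map_zero]
    intro h
    exact hij (eqv.symm.injective (Subtype.ext h))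
  · intro i
    exact (eqv.symm i).2.1
  · intro x hx i
    exact hI₀ _ (eqv.symm i).2.2 x hx
  · intro a ha i
    have h1 : ∀ x : MonoidAlgebra F Q, a * Φ x = Φ x * a := by
      intro x
      induction x using MonoidAlgebra.induction_linear with
      | zero => simp
      | add x y hx hy => rw [map_add, mul_add, add_mul, hx, hy]
      | single q c =>
        have h2 : MonoidAlgebra.single q c = c • MonoidAlgebra.single q (1 : F) := by
          rw [MonoidAlgebra.smul_single, smul_eq_mul, mul_one]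
        rw [h2, map_smul, hΦ, mul_smul_comm, smul_mul_assoc, ha q q.2]
    exact h1 _
  · intro i
    exact hcyc _ (eqv.symm i).2.1
  · rw [Equiv.sum_comp eqv.symm (fun I : T => Φ (ε I.1))]
    have h1 : ∑ I : T, Φ (ε I.1) = ∑ I ∈ Finset.univ.filter (fun I =>
        Φ (ε I) ≠ 0 ∧ I ≠ I₀), Φ (ε I) :=
      (Finset.sum_subtype (Finset.univ.filter fun I => Φ (ε I) ≠ 0 ∧ I ≠ I₀)
        (fun x => by rw [Finset.mem_filter]; exact ⟨fun h => h.2, fun h => ⟨Finset.mem_univ _, h⟩⟩)
        (fun I => Φ (ε I))).symm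
    have h2 : (1 : End F V) - ∑ I : T, Φ (ε I.1) = Φ (ε I₀) := by
      rw [h1, sub_eq_iff_eq_add, ← map_one Φ, ← hεs, map_sum,
        ← Finset.add_sum_erase _ _ (Finset.mem_univ I₀)]
      congr 1
      symm
      refine Finset.sum_subset ?_ ?_
      · intro I hI
        rw [Finset.mem_filter] at hI
        exact Finset.mem_erase.mpr ⟨hI.2.2, Finset.mem_univ _⟩
      · intro I hI hI'
        rw [Finset.mem_filter] at hI'
        by_contra hne
        exact hI' ⟨Finset.mem_univ _, hne, Finset.ne_of_mem_erase hI⟩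
    rw [h2]
    by_cases h0 : Φ (ε I₀) = 0
    · rw [h0]
      refine ⟨F, inferInstance, inferInstance, 1, fun q => ?_⟩
      rw [mul_zero]
      exact ⟨fun _ => rfl, fun _ => rfl⟩
    · exact hcyc _ h0
  · intro i x hx
    set I := (eqv.symm i).1 with hI
    obtain ⟨y, rfl⟩ : ∃ y, Φ y = x := by
      induction hx using Submodule.span_induction with
      | mem x hx =>
        obtain ⟨q, rfl⟩ := hx
        exact ⟨_, hΦ q⟩
      | zero => exact ⟨0, map_zero _⟩
      | add x y _ _ hx hy =>
        obtain ⟨a, rfl⟩ := hx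
        obtain ⟨b, rfl⟩ := hy
        exact ⟨a + b, map_add _ _ _⟩
      | smul c x _ hx =>
        obtain ⟨a, rfl⟩ := hx
        exact ⟨c • a, map_smul _ _ _⟩
    by_cases hy : y ∈ I.asIdeal
    · left
      rw [← hmem] at hy
      rw [← map_mul, hy, map_zero]
    · right
      have hfield : IsField (MonoidAlgebra F Q ⧸ I.asIdeal) :=
        (Ideal.Quotient.maximal_ideal_iff_isField_quotient _).mp I.isMaximal
      have hne' : Ideal.Quotient.mk I.asIdeal y ≠ 0 := by
        rw [Ne, Ideal.Quotient.eq_zero_iff_mem]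
        exact hy
      obtain ⟨z, hz⟩ := hfield.mul_inv_cancel hne'
      obtain ⟨z, rfl⟩ := Ideal.Quotient.mk_surjective z
      have h3 : (z * y - 1) ∈ I.asIdeal := by
        rw [← Ideal.Quotient.eq_zero_iff_mem, map_sub, map_mul, mul_comm, hz, map_one, sub_self]
      rw [← hmem, sub_mul, one_mul, sub_eq_zero] at h3
      intro w hw
      have h4 : Φ z * Φ y * Φ (ε I) = Φ (ε I) := by rw [← map_mul, ← map_mul, h3]
      have h5 := congrArg (fun a : End F V => a w) h4
      change Φ z (Φ y (Φ (ε I) w)) = Φ (ε I) w at h5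
      rw [← h5, hw, map_zero]
  · have hfr : finrank F (MonoidAlgebra F Q) = Nat.card Q := by
      have := Fintype.ofFinite Q
      rw [(MonoidAlgebra.coeffLinearEquiv F (M := Q) (S := F)).finrank_eq,
        Module.finrank_finsupp_self, Nat.card_eq_fintype_card]
    have hfd : FiniteDimensional F (MonoidAlgebra F Q) :=
      Module.Finite.equiv (MonoidAlgebra.coeffLinearEquiv F (M := Q) (S := F)).symm
    have hε0 : ∀ I, ε I ≠ 0 := by
      intro I h0
      have h2 : ψ (ε I) = Pi.single I 1 := ψ.apply_symm_apply _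
      rw [h0, map_zero] at h2
      have h3 := congrFun h2 I
      rw [Pi.single_eq_same, Pi.zero_apply] at h3
      have hfield : IsField (MonoidAlgebra F Q ⧸ I.asIdeal) :=
        (Ideal.Quotient.maximal_ideal_iff_isField_quotient _).mp I.isMaximal
      obtain ⟨a, b, hab⟩ := hfield.exists_pair_ne
      apply hab
      rw [← mul_one a, ← mul_one b, ← h3, mul_zero, mul_zero]
    have hli : LinearIndependent F ε := by
      rw [Fintype.linearIndependent_iff]
      intro g hg J
      have h1 : (∑ I, g I • ε I) * ε J = g J • ε J := by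
        rw [Finset.sum_mul, Finset.sum_eq_single J]
        · rw [smul_mul_assoc, hεI]
        · intro I _ hI
          rw [smul_mul_assoc, hεIJ _ _ hI, smul_zero]
        · intro h; exact absurd (Finset.mem_univ J) h
      rw [hg, zero_mul] at h1
      exact (smul_eq_zero.mp h1.symm).resolve_right (hε0 J)
    have h1 := hli.fintype_card_le_finrank
    rw [hfr] at h1
    exact (Fintype.card_le_of_injective (fun I : T => I.1) Subtype.val_injective).trans h1

end

end Vale.Agent.P180.H951
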