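import Vale.Agent.P180.H951.GLH
import Vale.Agent.P180.H396.Nn
import Vale.Agent.P180.R2.H259.Exp.Dsa
import Vale.Agent.P180.R2.H259.Cyc.Final
import Vale.Agent.P180.R2.H799.Jb

/-! Special linear groups, all ranks and all fields: from the general linear group by descent along an
index which is a power of `p`. -/

set_option linter.all false

namespace Vale.Agent.P180.H951

open Module Subgroup Vale.Agent.P180 Vale.Agent.P180.H768.Gd Vale.Agent.P180.R2.H471.Hc
  Vale.Agent.P180.R2.H799 Vale.Agent.P180.R2.H954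
open Vale.Agent.P180.R2.H259.Cyc (cycB cycB_mono cyclic_corner PrimIn)
open Vale.Agent.P180.R2.H259.Exp (exists_prim_br)

universe u

variable {k : Type u} [Field k] [IsAlgClosed k] {p : ℕ} [Fact p.Prime] [CharP k p]

/-- **Cyclic defect groups.** -/
theorem oneBd_cyc {G : Type} [Group G] [Finite G] {Q : Subgroup G} (hQ : IsPGroup p Q)
    (hc : IsCyclic Q) : OneBd k Q (cycB p (Nat.card Q)) := by
  classical
  intro e a he ha hea hbr
  have heQ : e ∈ Fix (cj k G) Q := Fix_mono _ le_top he.mem.2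
  obtain ⟨i, hi, h1, h2, h3⟩ := exists_prim_br (S := Fix (cj k G) Q) (Q := Q) heQ he.idem.eq hbr
  exact ⟨i, hi.mem, hi.idem, h1, h3, cyclic_corner hQ hc he ha hea hi h1 h3⟩

section

variable {K V : Type} [Field K] [AddCommGroup V] [Module K V]

/-- `S` is maximal among the `p`-subgroups of the algebra which it generates. -/
def MaxIn (p : ℕ) (S : Subgroup (V ≃ₗ[K] V)) : Prop :=
  ∀ P : Subgroup (V ≃ₗ[K] V), S ≤ P → IsPGroup p P → (∀ x ∈ P, (x : V →ₗ[K] V) ∈
    Submodule.span K (Set.range fun s : S => ((s : V ≃ₗ[K] V) : V →ₗ[K] V))) → P = S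

/-- A defect group is maximal among the `p`-subgroups of the algebra which it generates. -/
theorem maxIn_of_block [Finite (V ≃ₗ[K] V)] {S : Subgroup (V ≃ₗ[K] V)} (hS : IsPGroup p S)
    {B z : MonoidAlgebra k (V ≃ₗ[K] V)} (hz : z ∈ Fix (cj k _) S) (hB : B = tr (cj k _) S ⊤ z)
    (hbr : br S B ≠ 0) : MaxIn p S := by
  classical
  intro P hSP hP hspan
  obtain ⟨c, hc, hBc⟩ := exists_coeff_of_br hbr
  have hcS : ∀ s ∈ S, s * c = c * s := by
    intro s hs
    have h1 := hc s hs
    calc s * c = c * (c⁻¹ * s * c) := by group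
      _ = c * s := by
        congr 1
        have h2 : s * c = c * s := by
          rw [mul_inv_eq_iff_eq_mul] at h1
          exact h1
        rw [mul_assoc, h2, inv_mul_cancel_left]
  have hcP : ∀ h ∈ P, h * c * h⁻¹ = c := by
    intro h hh
    have key : ∀ x ∈ Submodule.span K (Set.range fun s : S => ((s : V ≃ₗ[K] V) : V →ₗ[K] V)),
        x ∘ₗ (c : V →ₗ[K] V) = (c : V →ₗ[K] V) ∘ₗ x := by
      intro x hx
      induction hx using Submodule.span_induction with
      | mem x hx =>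
        obtain ⟨s, rfl⟩ := hx
        have h3 := hcS s s.2
        apply LinearMap.ext
        intro v
        exact congrArg (fun g : V ≃ₗ[K] V => g v) h3
      | zero => rw [LinearMap.zero_comp, LinearMap.comp_zero]
      | add x y _ _ hx hy => rw [LinearMap.add_comp, LinearMap.comp_add, hx, hy]
      | smul a x _ hx => rw [LinearMap.smul_comp, LinearMap.comp_smul, hx]
    have h4 := key _ (hspan h hh)
    rw [mul_inv_eq_iff_eq_mul]
    apply LinearEquiv.ext
    intro v
    exact congrArg (fun g : V →ₗ[K] V => g v) h4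
  have h5 := card_le_of_coeff (k := k) (p := p) (N := ⊤) (P := S) (Q := P) le_top le_top hP hz hB
    hcP hBc
  have hfin : Finite P := inferInstance
  exact (Subgroup.eq_of_le_of_card_ge hSP h5).symm

/-- the elements whose determinant has order prime to `p` -/
noncomputable def NG (p : ℕ) (K V : Type) [Field K] [AddCommGroup V] [Module K V] :
    Subgroup (V ≃ₗ[K] V) :=
  ((powMonoidHom (ordCompl[p] (Nat.card K - 1)) : Kˣ →* Kˣ).comp
    (LinearEquiv.det : (V ≃ₗ[K] V) →* Kˣ)).ker

theorem mem_NG {g : V ≃ₗ[K] V} : g ∈ NG p K V ↔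
    (LinearEquiv.det g) ^ (ordCompl[p] (Nat.card K - 1)) = 1 := Iff.rfl

instance : (NG p K V).Normal := by
  unfold NG
  infer_instance

theorem NG_of_det {g : V ≃ₗ[K] V} (h : LinearEquiv.det g = 1) : g ∈ NG p K V := by
  rw [mem_NG, h, one_pow]

theorem isPGroup_quot [Finite K] : IsPGroup p ((V ≃ₗ[K] V) ⧸ NG p K V) := by
  intro x
  obtain ⟨g, rfl⟩ := QuotientGroup.mk_surjective x
  refine ⟨(Nat.card K - 1).factorization p, ?_⟩
  rw [← QuotientGroup.mk_pow, QuotientGroup.eq_one_iff, mem_NG, map_pow, ← pow_mul,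
    Nat.ordProj_mul_ordCompl_eq_self, ← Nat.card_units]
  exact pow_card_eq_one'

/-- the special linear group in `NG` -/
noncomputable def jS (p : ℕ) [Fact p.Prime] (K V : Type) [Field K] [AddCommGroup V] [Module K V] :
    SpecialLinearGroup K V →* NG p K V :=
  (SpecialLinearGroup.toLinearEquiv (R := K) (V := V)).codRestrict (NG p K V)
    (fun x => NG_of_det (by
      have h : (SpecialLinearGroup.toLinearEquiv x) ∈
          (SpecialLinearGroup.toLinearEquiv (R := K) (V := V)).range := ⟨x, rfl⟩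
      rw [H396.range_toLinearEquiv] at h
      exact h))

theorem jS_injective : Function.Injective (jS p K V) := fun x y h =>
  SpecialLinearGroup.toLinearEquiv_injective (show SpecialLinearGroup.toLinearEquiv x =
    SpecialLinearGroup.toLinearEquiv y from congrArg (fun z : NG p K V => (z : V ≃ₗ[K] V)) h)

/-- From `NG` to the special linear group. -/
theorem oneBd_sl_of_NG [Finite K] [Finite (V ≃ₗ[K] V)] [Finite (SpecialLinearGroup K V)]
    {Q : Subgroup (SpecialLinearGroup K V)} (hQ : IsPGroup p Q) {C : ℕ}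
    (h : OneBd k (Q.map (jS p K V)) C) : OneBd k Q ((Nat.card Q).factorial * C) := by
  have hp : p.Prime := Fact.out
  have hq : Nat.card K - 1 ≠ 0 := by
    have := Finite.one_lt_card (α := K)
    omega
  obtain ⟨χ, hχ⟩ := Vale.Agent.P180.R2.H259.Exp.exists_chi (k := k) (p := p)
    ((LinearEquiv.det : (V ≃ₗ[K] V) →* Kˣ).comp (NG p K V).subtype)
    (Nat.not_dvd_ordCompl hp hq) (fun g => g.2)
  refine H396.oneBd_emb (jS p K V) jS_injective χ (hχ.trans ?_) hQ h
  ext g
  constructor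
  · intro hg
    have h1 : (g : V ≃ₗ[K] V) ∈ (SpecialLinearGroup.toLinearEquiv (R := K) (V := V)).range := by
      rw [H396.range_toLinearEquiv]
      exact hg
    obtain ⟨x, hx⟩ := h1
    exact ⟨x, Subtype.ext hx⟩
  · rintro ⟨x, rfl⟩
    have h1 : (SpecialLinearGroup.toLinearEquiv x) ∈
        (SpecialLinearGroup.toLinearEquiv (R := K) (V := V)).range := ⟨x, rfl⟩
    rw [H396.range_toLinearEquiv] at h1
    exact h1

end

/-- the bound for special linear groups -/
noncomputable def slC (p n : ℕ) : ℕ := max (n.factorial * glC p (n ^ 2)) (cycB p n)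

/-- **Special linear groups**, all ranks, `p` odd: a small idempotent for the blocks with an abelian
defect group; from the three lemmas. -/
theorem oneBd_slAll_of {K V : Type} [Field K] [Finite K] [AddCommGroup V] [Module K V] [Finite V]
    [Finite (V ≃ₗ[K] V)] [Finite (SpecialLinearGroup K V)] (hpK : ¬ p ∣ Nat.card K)
    (hA : p ∣ Nat.card K - 1 → ∀ S : Subgroup (V ≃ₗ[K] V), IsPGroup p S → MaxIn p S →
      (∀ x ∈ S, ∀ y ∈ S, LinearMap.det (x : V →ₗ[K] V) = 1 → LinearMap.det (y : V →ₗ[K] V) = 1 →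
        x * y = y * x) → ∀ x ∈ S, ∀ y ∈ S, x * y = y * x)
    (hC : p ∣ Nat.card K - 1 → ∀ S : Subgroup (V ≃ₗ[K] V), IsPGroup p S → MaxIn p S →
      (∀ x ∈ S, ∀ y ∈ S, x * y = y * x) →
      IsCyclic (S ⊓ (LinearEquiv.det : (V ≃ₗ[K] V) →* Kˣ).ker : Subgroup (V ≃ₗ[K] V)) ∨
        Nat.card S ≤ (Nat.card (S ⊓ (LinearEquiv.det : (V ≃ₗ[K] V) →* Kˣ).ker :
          Subgroup (V ≃ₗ[K] V))) ^ 2)
    (hB : ∀ Q : Subgroup (NG p K V), IsPGroup p Q → ∀ C : ℕ,
      (∀ (S : Subgroup (V ≃ₗ[K] V)) (B z : MonoidAlgebra k (V ≃ₗ[K] V)), IsPGroup p S →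
        (∃ g : V ≃ₗ[K] V, ∀ x, x ∈ S ⊓ NG p K V ↔ g⁻¹ * x * g ∈ Q.map (NG p K V).subtype) →
        IsBlockOf ⊤ B → z ∈ Fix (cj k _) S → B = tr (cj k _) S ⊤ z → br S B ≠ 0 →
        OneBd k S C) → OneBd k Q C)
    {n : ℕ} {Q : Subgroup (SpecialLinearGroup K V)} (hQ : IsPGroup p Q) (hQn : Nat.card Q ≤ n)
    (hab : ∀ x ∈ Q, ∀ y ∈ Q, x * y = y * x) : OneBd k Q (slC p n) := by
  classical
  have hn : 1 ≤ n := Nat.card_pos.trans_le hQn
  have hn2 : n ≤ n ^ 2 := by nlinarith
  have mono : ∀ {C C' : ℕ}, C ≤ C' → OneBd k Q C → OneBd k Q C' := by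
    intro C C' hCC h e a he ha hea hbr
    obtain ⟨i, h1, h2, h3, h4, h5⟩ := h e a he ha hea hbr
    exact ⟨i, h1, h2, h3, h4, h5.trans hCC⟩
  by_cases hcyc : IsCyclic Q
  · exact mono ((cycB_mono hQn).trans (le_max_right _ _)) (oneBd_cyc hQ hcyc)
  by_cases hq : p ∣ Nat.card K - 1
  · -- descent from the general linear group
    refine mono ?_ (oneBd_sl_of_NG hQ (C := glC p (n ^ 2)) ?_)
    · exact (Nat.mul_le_mul_right _ (Nat.factorial_le hQn)).trans (le_max_left _ _)
    refine hB _ (hQ.map _) _ ?_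
    rintro S B z hS ⟨g, hg⟩ hBb hz hBz hbr
    have hmax : MaxIn p S := maxIn_of_block hS hz hBz hbr
    have hmapj : (Q.map (jS p K V)).map (NG p K V).subtype =
        Q.map (SpecialLinearGroup.toLinearEquiv (R := K) (V := V)) := by
      rw [Subgroup.map_map]
      rfl
    rw [hmapj] at hg
    -- the conjugation
    have hcg : ∀ x ∈ S ⊓ NG p K V, ∀ y ∈ S ⊓ NG p K V, x * y = y * x := by
      intro x hx y hy
      obtain ⟨x', hx', hx1⟩ := (hg x).mp hx
      obtain ⟨y', hy', hy1⟩ := (hg y).mp hy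
      have h1 : g⁻¹ * x * g * (g⁻¹ * y * g) = g⁻¹ * y * g * (g⁻¹ * x * g) := by
        rw [← hx1, ← hy1, ← map_mul, ← map_mul, hab _ hx' _ hy']
      have h2 : g⁻¹ * (x * y) * g = g⁻¹ * (y * x) * g := by
        calc g⁻¹ * (x * y) * g = g⁻¹ * x * g * (g⁻¹ * y * g) := by group
          _ = g⁻¹ * y * g * (g⁻¹ * x * g) := h1
          _ = g⁻¹ * (y * x) * g := by group
      exact mul_left_cancel (mul_right_cancel h2)
    let eQ : (S ⊓ NG p K V : Subgroup (V ≃ₗ[K] V)) ≃*
        Q.map (SpecialLinearGroup.toLinearEquiv (R := K) (V := V)) :=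
      { toFun := fun x => ⟨g⁻¹ * x * g, (hg x).mp x.2⟩
        invFun := fun x => ⟨g * x * g⁻¹, (hg _).mpr (by
          have h1 : g⁻¹ * (g * (x : V ≃ₗ[K] V) * g⁻¹) * g = x := by group
          rw [h1]
          exact x.2)⟩
        left_inv := fun x => Subtype.ext (by
          change g * (g⁻¹ * (x : V ≃ₗ[K] V) * g) * g⁻¹ = x
          group)
        right_inv := fun x => Subtype.ext (by
          change g⁻¹ * (g * (x : V ≃ₗ[K] V) * g⁻¹) * g = x
          group)
        map_mul' := fun x y => Subtype.ext (by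
          change g⁻¹ * ((x : V ≃ₗ[K] V) * y) * g = g⁻¹ * (x : V ≃ₗ[K] V) * g * (g⁻¹ * y * g)
          group) }
    let eQ2 : Q ≃* Q.map (SpecialLinearGroup.toLinearEquiv (R := K) (V := V)) :=
      Q.equivMapOfInjective _ SpecialLinearGroup.toLinearEquiv_injective
    have hcard : Nat.card (S ⊓ NG p K V : Subgroup (V ≃ₗ[K] V)) = Nat.card Q :=
      (Nat.card_congr eQ.toEquiv).trans (Nat.card_congr eQ2.toEquiv).symm
    have hdet : ∀ x : V ≃ₗ[K] V, LinearMap.det (x : V →ₗ[K] V) = 1 → x ∈ NG p K V := by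
      intro x hx
      refine NG_of_det (Units.ext ?_)
      rw [LinearEquiv.coe_det, hx, Units.val_one]
    have hSab : ∀ x ∈ S, ∀ y ∈ S, x * y = y * x :=
      hA hq S hS hmax fun x hx y hy hx1 hy1 => hcg x ⟨hx, hdet x hx1⟩ y ⟨hy, hdet y hy1⟩
    have hSN : S ⊓ NG p K V ≤ S ⊓ (LinearEquiv.det : (V ≃ₗ[K] V) →* Kˣ).ker := by
      rintro x ⟨hx, hxN⟩
      refine ⟨hx, ?_⟩
      obtain ⟨j, hj⟩ := hS ⟨x, hx⟩
      have hj : x ^ p ^ j = 1 := congrArg Subtype.val hj
      have hp : p.Prime := Fact.out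
      have hq1 : Nat.card K - 1 ≠ 0 := by
        have := Finite.one_lt_card (α := K)
        omega
      have h1 : (LinearEquiv.det x) ^ p ^ j = 1 := by rw [← map_pow, hj, map_one]
      have h2 := orderOf_dvd_of_pow_eq_one h1
      have h3 := orderOf_dvd_of_pow_eq_one (mem_NG.mp hxN)
      have h4 : Nat.Coprime (p ^ j) (ordCompl[p] (Nat.card K - 1)) :=
        (Nat.coprime_ordCompl hp hq1).pow_left j
      have h5 := Nat.eq_one_of_dvd_coprimes h4 h2 h3
      exact orderOf_eq_one_iff.mp h5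
    have hScard : Nat.card S ≤ n ^ 2 := by
      rcases hC hq S hS hmax hSab with h | h
      · exfalso
        apply hcyc
        have h1 : IsCyclic (S ⊓ NG p K V : Subgroup (V ≃ₗ[K] V)) :=
          isCyclic_of_injective (Subgroup.inclusion hSN) (Subgroup.inclusion_injective _)
        exact isCyclic_of_injective (eQ2.trans eQ.symm).toMonoidHom (eQ2.trans eQ.symm).injective
      · refine h.trans (Nat.pow_le_pow_left (le_trans ?_ hQn) 2)
        rw [← hcard]
        refine Nat.card_le_card_of_injective (Subgroup.inclusion (inf_le_inf_left S ?_))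
          (Subgroup.inclusion_injective _)
        exact fun x hx => NG_of_det hx
    exact oneBd_glb hpK hS hScard hSab
  · have h1 : OneBd k (Q.map (SpecialLinearGroup.toLinearEquiv (R := K) (V := V))) (glC p n) := by
      refine oneBd_glb hpK (hQ.map _) ?_ ?_
      · rw [Subgroup.card_map_of_injective SpecialLinearGroup.toLinearEquiv_injective]
        exact hQn
      · rintro _ ⟨x, hx, rfl⟩ _ ⟨y, hy, rfl⟩
        rw [← map_mul, ← map_mul, hab x hx y hy]
    refine mono ?_ (H396.oneBd_sl hq hQ h1)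
    exact (Nat.mul_le_mul (Nat.factorial_le hQn) (glC_mono hn2)).trans (le_max_left _ _)

end Vale.Agent.P180.H951
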