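import Vale.Agent.P180.H951.OutH
import Vale.Agent.P180.H19.Out

/-! Outer diagonal actions on special linear groups, assembly. -/

set_option linter.all false

namespace Vale.Agent.P180.H951

open Module Subgroup Vale.Agent.P180 Vale.Agent.P180.H768.Gd Vale.Agent.P180.R2.H471.Hc
  Vale.Agent.P180.R2.H799 Vale.Agent.P180.R2.H954

universe u

section

variable {K V : Type} [Field K] [AddCommGroup V] [Module K V]

/-- the special linear group in `PG` -/
noncomputable def jP (p : ℕ) (K V : Type) [Field K] [AddCommGroup V] [Module K V] :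
    SpecialLinearGroup K V →* PG p K V :=
  (SpecialLinearGroup.toLinearEquiv (R := K) (V := V)).codRestrict (PG p K V)
    (fun x => by
      have h : (SpecialLinearGroup.toLinearEquiv x) ∈
          (SpecialLinearGroup.toLinearEquiv (R := K) (V := V)).range := ⟨x, rfl⟩
      rw [H396.range_toLinearEquiv] at h
      have h1 : LinearEquiv.det (SpecialLinearGroup.toLinearEquiv x) = 1 := h
      rw [mem_PG, h1, one_pow])

theorem coe_jP (p : ℕ) (x : SpecialLinearGroup K V) :
    ((jP p K V x : PG p K V) : V ≃ₗ[K] V) = SpecialLinearGroup.toLinearEquiv x := rfl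

theorem jP_injective (p : ℕ) : Function.Injective (jP p K V) := fun x y h =>
  SpecialLinearGroup.toLinearEquiv_injective (show SpecialLinearGroup.toLinearEquiv x =
    SpecialLinearGroup.toLinearEquiv y from congrArg (fun z : PG p K V => (z : V ≃ₗ[K] V)) h)

theorem range_jP (p : ℕ) : (jP p K V).range = SG p K V := by
  ext g
  constructor
  · rintro ⟨x, rfl⟩
    have h : (SpecialLinearGroup.toLinearEquiv x) ∈
        (SpecialLinearGroup.toLinearEquiv (R := K) (V := V)).range := ⟨x, rfl⟩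
    rw [H396.range_toLinearEquiv] at h
    exact h
  · intro hg
    have h1 : (g : V ≃ₗ[K] V) ∈ (SpecialLinearGroup.toLinearEquiv (R := K) (V := V)).range := by
      rw [H396.range_toLinearEquiv]
      exact hg
    obtain ⟨x, hx⟩ := h1
    exact ⟨x, Subtype.ext hx⟩

/-- a central element of the special linear group is a scalar -/
theorem scalar_of_center [Module.Finite K V] {x : SpecialLinearGroup K V}
    (hx : x ∈ Subgroup.center (SpecialLinearGroup K V)) :
    ∃ c : K, ∀ v, (SpecialLinearGroup.toLinearEquiv x) v = c • v := by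
  obtain ⟨c, -, h1⟩ := SpecialLinearGroup.mem_center_iff.mp hx
  refine ⟨c, fun v => ?_⟩
  have h2 := congrArg (fun f : V →ₗ[K] V => f v) h1
  exact h2

/-- a central element of the special linear group is central in the general linear group -/
theorem center_of_center [Module.Finite K V] {x : SpecialLinearGroup K V}
    (hx : x ∈ Subgroup.center (SpecialLinearGroup K V)) :
    SpecialLinearGroup.toLinearEquiv x ∈ Subgroup.center (V ≃ₗ[K] V) := by
  obtain ⟨c, hc⟩ := scalar_of_center hx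
  rw [Subgroup.mem_center_iff]
  intro y
  apply LinearEquiv.ext
  intro v
  change y ((SpecialLinearGroup.toLinearEquiv x) v) = (SpecialLinearGroup.toLinearEquiv x) (y v)
  rw [hc, hc, map_smul]

end

section

variable {k : Type u} [Field k] [IsAlgClosed k] {p : ℕ} [Fact p.Prime] [CharP k p]
  {K V : Type} [Field K] [Finite K] [AddCommGroup V] [Module K V] [Finite V]
  [Finite (V ≃ₗ[K] V)]

/-- **(F2) Outer diagonal actions**, from the lemma on maximal groups. -/
theorem outBd_gl_ofA (hpK : ¬ p ∣ Nat.card K)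
    (hA : ∀ S : Subgroup (V ≃ₗ[K] V), IsPGroup p S → MaxIn p S →
      (∀ x ∈ S, ∀ y ∈ S, LinearMap.det (x : V →ₗ[K] V) = 1 →
        LinearMap.det (y : V →ₗ[K] V) = 1 → x * y = y * x ∨
          (5 ≤ p ∧ x * y * x⁻¹ * y⁻¹ ∈ Subgroup.center (V ≃ₗ[K] V))) →
      ∀ x ∈ S, ∀ y ∈ S, x * y = y * x)
    {m : ℕ} (hm : ∀ j, p ^ j ∣ Nat.card K - 1 → p ^ j ≤ m)
    {H : Type} [Group H] [Finite H] (q : PG p K V →* H) (hq : Function.Surjective q)
    (hqs : ∀ x, q x = 1 → ∃ c : K, ∀ v, (x : V ≃ₗ[K] V) v = c • v)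
    {P' Q' : Subgroup H} (hP' : IsPGroup p P') (hQ' : IsPGroup p Q')
    (hQN : Q' ≤ (SG p K V).map q) {n : ℕ} (hQn : Nat.card Q' ≤ n)
    (hab : ∀ x y : PG p K V, LinearEquiv.det (x : V ≃ₗ[K] V) = 1 →
      LinearEquiv.det (y : V ≃ₗ[K] V) = 1 → q x ∈ Q' → q y ∈ Q' →
      (x : V ≃ₗ[K] V) * y = y * x ∨
        (5 ≤ p ∧ (x : V ≃ₗ[K] V) * y * (x : V ≃ₗ[K] V)⁻¹ * (y : V ≃ₗ[K] V)⁻¹ ∈
          Subgroup.center (V ≃ₗ[K] V))) :
    H393.OutBd k ((SG p K V).map q) P' Q' (outC p n m) := by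
  haveI : ((SG p K V).map q).Normal := Subgroup.Normal.map inferInstance q hq
  have hc : IsCyclic (H ⧸ (SG p K V).map q) := isCyclic_mapSG q hq
  have hN : IsPGroup p (H ⧸ (SG p K V).map q) := isPGroup_mapSG q hq
  exact H19.Pidx.outBd_pidx hc hN (primStmt_cyc _ hc hN) hP' hQ' hQN
    fun S B z hS _ hSN _ _ _ _ => oneBd_PG hpK hA hm q hq hqs hQn hab hS hSN

/-- **(F2) Outer diagonal actions**, in terms of the special linear group. -/
theorem outBd_glS_ofA (hpK : ¬ p ∣ Nat.card K)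
    (hA : ∀ S : Subgroup (V ≃ₗ[K] V), IsPGroup p S → MaxIn p S →
      (∀ x ∈ S, ∀ y ∈ S, LinearMap.det (x : V →ₗ[K] V) = 1 →
        LinearMap.det (y : V →ₗ[K] V) = 1 → x * y = y * x ∨
          (5 ≤ p ∧ x * y * x⁻¹ * y⁻¹ ∈ Subgroup.center (V ≃ₗ[K] V))) →
      ∀ x ∈ S, ∀ y ∈ S, x * y = y * x)
    {m : ℕ} (hm : ∀ j, p ^ j ∣ Nat.card K - 1 → p ^ j ≤ m)
    {H : Type} [Group H] [Finite H] (q : PG p K V →* H) (hq : Function.Surjective q)
    (hqc : ∀ g, q g = 1 → ∃ z ∈ Subgroup.center (SpecialLinearGroup K V), jP p K V z = g)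
    {P' Q' : Subgroup H} (hP' : IsPGroup p P') (hQ' : IsPGroup p Q')
    (hQN : Q' ≤ (jP p K V).range.map q) {n : ℕ} (hQn : Nat.card Q' ≤ n)
    (hab : ∀ x y : SpecialLinearGroup K V, q (jP p K V x) ∈ Q' → q (jP p K V y) ∈ Q' →
      x * y = y * x ∨
        (5 ≤ p ∧ x * y * x⁻¹ * y⁻¹ ∈ Subgroup.center (SpecialLinearGroup K V))) :
    H393.OutBd k ((jP p K V).range.map q) P' Q' (outC p n m) := by
  rw [range_jP] at hQN ⊢
  refine outBd_gl_ofA hpK hA hm q hq ?_ hP' hQ' hQN hQn ?_
  · intro g hg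
    obtain ⟨z, hz, rfl⟩ := hqc g hg
    exact scalar_of_center hz
  · intro x y hx hy hqx hqy
    have h1 : x ∈ (jP p K V).range := by
      rw [range_jP]
      exact hx
    have h2 : y ∈ (jP p K V).range := by
      rw [range_jP]
      exact hy
    obtain ⟨x, rfl⟩ := h1
    obtain ⟨y, rfl⟩ := h2
    rcases hab x y hqx hqy with h | ⟨h5, h⟩
    · left
      rw [coe_jP, coe_jP, ← map_mul, ← map_mul, h]
    · right
      refine ⟨h5, ?_⟩
      have h3 := center_of_center h
      rwa [map_mul, map_mul, map_mul, map_inv, map_inv] at h3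

end

end Vale.Agent.P180.H951
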