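import Vale.Agent.P180.H951.OneGL
import Vale.Agent.P180.H897.C1Fin

/-! General linear groups of unbounded rank: a small idempotent for the blocks with an abelian defect
group which is homogeneous on a subspace of bounded codimension. -/

set_option linter.all false

namespace Vale.Agent.P180.H951

open Module Subgroup Vale.Agent.P180 Vale.Agent.P180.H768.Gd Vale.Agent.P180.R2.H799
  Vale.Agent.P180.R2.H471.Hc Vale.Agent.P180.R2.H954.Hc

universe u

/-- **General linear groups**: a small idempotent for the blocks with an abelian defect group which is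
homogeneous on a subspace of codimension at most `m`. -/
theorem oneBd_gl {k : Type u} [Field k] [IsAlgClosed k] {p : ℕ} [Fact p.Prime] [CharP k p]
    {F V : Type} [Field F] [Finite F] [AddCommGroup V] [Module F V] [Finite V]
    [Finite (V ≃ₗ[F] V)]
    (hpF : ¬ p ∣ Nat.card F) {m n : ℕ} {Q : Subgroup (V ≃ₗ[F] V)} (hQ : IsPGroup p Q)
    (hQn : Nat.card Q ≤ n) (hab : ∀ x ∈ Q, ∀ y ∈ Q, x * y = y * x)
    (hm : ∃ W, HomOn Q W ∧ finrank F V ≤ finrank F W + m) : OneBd k Q (glB p m n) := by
  classical
  have hchar : CharZero (KK k p) := charZero_KK k p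
  have hfint : Fintype (V ≃ₗ[F] V) := Fintype.ofFinite _
  exact oneBd_gl_of (fun h χ hχ x hx hxx => H897.c1 h χ hχ x hx hxx) hpF hQ hQn hab hm

end Vale.Agent.P180.H951
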