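import Vale.Agent.P180.H951.OneGLC
import Vale.Agent.P180.H337.Cug

/-! The statement about parabolic subgroups of centralisers, and the theorem on general linear
groups. -/

set_option linter.all false

namespace Vale.Agent.P180.H951

open Module Subgroup Vale.Agent.P180.R2.H471.Hc Vale.Agent.P180.R2.H954.Hc
  Vale.Agent.P180.R2.H799 Vale.Agent.P180.H393 Vale.Agent.P180.H386

universe u

theorem mem_UB_iff' {F : Type} [Field F] {A B : Type} [AddCommGroup A] [Module F A]
    [AddCommGroup B] [Module F B] {g : (A × B) ≃ₗ[F] (A × B)} :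
    g ∈ UB (F := F) A B ↔
      (∀ w ∈ LinearMap.range (LinearMap.inr F A B), g w = w) ∧
        ∀ v, g v - v ∈ LinearMap.range (LinearMap.inr F A B) := by
  constructor
  · rintro ⟨f, rfl⟩
    constructor
    · rintro _ ⟨b, rfl⟩
      rw [LinearMap.inr_apply, sk_apply]
      simp
    · rintro ⟨a, b⟩
      refine ⟨f a, ?_⟩
      rw [LinearMap.inr_apply, sk_apply]
      simp
  · rintro ⟨h1, h2⟩
    refine ⟨LinearMap.snd F A B ∘ₗ ((g : (A × B) →ₗ[F] (A × B)) - LinearMap.id) ∘ₗ
      LinearMap.inl F A B, ?_⟩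
    apply LinearEquiv.ext
    rintro ⟨a, b⟩
    have h3 : ((a, b) : A × B) = (a, 0) + (0, b) := by simp
    obtain ⟨c, hc⟩ := h2 (a, 0)
    have h4 := h1 (0, b) ⟨b, rfl⟩
    rw [LinearMap.inr_apply] at hc
    have h5 : g (a, 0) = (a, c) := by
      rw [← sub_add_cancel (g (a, 0)) (a, 0), ← hc]
      simp
    rw [sk_apply]
    rw [h3, map_add, h4, h5]
    simp [h5]
    exact add_comm c b

/-- **The general linear half** -/
theorem glHalf (p : ℕ) [Fact p.Prime] (F : Type) [Field F] [Finite F] : H568.GLHalf p F := by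
  intro hpF A B _ _ _ _ _ _ hA hB R hR hab hhom x hx hx1 hxp hc
  have hp : p.Prime := Fact.out
  obtain ⟨q, hq⟩ := hc
  have hfA : FiniteDimensional F A := Module.Finite.of_finite
  have hfB : FiniteDimensional F B := Module.Finite.of_finite
  have hntA : Nontrivial A := Module.nontrivial_of_finrank_pos hA
  have hntB : Nontrivial B := Module.nontrivial_of_finrank_pos hB
  have hHm : H337.Ecu.Hm R := by
    intro P hP
    rcases hhom.2 P hP with h | h
    · left
      exact fun w => h w Submodule.mem_top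
    · right
      exact fun w hw => h w Submodule.mem_top hw
  obtain ⟨𝒱, ⟨h1, h2⟩, h3⟩ := H337.Ecu.exists_sys (W := LinearMap.range (LinearMap.inr F A B))
    hp hpF hHm hx1 hxp hq (by
      rintro _ ⟨b, rfl⟩
      have h4 : (x (0, b)).1 = 0 := by
        obtain ⟨a, b', f, rfl⟩ := hx
        rw [sk_apply]
        exact map_zero a
      exact ⟨(x (0, b)).2, Prod.ext h4.symm rfl⟩)
    (by
      obtain ⟨b, hb⟩ := exists_ne (0 : B)
      rw [Submodule.ne_bot_iff]
      exact ⟨_, ⟨b, rfl⟩, fun h => hb (congrArg Prod.snd h)⟩)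
    (by
      obtain ⟨a, ha⟩ := exists_ne (0 : A)
      intro h
      have h4 : ((a, 0) : A × B) ∈ LinearMap.range (LinearMap.inr F A B) := by
        rw [h]; trivial
      obtain ⟨b, hb⟩ := h4
      exact ha (congrArg Prod.fst hb).symm)
    (U := (cU (UB (F := F) A B) x).subgroupOf
      (centralizer ({x} : Set ((A × B) ≃ₗ[F] (A × B))))) (by
      intro g
      rw [Subgroup.mem_subgroupOf, mem_cU, ← mem_UB_iff']
      constructor
      · exact fun h => h.1
      · exact fun h => ⟨h, (mem_centralizer_singleton_iff.1 g.2)⟩)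
  exact ⟨𝒱, h1, h2, h3⟩

/-- **THEOREM B**: for each abelian `p`-subgroup of a general linear group over a finite field of
characteristic different from `p`, of any rank. -/
theorem oneBd_glb {k : Type u} [Field k] [IsAlgClosed k] {p : ℕ} [Fact p.Prime]
    [CharP k p] {F V : Type} [Field F] [Finite F] [AddCommGroup V] [Module F V] [Finite V]
    [Finite (V ≃ₗ[F] V)] (hpF : ¬ p ∣ Nat.card F) {n : ℕ}
    {Q : Subgroup (V ≃ₗ[F] V)} (hQ : IsPGroup p Q) (hQn : Nat.card Q ≤ n)
    (hab : ∀ x ∈ Q, ∀ y ∈ Q, x * y = y * x) : OneBd k Q (glC p n) :=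
  oneBd_glb_of_half (glHalf p F) hpF hQ hQn hab

end Vale.Agent.P180.H951
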