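import Vale.Agent.P180.H951.Dec
import Vale.Agent.P180.R2.H854.Form

/-! Decompositions of a space with a form under a commutative group of isometries, into a fixed part
and dual pairs of homogeneous totally isotropic subspaces. -/

set_option linter.all false

namespace Vale.Agent.P180.H951

open Module Vale.Agent.P180.R2.H854

variable {K E : Type} [Field K] [Finite K] [AddCommGroup E] [Module K E] [FiniteDimensional K E]

/-- The subspaces `range (e i)` and `range (adj (e i))` are totally isotropic, they are in duality
and orthogonal to the other pairs; `Q` is homogeneous and nontrivial on `range (e i)`, and trivial on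
the orthogonal complement of all the pairs. -/
structure PD (Φ : HForm K E) (Q : Subgroup (E ≃ₗ[K] E)) (r : ℕ) where
  /-- the projections -/
  e : Fin r → End K E
  idem : ∀ i, e i * e i = e i
  orth : ∀ i j, i ≠ j → e i * e j = 0
  iso : ∀ i j, Φ.adj (e i) * e j = 0
  iso' : ∀ i j, e i * Φ.adj (e j) = 0
  comm : ∀ a : End K E, (∀ q ∈ Q, a * tE q = tE q * a) → ∀ i, a * e i = e i * a
  hom : ∀ i, ∀ x ∈ Submodule.span K (Set.range fun q : Q => tE (q : E ≃ₗ[K] E)),
    x * e i = 0 ∨ ∀ w, x (e i w) = 0 → e i w = 0
  nt : ∀ i, ∃ q ∈ Q, tE q * e i ≠ e i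
  triv : ∀ v, (∀ i, e i v = 0) → (∀ i, Φ.adj (e i) v = 0) → ∀ q ∈ Q, q v = v

end Vale.Agent.P180.H951
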