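import Vale.Agent.P180.R2.H954.Hc4a
import Vale.Agent.P180.R2.H954.G1

/-! Blocks of a group with a direct factor, and the blocks of the factor. -/

set_option linter.all false

namespace Vale.Agent.P180.H951

open Finset Subgroup Vale.Agent.P180 Vale.Agent.P180.H768.Gd Vale.Agent.P180.R2.H799
  Vale.Agent.P180.R2.H954 Vale.Agent.P180.R2.H954.Hc Vale.Agent.P180.R2.H12

section nil

variable {k : Type*} [Field k] {A : Type*} [Ring A] [Algebra k A] [FiniteDimensional k A]

/-- A combination with nilpotent central coefficients is nilpotent. -/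
theorem nil_of_sum {ι : Type*} (s : Finset ι) (c y : ι → A)
    (hc : ∀ i ∈ s, c i ∈ Subalgebra.center k A) (hn : ∀ i ∈ s, IsNilpotent (c i)) :
    IsNilpotent (∑ i ∈ s, c i * y i) := by
  classical
  let Z := Subalgebra.center k A
  have hfin : FiniteDimensional k Z := inferInstance
  have hnoeth : IsNoetherianRing Z := isNoetherian_of_tower k inferInstance
  obtain ⟨n, hn0⟩ := IsNoetherianRing.isNilpotent_nilradical Z
  let N := nilradical Z
  let T : ℕ → Submodule Z A := fun j => (N ^ j) • (⊤ : Submodule Z A)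
  have hmul : ∀ j, ∀ x ∈ T j, ∀ y : A, x * y ∈ T j := by
    intro j x hx y
    refine Submodule.smul_induction_on hx ?_ ?_
    · intro r hr m _
      rw [smul_mul_assoc]
      exact Submodule.smul_mem_smul hr Submodule.mem_top
    · intro a b ha hb
      rw [add_mul]
      exact Submodule.add_mem _ ha hb
  have hf : ∑ i ∈ s, c i * y i ∈ T 1 := by
    refine Submodule.sum_mem _ fun i hi => ?_
    have h1 : c i * y i = (⟨c i, hc i hi⟩ : Z) • y i := rfl
    rw [h1]
    refine Submodule.smul_mem_smul ?_ Submodule.mem_top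
    rw [pow_one]
    rw [mem_nilradical]
    obtain ⟨m, hm⟩ := hn i hi
    exact ⟨m, Subtype.ext hm⟩
  have hstep : ∀ j, ∀ x ∈ T 1, ∀ y ∈ T j, x * y ∈ T (j + 1) := by
    intro j x hx y hy
    refine Submodule.smul_induction_on hx ?_ ?_
    · intro r hr m _
      rw [smul_mul_assoc]
      have h2 : m * y ∈ T j := by
        refine Submodule.smul_induction_on hy ?_ ?_
        · intro a ha b _
          have h5 : m * (a • b) = a • (m * b) := by
            change m * ((a : A) * b) = (a : A) * (m * b)
            rw [← mul_assoc, Subalgebra.mem_center_iff.mp a.2 m, mul_assoc]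
          rw [h5]
          exact Submodule.smul_mem_smul ha Submodule.mem_top
        · intro a b ha hb
          rw [mul_add]
          exact Submodule.add_mem _ ha hb
      have h3 : r • (m * y) ∈ (N ^ 1) • T j := Submodule.smul_mem_smul hr h2
      change r • (m * y) ∈ (N ^ (j + 1)) • (⊤ : Submodule Z A)
      rw [add_comm, pow_add, Submodule.mul_smul]
      exact h3
    · intro a b ha hb
      rw [add_mul]
      exact Submodule.add_mem _ ha hb
  have hpow : ∀ j, (∑ i ∈ s, c i * y i) ^ j ∈ T j := by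
    intro j
    induction j with
    | zero =>
      change _ ∈ (N ^ 0) • (⊤ : Submodule Z A)
      rw [pow_zero, pow_zero, Ideal.one_eq_top, Submodule.top_smul]
      exact Submodule.mem_top
    | succ j ih =>
      rw [pow_succ']
      exact hstep j _ hf _ ih
  refine ⟨n, ?_⟩
  have h1 := hpow n
  have h2 : T n = ⊥ := by
    change (N ^ n) • (⊤ : Submodule Z A) = ⊥
    rw [hn0, Submodule.zero_eq_bot, Submodule.bot_smul]
  rw [h2, Submodule.mem_bot] at h1
  exact h1

end nil

section

variable {k : Type*} [Field k] {L A : Type} [Group L] [Group A]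

/-- the homomorphism of group algebras -/
noncomputable def mi (k : Type*) [Field k] (ι : A →* L) : MonoidAlgebra k A →ₐ[k] MonoidAlgebra k L :=
  MonoidAlgebra.mapDomainAlgHom k k ι

theorem mi_single (ι : A →* L) (a : A) (c : k) :
    mi k ι (MonoidAlgebra.single a c) = MonoidAlgebra.single (ι a) c := by
  simp [mi]

/-- the slice of an element at `b` -/
noncomputable def sl (ι : A →* L) [Finite A] (b : L) : MonoidAlgebra k L →ₗ[k] MonoidAlgebra k A where
  toFun x := MonoidAlgebra.ofCoeff (Finsupp.equivFunOnFinite.symm fun a => x.coeff (ι a * b))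
  map_add' x y := by
    apply MonoidAlgebra.coeff_injective
    refine Finsupp.ext fun a => ?_
    rfl
  map_smul' c x := by
    apply MonoidAlgebra.coeff_injective
    refine Finsupp.ext fun a => ?_
    rfl

theorem sl_coeff (ι : A →* L) [Finite A] (b : L) (x : MonoidAlgebra k L) (a : A) :
    (sl ι b x).coeff a = x.coeff (ι a * b) := rfl

variable [Finite L] [Finite A] {ι : A →* L} {π : L →* A}

theorem sl_cj (hc : ∀ a b, π b = 1 → ι a * b = b * ι a) {b : L} (hb : π b = 1) (a : A)
    (x : MonoidAlgebra k L) : sl ι b (cj k L (ι a) x) = cj k A a (sl ι b x) := by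
  apply MonoidAlgebra.coeff_injective
  refine Finsupp.ext fun a' => ?_
  rw [sl_coeff, cj_coeff, cj_coeff, sl_coeff]
  congr 1
  rw [map_mul, map_mul, map_inv]
  calc (ι a)⁻¹ * (ι a' * b) * ι a = (ι a)⁻¹ * ι a' * (b * ι a) := by group
    _ = (ι a)⁻¹ * ι a' * ι a * b := by rw [← hc a b hb]; group

theorem sl_mi_mul (hc : ∀ a b, π b = 1 → ι a * b = b * ι a) (b : L)
    (u : MonoidAlgebra k A) (x : MonoidAlgebra k L) :
    sl ι b (mi k ι u * x) = u * sl ι b x := by
  classical
  induction u using MonoidAlgebra.induction_linear with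
  | zero => rw [map_zero, zero_mul, zero_mul, map_zero]
  | add u v hu hv => rw [map_add, add_mul, map_add, hu, hv, add_mul]
  | single a c =>
    rw [mi_single]
    apply MonoidAlgebra.coeff_injective
    refine Finsupp.ext fun a' => ?_
    rw [sl_coeff, MonoidAlgebra.coeff_single_mul_apply, MonoidAlgebra.coeff_single_mul_apply,
      sl_coeff]
    congr 2
    rw [map_mul ι, map_inv ι, mul_assoc]

theorem eq_sum_sl (hπ : ∀ a, π (ι a) = a) [Fintype L] [DecidableEq A] (x : MonoidAlgebra k L) :
    x = ∑ b ∈ Finset.univ.filter (fun b : L => π b = 1),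
      mi k ι (sl ι b x) * MonoidAlgebra.single b 1 := by
  classical
  have := Fintype.ofFinite A
  have hsum : ∀ y : MonoidAlgebra k A, y = ∑ a : A, MonoidAlgebra.single a (y.coeff a) := by
    intro y
    apply MonoidAlgebra.coeff_injective
    refine Finsupp.ext fun a => ?_
    rw [MonoidAlgebra.coeff_sum, Finsupp.finset_sum_apply, Finset.sum_eq_single a]
    · rw [MonoidAlgebra.coeff_single, Finsupp.single_eq_same]
    · intro b _ hb
      rw [MonoidAlgebra.coeff_single, Finsupp.single_apply, if_neg hb]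
    · intro h
      exact absurd (Finset.mem_univ a) h
  have h1 : ∀ b, mi k ι (sl ι b x) * MonoidAlgebra.single b 1 =
      ∑ a : A, MonoidAlgebra.single (ι a * b) (x.coeff (ι a * b)) := by
    intro b
    rw [hsum (sl ι b x), map_sum, Finset.sum_mul]
    refine Finset.sum_congr rfl fun a _ => ?_
    rw [mi_single, MonoidAlgebra.single_mul_single, mul_one, sl_coeff]
  rw [Finset.sum_congr rfl fun b _ => h1 b, Finset.sum_comm]
  apply MonoidAlgebra.coeff_injective
  refine Finsupp.ext fun y => ?_
  rw [MonoidAlgebra.coeff_sum, Finsupp.finset_sum_apply, Finset.sum_eq_single (π y)]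
  · rw [MonoidAlgebra.coeff_sum, Finsupp.finset_sum_apply, Finset.sum_eq_single ((ι (π y))⁻¹ * y)]
    · rw [mul_inv_cancel_left, MonoidAlgebra.coeff_single, Finsupp.single_eq_same]
    · intro b _ hb
      rw [MonoidAlgebra.coeff_single, Finsupp.single_apply, if_neg]
      intro h
      apply hb
      exact eq_inv_mul_of_mul_eq h
    · intro h
      exfalso
      apply h
      rw [Finset.mem_filter]
      exact ⟨Finset.mem_univ _, by rw [map_mul, map_inv, hπ, inv_mul_cancel]⟩
  · intro a _ ha
    rw [MonoidAlgebra.coeff_sum, Finsupp.finset_sum_apply]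
    refine Finset.sum_eq_zero fun b hb => ?_
    rw [MonoidAlgebra.coeff_single, Finsupp.single_apply, if_neg]
    intro h
    apply ha
    rw [← h, map_mul, hπ, (Finset.mem_filter.mp hb).2, mul_one]
  · intro h
    exact absurd (Finset.mem_univ _) h

variable {p : ℕ} [Fact p.Prime] [CharP k p]

/-- a central element of the group algebra of the factor is central -/
theorem mi_central (hπ : ∀ a, π (ι a) = a) (hc : ∀ a b, π b = 1 → ι a * b = b * ι a)
    {g : MonoidAlgebra k A} (hg : g ∈ Fix (cj k A) ⊤) : mi k ι g ∈ Fix (cj k L) ⊤ := by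
  rw [mem_Fix_cj_iff] at hg ⊢
  intro x _
  have h1 : x = ι (π x) * ((ι (π x))⁻¹ * x) := by group
  have hb : π ((ι (π x))⁻¹ * x) = 1 := by rw [map_mul, map_inv, hπ, inv_mul_cancel]
  set b := (ι (π x))⁻¹ * x with hbdef
  have h2 : MonoidAlgebra.single b (1 : k) * mi k ι g = mi k ι g * MonoidAlgebra.single b 1 := by
    clear_value b
    clear hg h1 hbdef
    induction g using MonoidAlgebra.induction_linear with
    | zero => rw [map_zero, zero_mul, mul_zero]
    | add u v hu hv => rw [map_add, add_mul, mul_add, hu, hv]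
    | single a c =>
      rw [mi_single, MonoidAlgebra.single_mul_single, MonoidAlgebra.single_mul_single, hc a b hb,
        one_mul, mul_one]
  have h3 : MonoidAlgebra.single x (1 : k) =
      mi k ι (MonoidAlgebra.single (π x) 1) * MonoidAlgebra.single b 1 := by
    rw [mi_single, MonoidAlgebra.single_mul_single, one_mul, ← h1]
  rw [h3, mul_assoc, h2, ← mul_assoc, ← mul_assoc, ← map_mul, ← map_mul, hg _ trivial]

/-- **Blocks of a direct factor.** -/
theorem exists_factor_block (hπ : ∀ a, π (ι a) = a) (hc : ∀ a b, π b = 1 → ι a * b = b * ι a)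
    {Q : Subgroup L} (hQ : IsPGroup p Q) {f z : MonoidAlgebra k L}
    (hf : IsBlockOf (⊤ : Subgroup L) f) (hz : z ∈ Fix (cj k L) Q)
    (hfz : f = tr (cj k L) Q ⊤ z) (hbr : br Q f ≠ 0) :
    ∃ g a : MonoidAlgebra k A, IsBlockOf (⊤ : Subgroup A) g ∧ mi k ι g * f = f ∧
      a ∈ Fix (cj k A) (Q.map π) ∧ g = tr (cj k A) (Q.map π) ⊤ a ∧ br (Q.map π) g ≠ 0 := by
  classical
  have hιinj : Function.Injective ι := fun a b h => by rw [← hπ a, ← hπ b, h]
  have _ := Fintype.ofFinite L
  have hfinA : FiniteDimensional k (MonoidAlgebra k A) :=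
    Module.Finite.equiv (MonoidAlgebra.coeffLinearEquiv k (M := A) (S := k)).symm
  have hfinL : FiniteDimensional k (MonoidAlgebra k L) :=
    Module.Finite.equiv (MonoidAlgebra.coeffLinearEquiv k (M := L) (S := k)).symm
  have hfT : f ∈ Fix (cj k L) ⊤ := hf.mem.2
  have hcm : ∀ g ∈ Fix (cj k A) ⊤, ∀ y : MonoidAlgebra k L, y * mi k ι g = mi k ι g * y :=
    fun g hg y => commute_of_mem (SubAlg_top y) (mi_central hπ hc hg)
  -- the block
  obtain ⟨m, gs, hgs, hs⟩ := exists_blocks (k := k) (⊤ : Subgroup A)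
  obtain ⟨l, hl⟩ : ∃ l, mi k ι (gs l) * f ≠ 0 := by
    by_contra hcon
    push Not at hcon
    apply hf.ne_zero
    have h1 : f = ∑ l, mi k ι (gs l) * f := by
      rw [← Finset.sum_mul, ← map_sum, ← hs, map_one, one_mul]
    rw [h1]
    exact Finset.sum_eq_zero fun l _ => hcon l
  set g := gs l with hg
  have hgB : IsBlockOf (⊤ : Subgroup A) g := hgs l
  have hgT : g ∈ Fix (cj k A) ⊤ := hgB.mem.2
  have hgf : mi k ι g * f = f := by
    rcases hf.primitive (mi k ι g * f) ⟨SubAlg_top _, Subalgebra.mul_mem _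
      (mi_central hπ hc hgT) hfT⟩ (by
        change mi k ι g * f * (mi k ι g * f) = mi k ι g * f
        calc mi k ι g * f * (mi k ι g * f) = mi k ι g * (f * mi k ι g) * f := by
              simp only [mul_assoc]
          _ = (mi k ι g * mi k ι g) * (f * f) := by rw [hcm g hgT]; simp only [mul_assoc]
          _ = mi k ι g * f := by rw [← map_mul, hgB.idem.eq, hf.idem.eq])
        (by rw [mul_assoc, hf.idem.eq]) with h | h
    · exact absurd h hl
    · exact h
  -- the relative trace
  set R := Q.map π with hR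
  set RB := R.comap π with hRB
  have hQRB : Q ≤ RB := fun q hq => ⟨q, hq, rfl⟩
  set z' := tr (cj k L) Q RB z with hz'
  have hz'F : z' ∈ Fix (cj k L) RB := tr_mem_Fix hz
  have hfz' : f = tr (cj k L) RB ⊤ z' := by
    rw [hz', tr_tr hz hQRB le_top]
    exact hfz
  have _ := Fintype.ofFinite (A ⧸ R)
  have hsum : f = ∑ q : A ⧸ R, cj k L (ι q.out) z' := by
    rw [hfz', tr_eq_sum' (ι := A ⧸ R) hz'F (fun q => ι q.out) (fun _ => Subgroup.mem_top _)]
    · intro i j h
      rw [← QuotientGroup.out_eq' i, ← QuotientGroup.out_eq' j, QuotientGroup.eq]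
      have h1 : π ((ι i.out)⁻¹ * ι j.out) ∈ R := h
      rwa [map_mul, map_inv, hπ, hπ] at h1
    · intro x _
      refine ⟨((π x : A) : A ⧸ R), ?_⟩
      change π ((ι (((π x : A) : A ⧸ R)).out)⁻¹ * x) ∈ R
      rw [map_mul, map_inv, hπ, ← QuotientGroup.eq]
      exact QuotientGroup.out_eq' _
  have hslR : ∀ b, π b = 1 → sl ι b z' ∈ Fix (cj k A) R := by
    intro b hb r hr
    rw [← sl_cj hc hb]
    congr 1
    exact hz'F _ (by change π (ι r) ∈ R; rw [hπ]; exact hr)
  have hslf : ∀ b, π b = 1 → sl ι b f = tr (cj k A) R ⊤ (sl ι b z') := by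
    intro b hb
    rw [tr_top_eq_sum (hslR b hb)]
    conv_lhs => rw [hsum]
    rw [map_sum]
    exact Finset.sum_congr rfl fun q _ => sl_cj hc hb _ _
  have hslT : ∀ b, π b = 1 → sl ι b f ∈ Fix (cj k A) ⊤ := by
    intro b hb
    rw [hslf b hb]
    exact tr_mem_Fix (hslR b hb)
  -- a slice which is not nilpotent
  obtain ⟨b, hb, hnil⟩ : ∃ b, π b = 1 ∧ ¬ IsNilpotent (sl ι b f) := by
    by_contra hcon
    push Not at hcon
    have h1 : IsNilpotent (∑ b ∈ Finset.univ.filter (fun b : L => π b = 1),
        mi k ι (sl ι b f) * MonoidAlgebra.single b 1) := by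
      refine nil_of_sum (k := k) _ _ _ ?_ ?_
      · intro b hb
        rw [Finset.mem_filter] at hb
        exact mem_center_iff_Fix_top.mpr (mi_central hπ hc (hslT b hb.2))
      · intro b hb
        rw [Finset.mem_filter] at hb
        exact (hcon b hb.2).map (mi k ι)
    rw [← eq_sum_sl hπ] at h1
    obtain ⟨n, hn⟩ := h1
    rcases n with _ | n
    · rw [pow_zero] at hn
      exact hf.ne_zero (by rw [← one_mul f, hn, zero_mul])
    · rw [hf.idem.pow_succ_eq] at hn
      exact hf.ne_zero hn
  have hsg : sl ι b f * g = sl ι b f := by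
    rw [← commute_of_mem (SubAlg_top g) (hslT b hb), ← sl_mi_mul hc, hgf]
  obtain ⟨y, hy, -, hsy⟩ := (hgB.dichotomy ZAlg_comm ⟨SubAlg_top _, hslT b hb⟩ hsg).resolve_left
    hnil
  refine ⟨g, sl ι b z' * y, hgB, hgf, Subalgebra.mul_mem _ (hslR b hb)
    (Fix_mono _ le_top hy.2), ?_, ?_⟩
  · rw [← tr_mul hy.2, ← hslf b hb, hsy]
  · -- the Brauer homomorphism
    have hgQ : mi k ι g ∈ Fix (cj k L) Q := Fix_mono _ le_top (mi_central hπ hc hgT)
    have h1 : br Q (mi k ι g) ≠ 0 := by
      intro h0
      apply hbr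
      rw [← hgf, br_mul hQ hgQ (Fix_mono _ le_top hfT), h0, zero_mul]
    obtain ⟨c, hcc, hc0⟩ := exists_coeff_of_br h1
    have h2 : ∃ c', ι c' = c := by
      by_contra hcon
      apply hc0
      change (MonoidAlgebra.mapDomain ι g).coeff c = 0
      rw [MonoidAlgebra.coeff_mapDomain]
      exact Finsupp.mapDomain_notin_range _ _ hcon
    obtain ⟨c', rfl⟩ := h2
    refine br_ne_zero_of_coeff (c := c') ?_ ?_
    · rintro _ ⟨h, hh, rfl⟩
      have h3 := congrArg π (hcc h hh)
      rw [map_mul, map_mul, map_inv, hπ] at h3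
      exact h3
    · intro h0
      apply hc0
      change (MonoidAlgebra.mapDomain ι g).coeff (ι c') = 0
      rw [MonoidAlgebra.coeff_mapDomain, Finsupp.mapDomain_apply hιinj]
      exact h0

end

end Vale.Agent.P180.H951
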