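import Vale.Agent.P180.H897.C1
import Vale.Agent.P180.H951.Slice

/-! The multiplicity of an irreducible character in `e_U J`, `J` an idempotent of the group algebra
of a Levi subgroup which is a direct product, from the multiplicities for one test idempotent of the
second factor. -/

set_option linter.all false

namespace Vale.Agent.P180.H951

universe u

open Finset Vale.Agent.P180 Vale.Agent.P180.R2.H799 Vale.Agent.P180.R2.H471.Hc
open Vale.Agent.P180.H393 (IsIr IsCF ev)
open Vale.Agent.P180.H337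
open Vale.Agent.P180.H897 (ev_av0 ev_av)
open Module (finrank)

section

variable {K : Type u} [Field K] [IsAlgClosed K] [CharZero K]
variable {G A B : Type} [Group G] [Fintype G] [Group A] [Fintype A] [Group B] [Fintype B]

omit [IsAlgClosed K] in
/-- the fixed points of `U` -/
theorem isCh_hc {χ : G → K} (hχ : IsCh K G χ) {U M : Subgroup G} [Fintype U]
    (hMU : M ≤ Subgroup.normalizer (U : Set G)) :
    IsCh K M (fun m : M => (Nat.card U : K)⁻¹ * ∑ u : U, χ ((u : G) * (m : G))) := by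
  classical
  have h1 : ChOn (Subgroup.normalizer (U : Set G)) χ :=
    hχ.comp (Subgroup.normalizer (U : Set G)).subtype
  have h2 := h1.average (J := U) Subgroup.le_normalizer
    (fun s hs j hj => (Subgroup.mem_normalizer_iff.mp hs j).mp hj)
  refine IsCh.congr (h2.mono hMU) fun m => ?_
  change av U χ (m : G) = _
  rw [av, sum_ic_mul U (fun g => χ (g * m))]

/-- the two factors of the Levi subgroup -/
noncomputable def iA (K : Type u) [Field K] {M : Subgroup G} (eM : A × B ≃* M) :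
    MonoidAlgebra K A →ₐ[K] MonoidAlgebra K G :=
  mi K (M.subtype.comp (eM.toMonoidHom.comp (MonoidHom.inl A B)))

noncomputable def iB (K : Type u) [Field K] {M : Subgroup G} (eM : A × B ≃* M) :
    MonoidAlgebra K B →ₐ[K] MonoidAlgebra K G :=
  mi K (M.subtype.comp (eM.toMonoidHom.comp (MonoidHom.inr A B)))

omit [IsAlgClosed K] [CharZero K] [Fintype G] [Fintype A] [Fintype B] in
theorem iA_single {M : Subgroup G} (eM : A × B ≃* M) (a : A) (c : K) :
    iA K eM (MonoidAlgebra.single a c) = MonoidAlgebra.single ((eM (a, 1) : M) : G) c :=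
  mi_single _ _ _

omit [IsAlgClosed K] [CharZero K] [Fintype G] [Fintype A] [Fintype B] in
theorem iB_single {M : Subgroup G} (eM : A × B ≃* M) (b : B) (c : K) :
    iB K eM (MonoidAlgebra.single b c) = MonoidAlgebra.single ((eM (1, b) : M) : G) c :=
  mi_single _ _ _

omit [IsAlgClosed K] [CharZero K] [Fintype A] [Fintype B] in
theorem iAB_single {M : Subgroup G} (eM : A × B ≃* M) (a : A) (b : B) (c c' : K) :
    iA K eM (MonoidAlgebra.single a c) * iB K eM (MonoidAlgebra.single b c') =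
      MonoidAlgebra.single ((eM (a, b) : M) : G) (c * c') := by
  rw [iA_single, iB_single, MonoidAlgebra.single_mul_single, ← Subgroup.coe_mul, ← map_mul,
    Prod.mk_mul_mk, mul_one, one_mul]

/-- the irreducible characters of the Levi subgroup -/
noncomputable def eIr (K : Type u) [Field K] [IsAlgClosed K] [CharZero K] {M : Subgroup G}
    [Fintype M] (eM : A × B ≃* M) : IrK K A × IrK K B ≃ IrK K M :=
  IrK.prod.trans (IrK.congr eM)

theorem eIr_apply {M : Subgroup G} [Fintype M] (eM : A × B ≃* M) (ψ : IrK K A) (σ : IrK K B)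
    (m : M) : (eIr K eM (ψ, σ)).1 m = ψ.1 (eM.symm m).1 * σ.1 (eM.symm m).2 := rfl

/-- bilinear form of the multiplicities -/
theorem ev_bil {χ : G → K} {U M : Subgroup G} [Fintype U] [Fintype M] (eM : A × B ≃* M)
    {c : IrK K M → K} (hc : ∀ m : M, (Nat.card U : K)⁻¹ * ∑ u : U, χ ((u : G) * (m : G)) =
      ∑ φ, c φ * φ.1 m) (x : MonoidAlgebra K A) (y : MonoidAlgebra K B) :
    ev χ (BN.av K U * (iA K eM x * iB K eM y)) =
      ∑ ψ : IrK K A, ∑ σ : IrK K B, c (eIr K eM (ψ, σ)) * (ev ψ.1 x * ev σ.1 y) := by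
  classical
  -- linear in `x`
  let f : MonoidAlgebra K B → (MonoidAlgebra K A →ₗ[K] K) := fun y =>
    evL χ ∘ₗ LinearMap.mulLeft K (BN.av K U) ∘ₗ LinearMap.mulRight K (iB K eM y) ∘ₗ
      (iA K eM).toLinearMap
  let f' : MonoidAlgebra K B → (MonoidAlgebra K A →ₗ[K] K) := fun y =>
    ∑ ψ : IrK K A, ∑ σ : IrK K B, (c (eIr K eM (ψ, σ)) * ev σ.1 y) • evL ψ.1
  have h1 : ∀ y, f y = f' y := by
    intro y
    apply lin_ext
    intro a
    let g : MonoidAlgebra K B →ₗ[K] K :=
      evL χ ∘ₗ LinearMap.mulLeft K (BN.av K U) ∘ₗ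
        LinearMap.mulLeft K (iA K eM (MonoidAlgebra.single a 1)) ∘ₗ (iB K eM).toLinearMap
    let g' : MonoidAlgebra K B →ₗ[K] K :=
      ∑ ψ : IrK K A, ∑ σ : IrK K B, (c (eIr K eM (ψ, σ)) * ψ.1 a) • evL σ.1
    have h2 : g = g' := by
      apply lin_ext
      intro b
      have e1 : g (MonoidAlgebra.single b 1) =
          ev χ (BN.av K U * (iA K eM (MonoidAlgebra.single a 1) *
            iB K eM (MonoidAlgebra.single b 1))) := rfl
      have e2 : g' (MonoidAlgebra.single b 1) =
          ∑ ψ : IrK K A, ∑ σ : IrK K B, (c (eIr K eM (ψ, σ)) * ψ.1 a) * σ.1 b := by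
        change (∑ ψ : IrK K A, ∑ σ : IrK K B, (c (eIr K eM (ψ, σ)) * ψ.1 a) • evL σ.1)
          (MonoidAlgebra.single b 1) = _
        rw [LinearMap.sum_apply]
        refine Finset.sum_congr rfl fun ψ _ => ?_
        rw [LinearMap.sum_apply]
        refine Finset.sum_congr rfl fun σ _ => ?_
        rw [LinearMap.smul_apply, evL_apply, ev_single, one_mul, smul_eq_mul]
      rw [e1, e2, iAB_single, ev_av0, ev_single, mul_one, one_mul, hc]
      rw [← (eIr K eM).sum_comp, Fintype.sum_prod_type]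
      refine Finset.sum_congr rfl fun ψ _ => Finset.sum_congr rfl fun σ _ => ?_
      rw [eIr_apply, eM.symm_apply_apply, mul_assoc]
    have e3 : f y (MonoidAlgebra.single a 1) = g y := rfl
    have e4 : f' y (MonoidAlgebra.single a 1) = g' y := by
      change (∑ ψ : IrK K A, ∑ σ : IrK K B, (c (eIr K eM (ψ, σ)) * ev σ.1 y) • evL ψ.1)
          (MonoidAlgebra.single a 1) =
        (∑ ψ : IrK K A, ∑ σ : IrK K B, (c (eIr K eM (ψ, σ)) * ψ.1 a) • evL σ.1) y
      rw [LinearMap.sum_apply, LinearMap.sum_apply]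
      refine Finset.sum_congr rfl fun ψ _ => ?_
      rw [LinearMap.sum_apply, LinearMap.sum_apply]
      refine Finset.sum_congr rfl fun σ _ => ?_
      rw [LinearMap.smul_apply, LinearMap.smul_apply, evL_apply, evL_apply, ev_single, one_mul,
        smul_eq_mul, smul_eq_mul]
      ring
    rw [e3, e4, h2]
  have h3 := congrArg (fun z => z x) (h1 y)
  have e5 : f y x = ev χ (BN.av K U * (iA K eM x * iB K eM y)) := rfl
  have e6 : f' y x = ∑ ψ : IrK K A, ∑ σ : IrK K B,
      c (eIr K eM (ψ, σ)) * (ev ψ.1 x * ev σ.1 y) := by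
    change (∑ ψ : IrK K A, ∑ σ : IrK K B, (c (eIr K eM (ψ, σ)) * ev σ.1 y) • evL ψ.1) x = _
    rw [LinearMap.sum_apply]
    refine Finset.sum_congr rfl fun ψ _ => ?_
    rw [LinearMap.sum_apply]
    refine Finset.sum_congr rfl fun σ _ => ?_
    rw [LinearMap.smul_apply, evL_apply, smul_eq_mul]
    ring
  rw [← e5, ← e6]
  exact h3

/-- **The multiplicities.** -/
theorem mult_le {χ : G → K} (hχ : IsIr K G χ) {U M : Subgroup G} [Fintype U] [Fintype M]
    (hMU : M ≤ Subgroup.normalizer (U : Set G)) (eM : A × B ≃* M) {T : ℕ}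
    {J : MonoidAlgebra K G} (hJ : J ∈ SubAlg K M) (hJJ : J * J = J)
    (hT : ∀ (ψ : IrK K A) (σ : IrK K B), ev (eIr K eM (ψ, σ)).1 (rs M J) ≠ 0 →
      ∃ (e : MonoidAlgebra K B) (n : IrK K A → ℕ), e * e = e ∧ ev σ.1 e ≠ 0 ∧ (∀ ψ, n ψ ≤ T) ∧
        ∀ x : MonoidAlgebra K A, ev χ (BN.av K U * (iA K eM x * iB K eM e)) =
          ∑ ψ, (n ψ : K) * ev ψ.1 x) :
    ∃ m : ℕ, ev χ (BN.av K U * J) = m ∧ m ≤ T * finrank K (NN (SubAlg K M) J J) := by
  classical
  obtain ⟨c, hc1, hc2, -⟩ := exists_mult (isCh_hc hχ.1 hMU)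
  obtain ⟨m, hm, hf⟩ := exists_ev_nat_sub hJ hJJ
  refine ⟨∑ φ, c φ * m φ, ?_, ?_⟩
  · rw [ev_av U M hJ]
    have e1 : (fun m : M => (Nat.card U : K)⁻¹ * ∑ u : U, χ ((u : G) * (m : G))) =
        fun g => ∑ φ : IrK K M, (c φ : K) * φ.1 g := funext fun g => hc2 g
    rw [e1, ev_sum]
    push_cast
    refine Finset.sum_congr rfl fun φ _ => ?_
    rw [← hm φ]
  · have key : ∀ φ : IrK K M, m φ ≠ 0 → c φ ≤ T := by
      intro φ hφ
      obtain ⟨⟨ψ₀, σ₀⟩, rfl⟩ := (eIr K eM).surjective φ
      have h1 : ev (eIr K eM (ψ₀, σ₀)).1 (rs M J) ≠ 0 := by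
        rw [hm]
        exact_mod_cast hφ
      obtain ⟨e, n, he, hσe, hn, hx⟩ := hT ψ₀ σ₀ h1
      choose l hl using fun σ : IrK K B => ev_nat σ.2 he
      have h2 : ∀ x : MonoidAlgebra K A, ∑ ψ : IrK K A, (n ψ : K) * ev ψ.1 x =
          ∑ ψ : IrK K A, ((∑ σ : IrK K B, c (eIr K eM (ψ, σ)) * l σ : ℕ) : K) * ev ψ.1 x := by
        intro x
        rw [← hx x, ev_bil (c := fun φ => (c φ : K)) eM hc2]
        refine Finset.sum_congr rfl fun ψ _ => ?_
        push_cast
        rw [Finset.sum_mul]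
        refine Finset.sum_congr rfl fun σ _ => ?_
        rw [hl σ]
        ring
      have h3 : (n ψ₀ : K) = ((∑ σ : IrK K B, c (eIr K eM (ψ₀, σ)) * l σ : ℕ) : K) := by
        have h4 : (fun a => ∑ ψ : IrK K A, (n ψ : K) * ψ.1 a) =
            fun a => ∑ ψ : IrK K A,
              ((∑ σ : IrK K B, c (eIr K eM (ψ, σ)) * l σ : ℕ) : K) * ψ.1 a := by
          funext a
          have h5 := h2 (MonoidAlgebra.single a 1)
          simp only [ev_single, one_mul] at h5
          exact h5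
        have h5 := congrArg (fun θ => ip θ ψ₀.1) h4
        simp only [ip_sum_left] at h5
        have h6 : ∀ d : IrK K A → K, ∑ ψ : IrK K A, d ψ * ip ψ.1 ψ₀.1 = d ψ₀ := by
          intro d
          rw [Finset.sum_eq_single ψ₀]
          · rw [ip_irK, if_pos rfl, mul_one]
          · intro b _ hb
            rw [ip_irK, if_neg hb, mul_zero]
          · intro h
            exact absurd (Finset.mem_univ _) h
        rw [h6 (fun ψ => (n ψ : K)),
          h6 (fun ψ => ((∑ σ : IrK K B, c (eIr K eM (ψ, σ)) * l σ : ℕ) : K))] at h5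
        exact h5
      have h4 : n ψ₀ = ∑ σ : IrK K B, c (eIr K eM (ψ₀, σ)) * l σ := by exact_mod_cast h3
      have h5 : l σ₀ ≠ 0 := by
        intro h0
        apply hσe
        rw [hl, h0, Nat.cast_zero]
      calc c (eIr K eM (ψ₀, σ₀)) ≤ c (eIr K eM (ψ₀, σ₀)) * l σ₀ :=
            Nat.le_mul_of_pos_right _ (Nat.pos_of_ne_zero h5)
        _ ≤ ∑ σ : IrK K B, c (eIr K eM (ψ₀, σ)) * l σ :=
            Finset.single_le_sum (f := fun σ : IrK K B => c (eIr K eM (ψ₀, σ)) * l σ)
              (fun _ _ => Nat.zero_le _) (Finset.mem_univ σ₀)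
        _ = n ψ₀ := h4.symm
        _ ≤ T := hn ψ₀
    calc ∑ φ, c φ * m φ ≤ ∑ φ, T * m φ ^ 2 := by
          refine Finset.sum_le_sum fun φ _ => ?_
          by_cases h0 : m φ = 0
          · rw [h0, mul_zero]
            exact Nat.zero_le _
          · refine Nat.mul_le_mul (key φ h0) ?_
            rw [sq]
            exact Nat.le_mul_self _
      _ = T * ∑ φ, m φ ^ 2 := by rw [Finset.mul_sum]
      _ = _ := by rw [hf]

end

end Vale.Agent.P180.H951
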