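import Vale.Agent.P180.H897.TowFam
import Vale.Agent.P180.H951.GlueB
import Vale.Agent.P180.H568.Tp

/-! Multiplicities between subgroups; transport to the subgroup. -/

set_option linter.all false

namespace Vale.Agent.P180.H951

universe u

open Finset Vale.Agent.P180 Vale.Agent.P180.H768.Gd Vale.Agent.P180.R2.H799
  Vale.Agent.P180.R2.H471.Hc
open Vale.Agent.P180.H393 (IsIr IsCF ev)
open Vale.Agent.P180.H337
open Vale.Agent.P180.H897 (ev_av0 ev_av inc inc_single inc_mem rs_inc inc_rs)

section

variable (K : Type u) [Field K] {Γ : Type} [Group Γ] [Finite Γ]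

/-- The multiplicities of the element `y`, from the group `S` to the group `S'`. -/
def EvP (S S' : Subgroup Γ) (y : MonoidAlgebra K Γ) (C : ℕ) : Prop :=
  ∀ [Fintype S] [Fintype S'] [Fintype (IrK K S')] (χ : IrK K S), ∃ n : IrK K S' → ℕ,
    (∀ ψ, n ψ ≤ C) ∧ ∀ x ∈ SubAlg K S', ev χ.1 (rs S (y * x)) = ∑ ψ, (n ψ : K) * ev ψ.1 (rs S' x)

variable {K}

theorem mi_mi {A B C : Type} [Group A] [Group B] [Group C] (f : B →* C) (g : A →* B)
    (x : MonoidAlgebra K A) : mi K f (mi K g x) = mi K (f.comp g) x := by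
  induction x using MonoidAlgebra.induction_linear with
  | zero => rw [map_zero, map_zero, map_zero]
  | add x y hx hy => rw [map_add, map_add, hx, hy, map_add]
  | single a c => rw [mi_single, mi_single, mi_single]; rfl

theorem mi_comm_mi {A B C : Type} [Group A] [Group B] [Group C] {f : A →* C} {g : B →* C}
    (h : ∀ a b, f a * g b = g b * f a) (x : MonoidAlgebra K A) (y : MonoidAlgebra K B) :
    mi K f x * mi K g y = mi K g y * mi K f x := by
  induction x using MonoidAlgebra.induction_linear with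
  | zero => rw [map_zero, zero_mul, mul_zero]
  | add x x' hx hx' => rw [map_add, add_mul, mul_add, hx, hx']
  | single a c =>
    induction y using MonoidAlgebra.induction_linear with
    | zero => rw [map_zero, zero_mul, mul_zero]
    | add y y' hy hy' => rw [map_add, add_mul, mul_add, hy, hy']
    | single b c' =>
      rw [mi_single, mi_single, MonoidAlgebra.single_mul_single, MonoidAlgebra.single_mul_single,
        h, mul_comm c c']

theorem mi_av {G H : Type} [Group G] [Group H] [Finite G] [Finite H] (f : H →* G)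
    (hf : Function.Injective f) (V : Subgroup H) : mi K f (BN.av K V) = BN.av K (V.map f) := by
  unfold BN.av
  letI := Fintype.ofFinite V
  letI := Fintype.ofFinite (V.map f)
  rw [map_smul, map_sum, Nat.card_congr (V.equivMapOfInjective f hf).toEquiv]
  congr 1
  refine Fintype.sum_equiv (V.equivMapOfInjective f hf).toEquiv
    (fun v : V => mi K f (MonoidAlgebra.single (v : H) 1))
    (fun w : V.map f => MonoidAlgebra.single (w : G) 1) fun v => ?_
  rw [mi_single]
  rfl

/-- **Transport.** -/
theorem EvP.transport [IsAlgClosed K] [CharZero K] {S U₀ F₀ : Subgroup Γ} [Fintype S]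
    (hUS : U₀ ≤ S) {A B : Type} [Group A] [Fintype A] [Group B] [Fintype B] {M : Subgroup S}
    (eM : A × B ≃* M) (f : A ≃* F₀) (g : B →* Γ)
    (hM : ∀ z : A × B, (((eM z : M) : S) : Γ) = (f z.1 : Γ) * g z.2) {e : MonoidAlgebra K B} {C : ℕ}
    (h : EvP K S F₀ (BN.av K U₀ * mi K g e) C) {χ : S → K} (hχ : IsIr K S χ) :
    ∃ n : IrK K A → ℕ, (∀ ψ, n ψ ≤ C) ∧ ∀ x : MonoidAlgebra K A,
      ev χ (BN.av K (U₀.subgroupOf S) * (iA K eM x * iB K eM e)) =
        ∑ ψ, (n ψ : K) * ev ψ.1 x := by
  classical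
  have hfΓ : Fintype Γ := Fintype.ofFinite _
  have hfF : Fintype F₀ := Fintype.ofFinite _
  obtain ⟨n, hn, hx⟩ := h ⟨χ, hχ⟩
  refine ⟨fun ψ => n (IrK.congr f ψ), fun ψ => hn _, fun x => ?_⟩
  have hcomm : ∀ a b, (F₀.subtype.comp f.toMonoidHom) a * g b =
      g b * (F₀.subtype.comp f.toMonoidHom) a := by
    intro a b
    change (f a : Γ) * g b = g b * (f a : Γ)
    rw [← hM (a, b)]
    have e1 : eM (a, b) = eM (1, b) * eM (a, 1) := by
      rw [← map_mul, Prod.mk_mul_mk, one_mul, mul_one]
    rw [e1, Subgroup.coe_mul, Subgroup.coe_mul, hM, hM]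
    change (f 1 : Γ) * g b * ((f a : Γ) * g 1) = _
    rw [map_one, map_one, OneMemClass.coe_one, one_mul, mul_one]
  have h1 : inc S (BN.av K (U₀.subgroupOf S) * (iA K eM x * iB K eM e)) =
      BN.av K U₀ * mi K g e * inc F₀ (H568.Tp.T f x) := by
    rw [map_mul, map_mul]
    have e1 : inc S (BN.av K (U₀.subgroupOf S)) = BN.av K U₀ := by
      change mi K S.subtype (BN.av K (U₀.subgroupOf S)) = _
      rw [mi_av _ S.subtype_injective, Subgroup.map_subgroupOf_eq_of_le hUS]
    have e2 : inc S (iA K eM x) = mi K (F₀.subtype.comp f.toMonoidHom) x := by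
      change mi K S.subtype (mi K _ x) = _
      rw [mi_mi]
      congr 2
      apply MonoidHom.ext
      intro a
      change (((eM (a, 1) : M) : S) : Γ) = (f a : Γ)
      rw [hM]
      change (f a : Γ) * g 1 = _
      rw [map_one, mul_one]
    have e3 : inc S (iB K eM e) = mi K g e := by
      change mi K S.subtype (mi K _ e) = _
      rw [mi_mi]
      congr 2
      apply MonoidHom.ext
      intro b
      change (((eM (1, b) : M) : S) : Γ) = g b
      rw [hM]
      change (f 1 : Γ) * g b = _
      rw [map_one, OneMemClass.coe_one, one_mul]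
    have e4 : inc F₀ (H568.Tp.T f x) = mi K (F₀.subtype.comp f.toMonoidHom) x := by
      change mi K F₀.subtype (mi K f.toMonoidHom x) = _
      rw [mi_mi]
    rw [e1, e2, e3, e4, mi_comm_mi hcomm, mul_assoc]
  have h2 := hx _ (inc_mem F₀ (H568.Tp.T f x))
  rw [← h1, rs_inc, rs_inc] at h2
  change ev χ (BN.av K (U₀.subgroupOf S) * (iA K eM x * iB K eM e)) = _ at h2
  rw [h2, ← (IrK.congr f).sum_comp]
  refine Finset.sum_congr rfl fun ψ _ => ?_
  rw [H568.Tp.ev_T]
  congr 2
  funext a
  rw [IrK.congr_apply, f.symm_apply_apply]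

end

end Vale.Agent.P180.H951
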