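import Mathlib

/-! Levi subgroups and unipotent radicals in general linear groups, built from the last summand. -/

set_option linter.all false

namespace Vale.Agent.P180.H951

open Module

section

variable {F V V' V'' : Type} [Field F] [AddCommGroup V] [Module F V] [AddCommGroup V'] [Module F V']
  [AddCommGroup V''] [Module F V'']

/-- conjugation by a linear equivalence -/
def cE (e : V ≃ₗ[F] V') : (V ≃ₗ[F] V) ≃* (V' ≃ₗ[F] V') where
  toFun g := e.symm.trans (g.trans e)
  invFun g := e.trans (g.trans e.symm)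
  left_inv g := by ext x; simp
  right_inv g := by ext x; simp
  map_mul' g h := by ext x; simp

@[simp] theorem cE_apply (e : V ≃ₗ[F] V') (g : V ≃ₗ[F] V) (x : V') : cE e g x = e (g (e.symm x)) :=
  rfl

end

/-- `M` is the Levi subgroup and `U` the unipotent radical of a parabolic subgroup of `GL(V)`; `t` is
the sum of the dimensions of all summands of `V` but the first. -/
inductive IsLevi (F : Type) [Field F] : (V : Type) → [AddCommGroup V] → [Module F V] →
    Subgroup (V ≃ₗ[F] V) → Subgroup (V ≃ₗ[F] V) → ℕ → Prop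
  | base (V : Type) [AddCommGroup V] [Module F V] : IsLevi F V ⊤ ⊥ 0
  | step (V W : Type) [AddCommGroup V] [Module F V] [AddCommGroup W] [Module F W]
      (M U : Subgroup (V ≃ₗ[F] V)) (t : ℕ) (h : IsLevi F V M U t)
      (M' U' : Subgroup ((V × W) ≃ₗ[F] (V × W)))
      (hM : ∀ g, g ∈ M' ↔ ∃ a ∈ M, ∃ b : W ≃ₗ[F] W, g = LinearEquiv.skewProd a b 0)
      (hU : ∀ g, g ∈ U' ↔ ∃ u ∈ U, ∃ f : V →ₗ[F] W,
        g = LinearEquiv.skewProd u (LinearEquiv.refl F W) f) :
      IsLevi F (V × W) M' U' (t + finrank F W)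
  | transport (V V' : Type) [AddCommGroup V] [Module F V] [AddCommGroup V'] [Module F V']
      (e : V ≃ₗ[F] V') (M U : Subgroup (V ≃ₗ[F] V)) (t : ℕ) (h : IsLevi F V M U t) :
      IsLevi F V' (M.map (cE e).toMonoidHom) (U.map (cE e).toMonoidHom) t

end Vale.Agent.P180.H951
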