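import Vale.Agent.P180.H951.TestDef
import Vale.Agent.P180.H805.LeH
import Vale.Agent.P180.H897.EvN
import Vale.Agent.P180.H392.TrC

/-! The test idempotents from the towers; the step theorem from the towers. -/

set_option linter.all false

namespace Vale.Agent.P180.H951

universe u

open Module Subgroup Vale.Agent.P180 Vale.Agent.P180.H768.Gd Vale.Agent.P180.R2.H799
  Vale.Agent.P180.R2.H471.Hc Vale.Agent.P180.R2.H854
open Vale.Agent.P180.H393 Vale.Agent.P180.H393.Fm Vale.Agent.P180.H337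
open Vale.Agent.P180.H568 Vale.Agent.P180.H354.Fm Vale.Agent.P180.H805.Hs
open Vale.Agent.P180.H897 (Tow EEp ev_eN)
open Vale.Agent.P180.H392 Vale.Agent.P180.H392.Res
open Vale.Agent.P180.R2.H954.Hc (KK charZero_KK)

section

variable {k : Type u} [Field k] [IsAlgClosed k] [CharZero k] {K E : Type} [Field K] [Finite K]
  [AddCommGroup E] [Module K E] [FiniteDimensional K E] [Finite (E ≃ₗ[K] E)]
  [DecidableEq (Om k K)] {Φ : HForm K E}

/-- **The test idempotents from the towers.** -/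
theorem testStmt_of (hT : Φ.Tr) (hTow : TowStmt k Φ) {ι : Type} [Fintype ι] [DecidableEq ι]
    [Nonempty ι] (P : Hyp Φ ι) : TestStmt k P := by
  classical
  intro ρ N hρ hN
  have hfE : Finite E := Module.finite_of_finite K
  have hι : 0 < Fintype.card ι := Fintype.card_pos
  have hdeg : 0 < ρ.deg := by
    rcases Nat.eq_zero_or_pos ρ.deg with h | h
    · rw [h, mul_zero] at hN
      omega
    · exact h
  have hne : Nonempty (Fin ρ.deg) := ⟨⟨0, hdeg⟩⟩
  have hcard : Fintype.card (J (Fin ρ.deg) N) = Fintype.card ι := by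
    rw [card_J, Fintype.card_fin, hN]
  let e : ι ≃ J (Fin ρ.deg) N := Fintype.equivOfCardEq hcard.symm
  obtain ⟨m', F, hF, hH, hFx⟩ := exists_frame hT (reindex e P)
  obtain ⟨ε, X, T, a, b, c, hε, hev, hTw⟩ := hTow ρ hρ hdeg (m' + N) F hF
  rw [reindex_Fx] at hFx
  have hEv : EvP k (IsoG Φ) P.Fx (BN.av k P.UU * mi k P.gl (H568.Tp.T (cg (fe K e)) (eN ε N)))
      N.factorial := @evP_frame K E _ _ _ Φ k _ _ _ _ _ _ ι (Fin ρ.deg) _ _ _ _ (m' + N) F m' N rfl P
        e hH hFx ε (F.EE ε) (fun j hj => F.EE_eq ε hj) X T a b c hTw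
  refine ⟨H568.Tp.T (cg (fe K e)) (eN ε N), ?_, ?_, @hEv⟩
  · rw [← map_mul, eN_idem hε]
  · intro w hw
    rw [ev_fe e w]
    refine ev_eN (ρ := ρ) (by rw [Fintype.card_fin]) ?_ ?_ N hcard.le w
    · rw [hev ρ rfl, if_pos rfl]
    · intro b' hb' hne'
      rw [Fintype.card_fin] at hb'
      rw [hev b' (mem_OmS.mp hb'), if_neg hne']

end

/-- **The step theorem, from the towers.** -/
theorem stepStmt_of_tow (hTow : ∀ (k : Type u) [Field k] [IsAlgClosed k] [CharZero k] (K E : Type)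
    [Field K] [Finite K] [AddCommGroup E] [Module K E] [FiniteDimensional K E]
    [Finite (E ≃ₗ[K] E)] [DecidableEq (Om k K)] (Φ : HForm K E), Φ.Tr → TowStmt k Φ) :
    StepStmt.{u} stB := by
  classical
  intro p n _ k _ _ _ K _ _ E _ _ _ _ Φ ι _ _ P _ Q hΦ hQS hQ hQn hab hG B hB
  haveI : CharZero (KK k p) := charZero_KK k p
  haveI : Nonempty ι := hG.ne
  exact step_of_test hΦ.2.1 hQS hQ hQn hab hG
    (testStmt_of hΦ.tr (hTow (KK k p) K E Φ hΦ.tr) P) hB

end Vale.Agent.P180.H951
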