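import Vale.Agent.P180.H951.StepC
import Vale.Agent.P180.H354.Bri
import Vale.Agent.P180.H805.LeG
import Vale.Agent.P180.H897.Tow
import Vale.Agent.P180.H393.TowDat

/-! The towers of a space with a form; existence of maximal frames over a given pair. -/

set_option linter.all false

namespace Vale.Agent.P180.H951

universe u

open Module Subgroup Vale.Agent.P180 Vale.Agent.P180.H768.Gd Vale.Agent.P180.R2.H799
  Vale.Agent.P180.R2.H471.Hc Vale.Agent.P180.R2.H854
open Vale.Agent.P180.H393 Vale.Agent.P180.H393.Fm Vale.Agent.P180.H337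
open Vale.Agent.P180.H568 Vale.Agent.P180.H354.Fm Vale.Agent.P180.H805.Hs
open Vale.Agent.P180.H897 (Tow EEp)

/-- The frame is maximal. -/
def MaxF {K E : Type} [Field K] [AddCommGroup E] [Module K E] {Φ : HForm K E} {κ : Type}
    [Fintype κ] {m : ℕ} (F : Frame Φ κ m) : Prop :=
  ∀ S ≤ WF F 0, (∀ u ∈ S, ∀ v ∈ S, Φ.B u v = 0) → finrank K S ≠ Fintype.card κ

/-- **The towers**: each primitive `ρ` and each maximal frame of its degree gives a tower. -/
def TowStmt (k : Type u) [Field k] [IsAlgClosed k] [CharZero k] {K : Type} [Field K] [Finite K]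
    {E : Type} [AddCommGroup E] [Module K E] [Finite (E ≃ₗ[K] E)] (Φ : HForm K E)
    [DecidableEq (Om k K)] : Prop :=
  ∀ (ρ : Om k K), (glPSH k K).Prim ρ → 0 < ρ.deg → ∀ (m : ℕ) (F : Frame Φ (Fin ρ.deg) m), MaxF F →
    ∃ (ε : MonoidAlgebra k ((Fin ρ.deg → K) ≃ₗ[K] (Fin ρ.deg → K)))
      (X T : ℕ → MonoidAlgebra k (E ≃ₗ[K] E)) (a b c : ℕ → k), ε * ε = ε ∧
      (∀ w : Om k K, w.deg = ρ.deg →
        ev (H393.X w (Fin ρ.deg → K)) ε = if w = ρ then 1 else 0) ∧
      Tow k (fun i => SubAlg k (F.H i)) m (F.EE ε) X T a b c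

section

variable {K E : Type} [Field K] [Finite K] [AddCommGroup E] [Module K E] [FiniteDimensional K E]
  {Φ : HForm K E} {κ : Type} [Fintype κ] [DecidableEq κ] [Nonempty κ]

/-- **Existence of maximal frames with a prescribed top part.** -/
theorem exists_frame (hT : Φ.Tr) {N : ℕ} (P : Hyp Φ (J κ N)) :
    ∃ (m' : ℕ) (F : Frame Φ κ (m' + N)), MaxF F ∧ Hn F m' N le_rfl = P ∧ F.H m' = P.Fx := by
  obtain ⟨m', X', Y', h1, h2, h3⟩ := exists_fam hT (fam_of (frameOf P))
  refine ⟨m', frOf h1, ?_, ?_, ?_⟩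
  · intro S hS
    refine h3 S ?_
    have h4 : WF (frOf h1) 0 = Wf Φ (Finset.range (m' + N)) X' Y' := by
      unfold WF
      rw [← Finset.range_eq_Ico]
      rfl
    rw [← h4]
    exact hS
  · refine Hn_eq_of _ _ _ _ _ (fun j hj a => ?_) (fun j hj a => ?_)
    · change X' (m' + j) a = _
      rw [(h2 j hj).1]
      rfl
    · change Y' (m' + j) a = _
      rw [(h2 j hj).2]
      rfl
  · ext g
    rw [Frame.mem_H, Hyp.mem_Fx]
    constructor
    · rintro ⟨h4, h5⟩
      refine ⟨h4, fun a => ?_, fun a => ?_⟩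
      · have h6 : (g : E →ₗ[K] E) ∘ₗ P.x = P.x := by
          refine ext_inJ fun j hj b => ?_
          have h7 := (h5 (m' + j) (by omega) (by omega)).1 b
          change g (X' (m' + j) b) = X' (m' + j) b at h7
          rw [(h2 j hj).1] at h7
          exact h7
        exact LinearMap.congr_fun h6 a
      · have h6 : (g : E →ₗ[K] E) ∘ₗ P.y = P.y := by
          refine ext_inJ fun j hj b => ?_
          have h7 := (h5 (m' + j) (by omega) (by omega)).2 b
          change g (Y' (m' + j) b) = Y' (m' + j) b at h7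
          rw [(h2 j hj).2] at h7
          exact h7
        exact LinearMap.congr_fun h6 a
    · rintro ⟨h4, h5, h6⟩
      refine ⟨h4, fun i hi hi' => ?_⟩
      obtain ⟨j, rfl⟩ := Nat.exists_eq_add_of_le hi
      have hj : j < N := by omega
      refine ⟨fun a => ?_, fun a => ?_⟩
      · change g (X' (m' + j) a) = X' (m' + j) a
        rw [(h2 j hj).1]
        exact h5 _
      · change g (Y' (m' + j) a) = Y' (m' + j) a
        rw [(h2 j hj).2]
        exact h6 _

end

end Vale.Agent.P180.H951
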