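import Vale.Agent.P180.H951.SlAllF
import Vale.Agent.P180.H386.Grd

/-! Special linear groups, all ranks and all fields, `p` odd. -/

set_option linter.all false

namespace Vale.Agent.P180.H951

open Module Subgroup Vale.Agent.P180 Vale.Agent.P180.H768.Gd Vale.Agent.P180.R2.H471.Hc
open Vale.Agent.P180.H19.Pidx (PrimStmt)

universe u

/-- (B1) -/
theorem primStmt_cyc {k : Type u} [Field k] [IsAlgClosed k] {p : ℕ} [Fact p.Prime] [CharP k p]
    {G : Type} [Group G] [Finite G] (N : Subgroup G) [N.Normal] (hc : IsCyclic (G ⧸ N))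
    (hN : IsPGroup p (G ⧸ N)) : PrimStmt k N :=
  fun _ _ h1 h2 h3 h4 h5 => H386.Grd.prim_pidx hc hN h1 h2 h3 h4 h5

theorem primCyc (k : Type u) [Field k] [IsAlgClosed k] (p : ℕ) [Fact p.Prime] [CharP k p] :
    PrimCyc k p :=
  fun _ _ _ N _ hc hN => primStmt_cyc N hc hN

/-- **Special linear groups**, all ranks, all finite fields of characteristic different from the odd
prime `p`: a small idempotent for the blocks with an abelian defect group. -/
theorem oneBd_slAll {k : Type u} [Field k] [IsAlgClosed k] {p : ℕ} [Fact p.Prime] [CharP k p]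
    {K V : Type} [Field K] [Finite K] [AddCommGroup V] [Module K V] [Finite V]
    [Finite (V ≃ₗ[K] V)] [Finite (SpecialLinearGroup K V)] (h2 : p ≠ 2) (hpK : ¬ p ∣ Nat.card K)
    {n : ℕ} {Q : Subgroup (SpecialLinearGroup K V)} (hQ : IsPGroup p Q) (hQn : Nat.card Q ≤ n)
    (hab : ∀ x ∈ Q, ∀ y ∈ Q, x * y = y * x) : OneBd k Q (slC p n) :=
  oneBd_slAll_of2 h2 hpK (primCyc k p) hQ hQn hab

end Vale.Agent.P180.H951
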