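import Vale.Agent.P180.H951.Small2
import Vale.Agent.P180.H354.B2
import Vale.Agent.P180.R2.H954.Hc4a
import Vale.Agent.P180.R2.H954.G1
import Vale.Agent.P180.R2.H471.Hc8

/-! From a Levi subgroup `M` (and a subgroup `U` which it normalises) to the group: small idempotents. -/

set_option linter.all false

namespace Vale.Agent.P180.H951

open Finset Subgroup Vale.Agent.P180 Vale.Agent.P180.H768.Gd Vale.Agent.P180.R2.H799
  Vale.Agent.P180.R2.H471.Hc Vale.Agent.P180.R2.H954.Hc Vale.Agent.P180.R2.H954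
  Vale.Agent.P180.R2.H12.Sl Vale.Agent.P180.H337 Vale.Agent.P180.R2.H12
open Vale.Agent.P180.H393 (IsIr IsCF ev)

universe u

section

variable {k : Type u} [Field k] [IsAlgClosed k] {p : ℕ} [Fact p.Prime] [CharP k p]
variable {G : Type} [Group G] [Finite G]

/-- the image of a block of a subgroup under the Brauer homomorphism lies in the image of the block
of the group -/
theorem br_absorb {Q L : Subgroup G} (hQ : IsPGroup p Q) (hQL : Q ≤ L)
    (hC : Subgroup.centralizer (Q : Set G) ≤ L) {e : MonoidAlgebra k G} (hee : e * e = e)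
    (heT : e ∈ Fix (cj k G) ⊤) {f : MonoidAlgebra k G}
    (hf : IsBlockOf L f) (hfe : br Q f * br Q e ≠ 0) : br Q e * br Q f = br Q f := by
  classical
  have heF : ∀ S : Subgroup G, e ∈ Fix (cj k G) S := fun S => Fix_mono _ le_top heT
  have hfF : ∀ S : Subgroup G, S ≤ L → f ∈ Fix (cj k G) S := fun S hS => Fix_mono _ hS hf.mem.2
  have hpe : pj L e ∈ ZAlg k L := ⟨pj_mem _ _, pj_fix le_rfl (heF L)⟩
  have hfpe : f * pj L e ∈ ZAlg k L := Subalgebra.mul_mem _ hf.mem hpe
  have hbr : br Q (f * pj L e) = br Q f * br Q e := by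
    rw [br_mul hQ (hfF Q hQL) (Fix_mono _ hQL hpe.2), br_pj hC]
  have hcomm : br Q f * br Q e = br Q e * br Q f := by
    rw [← br_mul hQ (hfF Q hQL) (heF Q), ← br_mul hQ (heF Q) (hfF Q hQL),
      commute_of_mem (SubAlg_top f) heT]
  have h2 : br Q e * br Q e = br Q e := by rw [← br_mul hQ (heF Q) (heF Q), hee]
  have hidem : (br Q f * br Q e) * (br Q f * br Q e) = br Q f * br Q e := by
    have h1 : br Q f * br Q f = br Q f := by
      rw [← br_mul hQ (hfF Q hQL) (hfF Q hQL), hf.idem.eq]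
    calc br Q f * br Q e * (br Q f * br Q e) = br Q f * (br Q e * br Q f) * br Q e := by
          simp only [mul_assoc]
      _ = (br Q f * br Q f) * (br Q e * br Q e) := by rw [← hcomm]; simp only [mul_assoc]
      _ = _ := by rw [h1, h2]
  have hnn : ¬ IsNilpotent (f * pj L e) := by
    rintro ⟨n, hn⟩
    apply hfe
    have h1 : (br Q f * br Q e) ^ n = 0 := by
      rw [← hbr, ← Vale.Agent.P180.R2.H365.br_pow hQ (Fix_mono _ hQL hfpe.2), hn]
      exact Vale.Agent.P180.R2.H365.br_self (Subalgebra.zero_mem _)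
    rcases n with _ | n
    · rw [pow_zero] at h1
      rw [← one_mul (br Q f * br Q e), h1, zero_mul]
    · have h2 : IsIdempotentElem (br Q f * br Q e) := hidem
      rw [h2.pow_succ_eq] at h1
      exact h1
  have : FiniteDimensional k (MonoidAlgebra k G) :=
    Module.Finite.equiv (MonoidAlgebra.coeffLinearEquiv k (M := G) (S := k)).symm
  have hfpf : f * pj L e * f = f * pj L e := by
    rw [mul_assoc, ZAlg_comm _ hpe _ hf.mem, ← mul_assoc, hf.idem.eq]
  obtain ⟨u, huZ, huf, hfu⟩ : ∃ u ∈ ZAlg k L, u * f = u ∧ f * pj L e * u = f := by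
    rcases IsPrimIn.dichotomy (S := ZAlg k L) (by exact ZAlg_comm) hf hfpe hfpf with h | h
    · exact absurd h hnn
    · exact h
  have h3 : br Q f = br Q f * br Q e * br Q u := by
    rw [← hbr, ← br_mul hQ (Fix_mono _ hQL hfpe.2) (Fix_mono _ hQL huZ.2), hfu]
  calc br Q e * br Q f = br Q e * (br Q f * br Q e * br Q u) := by rw [← h3]
    _ = (br Q e * br Q f) * br Q e * br Q u := by simp only [mul_assoc]
    _ = (br Q f * br Q e) * br Q e * br Q u := by rw [hcomm]
    _ = br Q f * (br Q e * br Q e) * br Q u := by simp only [mul_assoc]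
    _ = br Q f := by rw [h2, ← h3]

/-- **From a Levi subgroup to the group.** -/
theorem oneBd_par [Fintype G] {U M Q : Subgroup G} (hpU : ¬ p ∣ Nat.card U)
    (hMU : M ≤ normalizer (U : Set G)) (hQ : IsPGroup p Q) (hQM : Q ≤ M)
    (hCM : centralizer (Q : Set G) ≤ M) (hCU : U ⊓ centralizer (Q : Set G) = ⊥)
    (hab : ∀ x ∈ Q, ∀ y ∈ Q, x * y = y * x) {B T : ℕ} (hM : OneBd k (Q.subgroupOf M) B)
    (hT : ∀ (f z j : MonoidAlgebra k G) (J : MonoidAlgebra (WittVector p k) G),
      IsBlockOf M f → z ∈ SubAlg k M → z ∈ Fix (cj k G) Q → f = tr (cj k G) Q M z →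
      br Q f ≠ 0 → f * j = j → j ∈ SubAlg k M → J * J = J → (∀ x, J.coeff x ≠ 0 → x ∈ M) →
      MonoidAlgebra.mapRingHom G (WittVector.constantCoeff (p := p) (R := k)) J = j →
      ∀ χ : G → KK k p, IsIr (KK k p) G χ →
      ∃ m : ℕ, ev χ (BN.av (KK k p) U * MonoidAlgebra.mapRingHom G (toKK k p) J) = m ∧
        m ≤ T * Module.finrank (KK k p) (NN (SubAlg (KK k p) M)
          (MonoidAlgebra.mapRingHom G (toKK k p) J) (MonoidAlgebra.mapRingHom G (toKK k p) J))) :
    OneBd k Q (Nat.card Q ^ 2 * (T * B) ^ 2) := by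
  classical
  intro e a he ha hea hbr
  have heT : e ∈ Fix (cj k G) ⊤ := he.mem.2
  obtain ⟨f, hf, hfe⟩ := exists_br_block (L := M) (Q := Q) hbr
  obtain ⟨z, hzM, hzF, hfz⟩ := block_of_sub hQ hQM hCM he.idem.eq ha hea hf hfe
  have hbrf : br Q f ≠ 0 := by
    intro h0
    apply hfe
    rw [h0, zero_mul]
  have habs := br_absorb hQ hQM hCM he.idem.eq heT hf hfe
  -- to the group `M`
  obtain ⟨f', hff'⟩ := exists_incl M hf.mem.1
  obtain ⟨z', hzz'⟩ := exists_incl M hzM
  set Q' : Subgroup M := Q.subgroupOf M with hQ'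
  have hmap : Q'.map M.subtype = Q := Subgroup.map_subgroupOf_eq_of_le hQM
  have hz'F : z' ∈ Fix (cj k M) Q' := by
    rw [← incl_mem_Fix_iff, hmap, hzz']; exact hzF
  have hf' : IsBlockOf (⊤ : Subgroup M) f' := by
    unfold IsBlockOf
    rw [ZAlg_top]
    exact (isBlockOf_incl_iff M f').mp (by rw [hff']; exact hf)
  have hf'z : f' = tr (cj k M) Q' ⊤ z' := by
    apply incl_injective (k := k) M
    rw [incl_tr M Q' hz'F, hmap, hff', hzz']
    exact hfz
  have hbr' : br Q' f' ≠ 0 := by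
    obtain ⟨c, hc, hec⟩ := exists_coeff_of_br hbrf
    have hcS : c ∈ M := hf.mem.1 c hec
    refine br_ne_zero_of_coeff (c := ⟨c, hcS⟩) ?_ ?_
    · intro r hr
      apply Subtype.ext
      exact hc r hr
    · rw [← Vale.Agent.P180.R2.H799.incl_coeff, hff']
      exact hec
  obtain ⟨i, hiF, hii, hfi, hbi, hid⟩ := hM f' z' hf' hz'F hf'z hbr'
  set j := incl k M i with hj
  have hjM : j ∈ SubAlg k M := incl_mem M i
  have hjQ : j ∈ Fix (cj k G) Q := by
    rw [← hmap, hj, incl_mem_Fix_iff]; exact hiF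
  have hjj : j * j = j := by rw [hj, ← map_mul, hii]
  have hfj : f * j = j := by rw [hj, ← hff', ← map_mul, hfi]
  have hbj : br Q j ≠ 0 := by
    obtain ⟨c, hc, hec⟩ := exists_coeff_of_br hbi
    refine br_ne_zero_of_coeff (c := (c : G)) ?_ ?_
    · intro r hr
      have h1 := hc ⟨r, hQM hr⟩ hr
      exact congrArg Subtype.val h1
    · rw [hj, Vale.Agent.P180.R2.H799.incl_coeff]
      exact hec
  have hfQ : f ∈ Fix (cj k G) Q := Fix_mono _ hQM hf.mem.2
  have heQ : e ∈ Fix (cj k G) Q := Fix_mono _ le_top heT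
  have hbje : br Q j * br Q e ≠ 0 := by
    have h1 : br Q e * br Q j = br Q j := by
      rw [← hfj, br_mul hQ hfQ hjQ, ← mul_assoc, habs]
    have h2 : br Q j * br Q e = br Q e * br Q j := by
      rw [← br_mul hQ hjQ heQ, ← br_mul hQ heQ hjQ, commute_of_mem (SubAlg_top j) heT]
    rw [h2, h1]
    exact hbj
  have hdim : Module.finrank k (NN (SubAlg k M) j j) ≤ B := by
    refine le_trans ?_ hid
    have hfin : FiniteDimensional k (MonoidAlgebra k M) :=
      Module.Finite.equiv (MonoidAlgebra.coeffLinearEquiv k (M := M) (S := k)).symm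
    have h1 : NN (SubAlg k M) j j ≤
        (NN (⊤ : Subalgebra k (MonoidAlgebra k M)) i i).map (incl k M).toLinearMap := by
      rintro x ⟨hx, h2, h3⟩
      obtain ⟨y, rfl⟩ := exists_incl M hx
      refine ⟨y, ⟨Algebra.mem_top, ?_, ?_⟩, rfl⟩
      · apply incl_injective (k := k) M
        rw [map_mul]; exact h2
      · apply incl_injective (k := k) M
        rw [map_mul]; exact h3
    exact (Submodule.finrank_mono h1).trans (Submodule.finrank_map_le _ _)
  exact exists_small' (k := k) (p := p) (N := Nat.card Q ^ 2) (T := T) hpU hMU hQ hQM hCU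
    he.idem.eq heT hjM hjQ hjj hbje hdim
    (fun E hE1 hE2 hE3 => Vale.Agent.P180.H354.card_le he hQ hab ha hea hbr hE1 hE2 hE3)
    (fun J hJJ hJL hJj χ hχ => hT f z j J hf hzM hzF hfz hbrf hfj hjM hJJ hJL hJj χ hχ)

end

end Vale.Agent.P180.H951
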