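import Vale.Agent.P180.H951.Slice
import Vale.Agent.P180.R2.H799.Nilp5
import Vale.Agent.P180.R2.H471.Hc8

/-! Blocks of direct products; small idempotents of direct products. -/

set_option linter.all false

namespace Vale.Agent.P180.H951

open Finset Subgroup Vale.Agent.P180 Vale.Agent.P180.H768.Gd Vale.Agent.P180.R2.H799
  Vale.Agent.P180.R2.H954 Vale.Agent.P180.R2.H954.Hc Vale.Agent.P180.R2.H12
  Vale.Agent.P180.R2.H471.Hc

universe u

section

variable {k : Type u} [Field k] [IsAlgClosed k] {p : ℕ} [Fact p.Prime] [CharP k p]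

/-- the central character of a block, on elements -/
theorem exists_lam {A : Type} [Group A] [Finite A] {g : MonoidAlgebra k A}
    (hg : IsBlockOf (⊤ : Subgroup A) g) :
    ∀ z ∈ Fix (cj k A) ⊤, ∃ c : k, IsNilpotent (z * g - c • g) := by
  obtain ⟨hbc, hprim⟩ := isPrim_center (k := k) hg
  have : FiniteDimensional k (MonoidAlgebra k A) :=
    Module.Finite.equiv (MonoidAlgebra.coeffLinearEquiv k (M := A) (S := k)).symm
  obtain ⟨lam, hlb, hlam⟩ := exists_char (k := k) hprim
  intro z hz
  have hz' : z ∈ Subalgebra.center k (MonoidAlgebra k A) := mem_center_iff_Fix_top.mpr hz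
  obtain ⟨n, hn⟩ := hlam ⟨z, hz'⟩
  refine ⟨lam ⟨z, hz'⟩, n, ?_⟩
  have h1 := congrArg Subtype.val hn
  have h2 : (((⟨z, hz'⟩ : Subalgebra.center k (MonoidAlgebra k A)) -
      algebraMap k (Subalgebra.center k (MonoidAlgebra k A)) (lam ⟨z, hz'⟩)) *
      (⟨g, hbc⟩ : Subalgebra.center k (MonoidAlgebra k A)) :
      Subalgebra.center k (MonoidAlgebra k A)).1 = z * g - lam ⟨z, hz'⟩ • g := by
    change (z - algebraMap k (MonoidAlgebra k A) (lam ⟨z, hz'⟩)) * g = _
    rw [sub_mul, ← Algebra.smul_def]
  rw [← h2]
  exact h1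

end

section

variable {k : Type u} [Field k] {A B : Type} [Group A] [Group B]

theorem cj_mi_inl (x : A × B) (y : MonoidAlgebra k A) :
    cj k (A × B) x (mi k (MonoidHom.inl A B) y) = mi k (MonoidHom.inl A B) (cj k A x.1 y) := by
  classical
  induction y using MonoidAlgebra.induction_linear with
  | zero => rw [map_zero, map_zero, map_zero, map_zero]
  | add u v hu hv => rw [map_add, map_add, map_add, map_add, hu, hv]
  | single a c =>
    rw [mi_single, cj_single, cj_single, mi_single]
    congr 1
    exact Prod.ext rfl (by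
      change x.2 * 1 * x.2⁻¹ = 1
      rw [mul_one, mul_inv_cancel])

theorem cj_mi_inr (x : A × B) (y : MonoidAlgebra k B) :
    cj k (A × B) x (mi k (MonoidHom.inr A B) y) = mi k (MonoidHom.inr A B) (cj k B x.2 y) := by
  classical
  induction y using MonoidAlgebra.induction_linear with
  | zero => rw [map_zero, map_zero, map_zero, map_zero]
  | add u v hu hv => rw [map_add, map_add, map_add, map_add, hu, hv]
  | single a c =>
    rw [mi_single, cj_single, cj_single, mi_single]
    congr 1
    exact Prod.ext (by
      change x.1 * 1 * x.1⁻¹ = 1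
      rw [mul_one, mul_inv_cancel]) rfl

theorem mi_comm (x : MonoidAlgebra k A) (y : MonoidAlgebra k B) :
    mi k (MonoidHom.inl A B) x * mi k (MonoidHom.inr A B) y =
      mi k (MonoidHom.inr A B) y * mi k (MonoidHom.inl A B) x := by
  classical
  induction x using MonoidAlgebra.induction_linear with
  | zero => rw [map_zero, zero_mul, mul_zero]
  | add u v hu hv => rw [map_add, add_mul, mul_add, hu, hv]
  | single a c =>
    induction y using MonoidAlgebra.induction_linear with
    | zero => rw [map_zero, zero_mul, mul_zero]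
    | add u v hu hv => rw [map_add, add_mul, mul_add, hu, hv]
    | single b c' =>
      rw [mi_single, mi_single, MonoidAlgebra.single_mul_single, MonoidAlgebra.single_mul_single]
      congr 1
      · exact Prod.ext (by change a * 1 = 1 * a; rw [mul_one, one_mul])
          (by change 1 * b = b * 1; rw [mul_one, one_mul])
      · exact mul_comm _ _

theorem mi_coeff (x : MonoidAlgebra k A) (y : MonoidAlgebra k B) [Finite A] [Finite B]
    (a : A) (b : B) :
    (mi k (MonoidHom.inl A B) x * mi k (MonoidHom.inr A B) y).coeff (a, b) =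
      x.coeff a * y.coeff b := by
  classical
  induction x using MonoidAlgebra.induction_linear with
  | zero => rw [map_zero, zero_mul]; simp
  | add u v hu hv =>
    rw [map_add, add_mul, MonoidAlgebra.coeff_add, Finsupp.add_apply, hu, hv,
      MonoidAlgebra.coeff_add, Finsupp.add_apply, add_mul]
  | single a' c =>
    induction y using MonoidAlgebra.induction_linear with
    | zero => rw [map_zero, mul_zero]; simp
    | add u v hu hv =>
      rw [map_add, mul_add, MonoidAlgebra.coeff_add, Finsupp.add_apply, hu, hv,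
        MonoidAlgebra.coeff_add, Finsupp.add_apply, mul_add]
    | single b' c' =>
      rw [mi_single, mi_single, MonoidAlgebra.single_mul_single, MonoidAlgebra.coeff_single,
        MonoidAlgebra.coeff_single, MonoidAlgebra.coeff_single, Finsupp.single_apply,
        Finsupp.single_apply, Finsupp.single_apply]
      have h1 : (MonoidHom.inl A B) a' * (MonoidHom.inr A B) b' = (a', b') :=
        Prod.ext (by change a' * 1 = a'; rw [mul_one]) (by change 1 * b' = b'; rw [one_mul])
      rw [h1]
      by_cases ha : a' = a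
      · by_cases hb : b' = b
        · rw [if_pos (by rw [ha, hb]), if_pos ha, if_pos hb]
        · rw [if_neg (fun h => hb (congrArg Prod.snd h)), if_neg hb, mul_zero]
      · rw [if_neg (fun h => ha (congrArg Prod.fst h)), if_neg ha, zero_mul]

theorem single_eq_mi (a : A) (b : B) (c : k) :
    (MonoidAlgebra.single (a, b) c : MonoidAlgebra k (A × B)) =
      mi k (MonoidHom.inl A B) (MonoidAlgebra.single a c) *
        mi k (MonoidHom.inr A B) (MonoidAlgebra.single b 1) := by
  rw [mi_single, mi_single, MonoidAlgebra.single_mul_single, mul_one]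
  congr 1
  exact Prod.ext (by change a = a * 1; rw [mul_one]) (by change b = 1 * b; rw [one_mul])

end

section

variable {k : Type u} [Field k] [IsAlgClosed k] {p : ℕ} [Fact p.Prime] [CharP k p]
variable {A B : Type} [Group A] [Group B] [Finite A] [Finite B]

/-- a block of a direct product is the product of the blocks of the factors which it meets -/
theorem block_prod {e : MonoidAlgebra k (A × B)} (he : IsBlockOf (⊤ : Subgroup (A × B)) e)
    {g : MonoidAlgebra k A} {h : MonoidAlgebra k B} (hg : IsBlockOf (⊤ : Subgroup A) g)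
    (hh : IsBlockOf (⊤ : Subgroup B) h) (hge : mi k (MonoidHom.inl A B) g * e = e)
    (hhe : mi k (MonoidHom.inr A B) h * e = e) :
    e = mi k (MonoidHom.inl A B) g * mi k (MonoidHom.inr A B) h := by
  classical
  have _ := Fintype.ofFinite A
  have _ := Fintype.ofFinite B
  have hfin : FiniteDimensional k (MonoidAlgebra k (A × B)) :=
    Module.Finite.equiv (MonoidAlgebra.coeffLinearEquiv k (M := A × B) (S := k)).symm
  set ia := mi k (MonoidHom.inl A B) with hia
  set ib := mi k (MonoidHom.inr A B) with hib
  have heT : e ∈ Fix (cj k (A × B)) ⊤ := he.mem.2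
  have hgT : g ∈ Fix (cj k A) ⊤ := hg.mem.2
  have hhT : h ∈ Fix (cj k B) ⊤ := hh.mem.2
  have hcent : ∀ {z : MonoidAlgebra k (A × B)}, z ∈ Fix (cj k (A × B)) ⊤ →
      ∀ y, y * z = z * y := fun hz y => commute_of_mem (SubAlg_top y) hz
  have hiaT : ∀ {z : MonoidAlgebra k A}, z ∈ Fix (cj k A) ⊤ → ia z ∈ Fix (cj k (A × B)) ⊤ := by
    intro z hz x _
    rw [hia, cj_mi_inl, hz _ trivial]
  have hibT : ∀ {z : MonoidAlgebra k B}, z ∈ Fix (cj k B) ⊤ → ib z ∈ Fix (cj k (A × B)) ⊤ := by
    intro z hz x _
    rw [hib, cj_mi_inr, hz _ trivial]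
  -- the slices
  let s : B → MonoidAlgebra k A := fun b => sl (MonoidHom.inl A B) (1, b) e
  have hs : ∀ b a, (s b).coeff a = e.coeff (a, b) := by
    intro b a
    change e.coeff ((a, 1) * (1, b)) = _
    rw [Prod.mk_mul_mk, mul_one, one_mul]
  have hsT : ∀ b, s b ∈ Fix (cj k A) ⊤ := by
    intro b a _
    apply MonoidAlgebra.coeff_injective
    refine Finsupp.ext fun a' => ?_
    rw [cj_coeff, hs, hs]
    have h1 := congrArg (fun z => z.coeff (a', b)) (heT (a, 1) trivial)
    simp only [cj_coeff] at h1
    rw [← h1]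
    congr 1
    exact Prod.ext rfl (by
      change b = (1 : B)⁻¹ * b * 1
      rw [inv_one, one_mul, mul_one])
  have hes : e = ∑ b : B, ia (s b) * MonoidAlgebra.single ((1 : A), b) 1 := by
    apply MonoidAlgebra.coeff_injective
    refine Finsupp.ext fun x => ?_
    obtain ⟨a, b⟩ := x
    rw [MonoidAlgebra.coeff_sum, Finsupp.finset_sum_apply, Finset.sum_eq_single b]
    · have h1 : (MonoidAlgebra.single ((1 : A), b) (1 : k) : MonoidAlgebra k (A × B)) =
          ib (MonoidAlgebra.single b 1) := by
        rw [hib, mi_single]; rfl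
      rw [h1, hia, hib, mi_coeff, MonoidAlgebra.coeff_single, Finsupp.single_eq_same, mul_one, hs]
    · intro b' _ hb'
      have h1 : (MonoidAlgebra.single ((1 : A), b') (1 : k) : MonoidAlgebra k (A × B)) =
          ib (MonoidAlgebra.single b' 1) := by
        rw [hib, mi_single]; rfl
      rw [h1, hia, hib, mi_coeff, MonoidAlgebra.coeff_single, Finsupp.single_apply, if_neg hb',
        mul_zero]
    · intro h'
      exact absurd (Finset.mem_univ _) h'
  -- the scalars
  obtain ⟨hbc, hprim⟩ := isPrim_center (k := k) hg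
  have hfinA : FiniteDimensional k (MonoidAlgebra k A) :=
    Module.Finite.equiv (MonoidAlgebra.coeffLinearEquiv k (M := A) (S := k)).symm
  obtain ⟨lam, -, hlam⟩ := exists_char (k := k) hprim
  let zs : ∀ b, Subalgebra.center k (MonoidAlgebra k A) := fun b =>
    ⟨s b, mem_center_iff_Fix_top.mpr (hsT b)⟩
  let c : B → k := fun b => lam (zs b)
  have hnil : ∀ b, IsNilpotent (s b * g - c b • g) := by
    intro b
    obtain ⟨n, hn⟩ := hlam (zs b)
    refine ⟨n, ?_⟩
    have h1 := congrArg Subtype.val hn
    have h2 : ((zs b - algebraMap k (Subalgebra.center k (MonoidAlgebra k A)) (lam (zs b))) *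
        (⟨g, hbc⟩ : Subalgebra.center k (MonoidAlgebra k A)) :
        Subalgebra.center k (MonoidAlgebra k A)).1 = s b * g - c b • g := by
      change (s b - algebraMap k (MonoidAlgebra k A) (lam (zs b))) * g = _
      rw [sub_mul, ← Algebra.smul_def]
    rw [← h2]
    exact h1
  let β : MonoidAlgebra k B := ∑ b : B, MonoidAlgebra.single b (c b)
  have hβc : ∀ b, β.coeff b = c b := by
    intro b
    change (∑ b : B, MonoidAlgebra.single b (c b)).coeff b = c b
    rw [MonoidAlgebra.coeff_sum, Finsupp.finset_sum_apply, Finset.sum_eq_single b]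
    · rw [MonoidAlgebra.coeff_single, Finsupp.single_eq_same]
    · intro b' _ hb'
      rw [MonoidAlgebra.coeff_single, Finsupp.single_apply, if_neg hb']
    · intro h'
      exact absurd (Finset.mem_univ _) h'
  have hβT : β ∈ Fix (cj k B) ⊤ := by
    intro b _
    apply MonoidAlgebra.coeff_injective
    refine Finsupp.ext fun b' => ?_
    rw [cj_coeff, hβc, hβc]
    change lam (zs (b⁻¹ * b' * b)) = lam (zs b')
    congr 1
    apply Subtype.ext
    change s (b⁻¹ * b' * b) = s b'
    apply MonoidAlgebra.coeff_injective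
    refine Finsupp.ext fun a => ?_
    rw [hs, hs]
    have h1 := congrArg (fun z => z.coeff (a, b')) (heT (1, b) trivial)
    simp only [cj_coeff] at h1
    rw [← h1]
    congr 1
    exact Prod.ext (by
      change a = (1 : A)⁻¹ * a * 1
      rw [inv_one, one_mul, mul_one]) rfl
  set N : MonoidAlgebra k (A × B) := ∑ b : B, ia (s b * g - c b • g) *
    MonoidAlgebra.single ((1 : A), b) 1 with hN
  have hNnil : IsNilpotent N := by
    refine nil_of_sum (k := k) _ _ _ ?_ ?_
    · intro b _
      refine mem_center_iff_Fix_top.mpr (hiaT ?_)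
      exact Subalgebra.sub_mem _ (Subalgebra.mul_mem _ (hsT b) hgT) (Subalgebra.smul_mem _ hgT _)
    · intro b _
      exact (hnil b).map ia
  have heN : e = ia g * ib β + N := by
    have h1 : ia g * ib β = ∑ b : B, ia (c b • g) * MonoidAlgebra.single ((1 : A), b) 1 := by
      have h2 : ib β = ∑ b : B, c b • MonoidAlgebra.single ((1 : A), b) (1 : k) := by
        change ib (∑ b : B, MonoidAlgebra.single b (c b)) = _
        rw [map_sum]
        refine Finset.sum_congr rfl fun b _ => ?_
        rw [hib, mi_single, MonoidAlgebra.smul_single, smul_eq_mul, mul_one]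
        rfl
      rw [h2, Finset.mul_sum]
      refine Finset.sum_congr rfl fun b _ => ?_
      rw [map_smul, mul_smul_comm, smul_mul_assoc]
    rw [h1, hN, ← Finset.sum_add_distrib]
    have h3 : e = ia g * ∑ b : B, ia (s b) * MonoidAlgebra.single ((1 : A), b) 1 := by
      rw [← hes, hge]
    rw [h3, Finset.mul_sum]
    refine Finset.sum_congr rfl fun b _ => ?_
    rw [← add_mul, ← map_add, ← mul_assoc, ← map_mul, commute_of_mem (SubAlg_top g) (hsT b)]
    congr 2
    abel
  obtain ⟨μ, hμ⟩ := exists_lam (k := k) hh β hβT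
  set n' := β * h - μ • h with hn'
  have hNT : N ∈ Fix (cj k (A × B)) ⊤ := by
    have h1 : N = e - ia g * ib β := by rw [heN]; abel
    rw [h1]
    exact Subalgebra.sub_mem _ heT (Subalgebra.mul_mem _ (hiaT hgT) (hibT hβT))
  have hn'T : n' ∈ Fix (cj k B) ⊤ :=
    Subalgebra.sub_mem _ (Subalgebra.mul_mem _ hβT hhT) (Subalgebra.smul_mem _ hhT _)
  have h1 : e = μ • (ia g * ib h) + (ia g * ib n' + N * ib h) := by
    have h2 : e = e * ib h := by rw [hcent (hibT hhT) e, hhe]
    rw [h2]
    conv_lhs => rw [heN]
    rw [add_mul, mul_assoc, ← map_mul, show β * h = μ • h + n' by rw [hn']; abel, map_add,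
      map_smul, mul_add, mul_smul_comm]
    abel
  have hgg : g * g = g := hg.idem.eq
  have hhh : h * h = h := hh.idem.eq
  have hcomm : Commute (ia g) (ib n') := mi_comm g n'
  have hnilX : IsNilpotent (ia g * ib n' + N * ib h) := by
    refine Commute.isNilpotent_add ?_ ?_ ?_
    · exact (hcent (Subalgebra.mul_mem _ (hiaT hgT) (hibT hn'T)) (N * ib h)).symm
    · exact hcomm.isNilpotent_mul_left (hμ.map ib)
    · have h3 : Commute N (ib h) := hcent (hibT hhT) N
      exact h3.isNilpotent_mul_right hNnil
  set G := ia g * ib h with hG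
  set X := ia g * ib n' + N * ib h with hX
  have hGG : G * G = G := by
    rw [hG]
    calc ia g * ib h * (ia g * ib h) = ia g * (ib h * ia g) * ib h := by simp only [mul_assoc]
      _ = (ia g * ia g) * (ib h * ib h) := by rw [← mi_comm]; simp only [mul_assoc]; rfl
      _ = _ := by rw [← map_mul, ← map_mul, hgg, hhh]
  have hGT : G ∈ Fix (cj k (A × B)) ⊤ := Subalgebra.mul_mem _ (hiaT hgT) (hibT hhT)
  have hGe : G * e = e := by rw [hG, mul_assoc, hhe, hge]
  have hee : e * e = e := he.idem.eq
  have hXe : X = e - μ • G := by rw [h1]; abel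
  have heG : e * G = e := by rw [hcent hGT e, hGe]
  -- `μ = 1`
  have hμ1 : μ = 1 := by
    by_contra hne
    have h3 : e * X = (1 - μ) • e := by
      rw [hXe, mul_sub, hee, mul_smul_comm, heG, sub_smul, one_smul]
    have h4 : IsNilpotent ((1 - μ) • e) := by
      rw [← h3]
      have h5 : Commute e X := (hcent heT X).symm
      exact h5.isNilpotent_mul_left hnilX
    obtain ⟨n, hn⟩ := h4
    rw [smul_pow] at hn
    have h5 : (1 - μ) ^ n ≠ 0 := pow_ne_zero _ (sub_ne_zero.mpr (Ne.symm hne))
    have h6 : e ^ n = 0 := (smul_eq_zero.mp hn).resolve_left h5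
    rcases n with _ | n
    · rw [pow_zero] at h6
      exact he.ne_zero (by rw [← one_mul e, h6, zero_mul])
    · rw [he.idem.pow_succ_eq] at h6
      exact he.ne_zero h6
  have h3 : IsNilpotent (G - e) := by
    have h4 : G - e = -X := by rw [hXe, hμ1, one_smul]; abel
    rw [h4]
    exact hnilX.neg
  have h4 : (G - e) * (G - e) = G - e := by
    rw [mul_sub, sub_mul, sub_mul, hGG, hGe, heG, hee]
    abel
  obtain ⟨n, hn⟩ := h3
  have h5 : G - e = 0 := by
    have h6 : IsIdempotentElem (G - e) := h4
    rcases n with _ | n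
    · rw [pow_zero] at hn
      rw [← one_mul (G - e), hn, zero_mul]
    · rwa [h6.pow_succ_eq] at hn
  exact (sub_eq_zero.mp h5).symm

/-- **Small idempotents of direct products.** -/
theorem oneBd_prod {Q : Subgroup (A × B)} (hQ : IsPGroup p Q) {CA CB : ℕ}
    (hA : OneBd k (Q.map (MonoidHom.fst A B)) CA) (hB : OneBd k (Q.map (MonoidHom.snd A B)) CB) :
    OneBd k Q (CA * CB) := by
  classical
  intro e a he ha hea hbr
  obtain ⟨g, a₁, hg, hge, ha₁, hga, hbg⟩ := exists_factor_block (k := k) (ι := MonoidHom.inl A B)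
    (π := MonoidHom.fst A B) (fun _ => rfl) (fun x y hy => by
      have hy : y.1 = 1 := hy
      exact Prod.ext (by change x * y.1 = y.1 * x; rw [hy, mul_one, one_mul])
        (by change 1 * y.2 = y.2 * 1; rw [mul_one, one_mul])) hQ he ha hea hbr
  obtain ⟨h, a₂, hh, hhe, ha₂, hha, hbh⟩ := exists_factor_block (k := k) (ι := MonoidHom.inr A B)
    (π := MonoidHom.snd A B) (fun _ => rfl) (fun x y hy => by
      have hy : y.2 = 1 := hy
      exact Prod.ext (by change 1 * y.1 = y.1 * 1; rw [mul_one, one_mul])
        (by change x * y.2 = y.2 * x; rw [hy, mul_one, one_mul])) hQ he ha hea hbr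
  have heq := block_prod he hg hh hge hhe
  obtain ⟨i, hiF, hii, hgi, hbi, hid⟩ := hA g a₁ hg ha₁ hga hbg
  obtain ⟨j, hjF, hjj, hhj, hbj, hjd⟩ := hB h a₂ hh ha₂ hha hbh
  set ia := mi k (MonoidHom.inl A B) with hia
  set ib := mi k (MonoidHom.inr A B) with hib
  have hcm : ∀ x y, ia x * ib y = ib y * ia x := fun x y => mi_comm x y
  refine ⟨ia i * ib j, ?_, ?_, ?_, ?_, ?_⟩
  · intro x hx
    have e1 : cj k A x.1 i = i := hiF _ ⟨x, hx, rfl⟩
    have e2 : cj k B x.2 j = j := hjF _ ⟨x, hx, rfl⟩
    rw [map_mul, hia, hib, cj_mi_inl, cj_mi_inr, e1, e2]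
  · calc ia i * ib j * (ia i * ib j) = ia i * (ib j * ia i) * ib j := by simp only [mul_assoc]
      _ = (ia i * ia i) * (ib j * ib j) := by rw [← hcm]; simp only [mul_assoc]
      _ = _ := by rw [← map_mul, ← map_mul, hii, hjj]
  · rw [heq]
    calc ia g * ib h * (ia i * ib j) = ia g * (ib h * ia i) * ib j := by simp only [mul_assoc]
      _ = (ia g * ia i) * (ib h * ib j) := by rw [← hcm]; simp only [mul_assoc]
      _ = _ := by rw [← map_mul, ← map_mul, hgi, hhj]
  · obtain ⟨c, hc, hc0⟩ := exists_coeff_of_br hbi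
    obtain ⟨c', hc', hc0'⟩ := exists_coeff_of_br hbj
    refine br_ne_zero_of_coeff (c := (c, c')) ?_ ?_
    · intro x hx
      exact Prod.ext (hc _ ⟨x, hx, rfl⟩) (hc' _ ⟨x, hx, rfl⟩)
    · rw [hia, hib, mi_coeff]
      exact mul_ne_zero hc0 hc0'
  · have _ := Fintype.ofFinite A
    have _ := Fintype.ofFinite B
    have hfin : FiniteDimensional k (MonoidAlgebra k (A × B)) :=
      Module.Finite.equiv (MonoidAlgebra.coeffLinearEquiv k (M := A × B) (S := k)).symm
    have hfinA : FiniteDimensional k (MonoidAlgebra k A) :=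
      Module.Finite.equiv (MonoidAlgebra.coeffLinearEquiv k (M := A) (S := k)).symm
    have hfinB : FiniteDimensional k (MonoidAlgebra k B) :=
      Module.Finite.equiv (MonoidAlgebra.coeffLinearEquiv k (M := B) (S := k)).symm
    let NA := NN (⊤ : Subalgebra k (MonoidAlgebra k A)) i i
    let NB := NN (⊤ : Subalgebra k (MonoidAlgebra k B)) j j
    let F : TensorProduct k NA NB →ₗ[k] MonoidAlgebra k (A × B) :=
      TensorProduct.lift (((LinearMap.mul k (MonoidAlgebra k (A × B))).compl₁₂
        (ia.toLinearMap ∘ₗ NA.subtype) (ib.toLinearMap ∘ₗ NB.subtype)))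
    have hF : ∀ (x : NA) (y : NB), F (x ⊗ₜ[k] y) = ia x * ib y := fun x y => by
      change TensorProduct.lift _ (x ⊗ₜ[k] y) = _
      rw [TensorProduct.lift.tmul]
      rfl
    have hle : NN (⊤ : Subalgebra k (MonoidAlgebra k (A × B))) (ia i * ib j) (ia i * ib j) ≤
        LinearMap.range F := by
      rintro w ⟨-, h1, h2⟩
      have key : ∀ w : MonoidAlgebra k (A × B),
          (ia i * ib j) * w * (ia i * ib j) ∈ LinearMap.range F := by
        intro w
        induction w using MonoidAlgebra.induction_linear with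
        | zero => rw [mul_zero, zero_mul]; exact Submodule.zero_mem _
        | add u v hu hv => rw [mul_add, add_mul]; exact Submodule.add_mem _ hu hv
        | single x c =>
          obtain ⟨a', b'⟩ := x
          refine ⟨(⟨i * MonoidAlgebra.single a' c * i, mul_mul_mem_NN hii hii Algebra.mem_top
            Algebra.mem_top Algebra.mem_top⟩ : NA) ⊗ₜ[k] (⟨j * MonoidAlgebra.single b' 1 * j,
            mul_mul_mem_NN hjj hjj Algebra.mem_top Algebra.mem_top Algebra.mem_top⟩ : NB), ?_⟩
          rw [hF, single_eq_mi]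
          change ia (i * MonoidAlgebra.single a' c * i) * ib (j * MonoidAlgebra.single b' 1 * j) =
            ia i * ib j * (ia (MonoidAlgebra.single a' c) * ib (MonoidAlgebra.single b' 1)) *
              (ia i * ib j)
          rw [map_mul, map_mul, map_mul, map_mul]
          set x := ia (MonoidAlgebra.single a' c)
          set y := ib (MonoidAlgebra.single b' 1)
          have e1 : ib j * x = x * ib j := (hcm _ _).symm
          have e2 : y * ia i = ia i * y := (hcm _ _).symm
          have e3 : ib j * ia i = ia i * ib j := (hcm _ _).symm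
          calc ia i * x * ia i * (ib j * y * ib j)
              = ia i * x * (ia i * ib j) * y * ib j := by simp only [mul_assoc]
            _ = ia i * x * (ib j * ia i) * y * ib j := by rw [e3]
            _ = ia i * (x * ib j) * (ia i * y) * ib j := by simp only [mul_assoc]
            _ = ia i * (ib j * x) * (y * ia i) * ib j := by rw [e1, e2]
            _ = _ := by simp only [mul_assoc]
      have h3 : w = (ia i * ib j) * w * (ia i * ib j) := by rw [h1, h2]
      rw [h3]
      exact key w
    calc Module.finrank k (NN (⊤ : Subalgebra k (MonoidAlgebra k (A × B))) (ia i * ib j)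
          (ia i * ib j)) ≤ Module.finrank k (LinearMap.range F) := Submodule.finrank_mono hle
      _ ≤ Module.finrank k (TensorProduct k NA NB) := LinearMap.finrank_range_le F
      _ = Module.finrank k NA * Module.finrank k NB := Module.finrank_tensorProduct
      _ ≤ CA * CB := Nat.mul_le_mul hid hjd

end

end Vale.Agent.P180.H951
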