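import Vale.Agent.P180.H951.Blk

/-! Characters of the stabiliser of a decomposition which do not vanish on an idempotent of a block, and
the blocks of the factors. -/

set_option linter.all false

namespace Vale.Agent.P180.H951

open Module Subgroup Vale.Agent.P180 Vale.Agent.P180.H768.Gd Vale.Agent.P180.R2.H799
  Vale.Agent.P180.R2.H471.Hc Vale.Agent.P180.R2.H954.Hc Vale.Agent.P180.R2.H954
  Vale.Agent.P180.R2.H12.Sl Vale.Agent.P180.H337
open Vale.Agent.P180.H393 (IsIr IsCF ev)

universe u

section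

theorem mapDomain_mapRing {R S : Type*} [CommRing R] [CommRing S] {A G : Type*} [Group A] [Group G]
    (f : R →+* S) (ι : A →* G) (x : MonoidAlgebra R A) :
    MonoidAlgebra.mapRingHom G f (MonoidAlgebra.mapDomain ι x) =
      MonoidAlgebra.mapDomain ι (MonoidAlgebra.mapRingHom A f x) := by
  induction x using MonoidAlgebra.induction_linear with
  | zero => rw [MonoidAlgebra.mapDomain_zero, map_zero, map_zero, MonoidAlgebra.mapDomain_zero]
  | add x y hx hy =>
    rw [MonoidAlgebra.mapDomain_add, map_add, hx, hy, map_add, MonoidAlgebra.mapDomain_add]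
  | single a c =>
    rw [MonoidAlgebra.mapDomain_single, MonoidAlgebra.mapRingHom_single,
      MonoidAlgebra.mapRingHom_single, MonoidAlgebra.mapDomain_single]

variable {K : Type u} [Field K]

theorem ev_mi {A L : Type} [Group A] [Group L] [Fintype A] [Fintype L] (ι : A →* L) {ψ : L → K}
    {ξ : A → K} {m : K} (h : ∀ b, ψ (ι b) = m * ξ b) (y : MonoidAlgebra K A) :
    ev ψ (mi K ι y) = m * ev ξ y := by
  classical
  rw [← evL_apply, ← evL_apply]
  induction y using MonoidAlgebra.induction_linear with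
  | zero => rw [map_zero, map_zero, map_zero, mul_zero]
  | add x y hx hy => rw [map_add, map_add, map_add, hx, hy, mul_add]
  | single a c =>
    rw [mi_single, evL_apply, evL_apply, ev_single, ev_single, h]
    ring

end

section

variable {k : Type u} [Field k] [IsAlgClosed k] {p : ℕ} [Fact p.Prime] [CharP k p]

/-- A lift of an idempotent lies under a central idempotent which lies over it. -/
theorem lift_under {G : Type} [Group G] [Finite G] {J E : MonoidAlgebra (WittVector p k) G}
    (hJ : J * J = J) (hEE : E * E = E) (hJE : J * E = E * J)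
    (h0 : MonoidAlgebra.mapRingHom G (WittVector.constantCoeff (p := p) (R := k)) E *
      MonoidAlgebra.mapRingHom G (WittVector.constantCoeff (p := p) (R := k)) J =
      MonoidAlgebra.mapRingHom G (WittVector.constantCoeff (p := p) (R := k)) J) :
    MonoidAlgebra.mapRingHom G (toKK k p) E * MonoidAlgebra.mapRingHom G (toKK k p) J =
      MonoidAlgebra.mapRingHom G (toKK k p) J := by
  classical
  set F := J - E * J with hF
  have hEJ : (E * J) * (E * J) = E * J := by
    calc (E * J) * (E * J) = E * (J * E) * J := by simp only [mul_assoc]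
      _ = (E * E) * (J * J) := by rw [hJE]; simp only [mul_assoc]
      _ = E * J := by rw [hEE, hJ]
  have hJEJ : J * (E * J) = E * J := by
    rw [← mul_assoc, hJE, mul_assoc, hJ]
  have hEJJ : (E * J) * J = E * J := by rw [mul_assoc, hJ]
  have hFF : F * F = F := by
    rw [hF, mul_sub, sub_mul, sub_mul, hJ, hJEJ, hEJJ, hEJ, sub_self, sub_zero]
  obtain ⟨r, hr⟩ := exists_rank (H := (⊤ : Subgroup G)) hFF hFF (fun x _ => Subgroup.mem_top x)
    (fun x _ => Subgroup.mem_top x)
  have h1 := hr k (WittVector.constantCoeff (p := p) (R := k))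
  have h2 := hr (KK k p) (toKK k p)
  have h3 : MonoidAlgebra.mapRingHom G (WittVector.constantCoeff (p := p) (R := k)) F = 0 := by
    rw [hF, map_sub, map_mul, h0, sub_self]
  rw [h3] at h1
  have h4 : NN (SubAlg k (⊤ : Subgroup G)) (0 : MonoidAlgebra k G) 0 = ⊥ := by
    rw [eq_bot_iff]
    rintro x ⟨-, hx, -⟩
    rw [zero_mul] at hx
    rw [Submodule.mem_bot, ← hx]
  rw [h4, finrank_bot] at h1
  rw [← h1] at h2
  have hfin : FiniteDimensional (KK k p) (MonoidAlgebra (KK k p) G) :=
    Module.Finite.equiv (MonoidAlgebra.coeffLinearEquiv (KK k p) (M := G) (S := KK k p)).symm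
  rw [Submodule.finrank_eq_zero] at h2
  set φ := MonoidAlgebra.mapRingHom G (toKK k p) with hφ
  have h5 : φ F ∈ NN (SubAlg (KK k p) (⊤ : Subgroup G)) (φ F) (φ F) :=
    ⟨SubAlg_top _, by rw [← map_mul, hFF], by rw [← map_mul, hFF]⟩
  rw [h2, Submodule.mem_bot, hF, map_sub, map_mul, sub_eq_zero] at h5
  exact h5.symm

variable {F V : Type} [Field F] [AddCommGroup V] [Module F V] [Fintype (V ≃ₗ[F] V)] {s : ℕ}
  {e : Fin s → End F V} {t : Fin s} [Fintype (stab e)]
  [Fintype (LinearMap.range (e t) ≃ₗ[F] LinearMap.range (e t))]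
  {io : (LinearMap.range (e t) ≃ₗ[F] LinearMap.range (e t)) →* (V ≃ₗ[F] V)}

/-- **The factor of a character.** -/
theorem ev_factor_ne (hid : ∀ i, e i * e i = e i) (hor : ∀ i j, i ≠ j → e i * e j = 0)
    (hio : ∀ b x, io b x = (b ⟨e t x, ⟨x, rfl⟩⟩ : V) + (x - e t x))
    {g : MonoidAlgebra k (LinearMap.range (e t) ≃ₗ[F] LinearMap.range (e t))}
    {j : MonoidAlgebra k (V ≃ₗ[F] V)} (hgj : MonoidAlgebra.mapDomain io g * j = j)
    {J : MonoidAlgebra (WittVector p k) (V ≃ₗ[F] V)} (hJJ : J * J = J)
    (hJL : ∀ x, J.coeff x ≠ 0 → x ∈ stab e)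
    (hJj : MonoidAlgebra.mapRingHom _ (WittVector.constantCoeff (p := p) (R := k)) J = j)
    {E : MonoidAlgebra (WittVector p k) (LinearMap.range (e t) ≃ₗ[F] LinearMap.range (e t))}
    (hEc : ∀ x, x * E = E * x) (hEE : E * E = E)
    (hEg : MonoidAlgebra.mapRingHom _ (WittVector.constantCoeff (p := p) (R := k)) E = g)
    {ψ : stab e → KK k p} (hψ : IsIr (KK k p) (stab e) ψ)
    (hne : ev ψ (H337.rs (stab e) (MonoidAlgebra.mapRingHom _ (toKK k p) J)) ≠ 0)
    {m : KK k p} {ξ : (LinearMap.range (e t) ≃ₗ[F] LinearMap.range (e t)) → KK k p}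
    (hm : ∀ b, ψ ⟨io b, io_mem hid hor hio b⟩ = m * ξ b) :
    ev ξ (MonoidAlgebra.mapRingHom _ (toKK k p) E) ≠ 0 := by
  classical
  have hchar : CharZero (KK k p) := charZero_KK k p
  set φ := MonoidAlgebra.mapRingHom (V ≃ₗ[F] V) (toKK k p) with hφ
  set EA := MonoidAlgebra.mapRingHom (LinearMap.range (e t) ≃ₗ[F] LinearMap.range (e t))
    (toKK k p) E with hEA
  have hEAc : EA ∈ Fix (cj (KK k p) _) ⊤ := by
    rw [mem_Fix_cj_iff]
    intro x _
    have h2 : MonoidAlgebra.single x (1 : KK k p) =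
        MonoidAlgebra.mapRingHom _ (toKK k p) (MonoidAlgebra.single x 1) := by
      rw [MonoidAlgebra.mapRingHom_single, map_one]
    rw [h2, hEA, ← map_mul, ← map_mul, hEc]
  have hEAA : EA * EA = EA := by rw [hEA, ← map_mul, hEE]
  set eh := mi (KK k p) (ioL hid hor hio) EA with heh
  have hehT : eh ∈ Fix (cj (KK k p) (stab e)) ⊤ :=
    mi_central (rsH_ioL hid hor hio) (ioL_comm hid hor hio) hEAc
  have hehc : ∀ x, x * eh = eh * x := fun x => commute_of_mem (SubAlg_top x) hehT
  have hehh : eh * eh = eh := by rw [heh, ← map_mul, hEAA]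
  have hφE : φ (MonoidAlgebra.mapDomain io E) = incl (KK k p) (stab e) eh := by
    rw [hφ, mapDomain_mapRing, ← hEA]
    change MonoidAlgebra.mapDomain io EA =
      MonoidAlgebra.mapDomain (stab e).subtype (MonoidAlgebra.mapDomain (ioL hid hor hio) EA)
    apply MonoidAlgebra.coeff_injective
    rw [MonoidAlgebra.coeff_mapDomain, MonoidAlgebra.coeff_mapDomain,
      MonoidAlgebra.coeff_mapDomain, ← Finsupp.mapDomain_comp]
    rfl
  have hJK : φ J ∈ SubAlg (KK k p) (stab e) := by
    intro x hx
    rw [hφ, MonoidAlgebra.coeff_mapRingHom] at hx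
    exact hJL x fun h => hx (by rw [h, map_zero])
  obtain ⟨J', hJ'⟩ := exists_incl (stab e) hJK
  have hcommK : φ J * φ (MonoidAlgebra.mapDomain io E) =
      φ (MonoidAlgebra.mapDomain io E) * φ J := by
    rw [hφE, ← hJ', ← map_mul, ← map_mul, hehc]
  have hcomm : J * MonoidAlgebra.mapDomain io E = MonoidAlgebra.mapDomain io E * J := by
    apply mapKK_injective (k := k) (p := p)
    rw [map_mul, map_mul]
    exact hcommK
  have hEE' : MonoidAlgebra.mapDomain io E * MonoidAlgebra.mapDomain io E =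
      MonoidAlgebra.mapDomain io E := by
    apply mapKK_injective (k := k) (p := p)
    rw [map_mul]
    change φ _ * φ _ = φ _
    rw [hφE, ← map_mul, hehh]
  have hund := lift_under (k := k) (p := p) hJJ hEE' hcomm (by
    rw [mapDomain_mapRing, hEg, hJj, hgj])
  change φ (MonoidAlgebra.mapDomain io E) * φ J = φ J at hund
  have hrsE : H337.rs (stab e) (φ (MonoidAlgebra.mapDomain io E)) = eh := by
    rw [hφE]
    apply MonoidAlgebra.coeff_injective
    refine Finsupp.ext fun x => ?_
    rw [H337.rs_coeff, Vale.Agent.P180.R2.H799.incl_coeff]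
  have hrs : eh * H337.rs (stab e) (φ J) = H337.rs (stab e) (φ J) := by
    conv_rhs => rw [← hund, rs_mul (by rw [hφE]; exact incl_mem _ _), hrsE]
  have hψe : ev ψ eh ≠ 0 := by
    intro h0
    apply hne
    change ev ψ (H337.rs (stab e) (φ J)) = 0
    rw [← hrs]
    exact (ev_central_eq_zero_iff hψ hehc hehh).mp h0 _
  intro h0
  apply hψe
  rw [heh, ev_mi (m := m) (ξ := ξ) (ioL hid hor hio) hm, h0, mul_zero]

end

end Vale.Agent.P180.H951
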