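import Vale.Agent.P180.H951.Small

/-! The small idempotent of a block from an idempotent of a subgroup normalising `U`, by counting
ordinary characters. -/

set_option linter.all false

namespace Vale.Agent.P180.H951

open Finset Subgroup Vale.Agent.P180 Vale.Agent.P180.H768.Gd Vale.Agent.P180.R2.H799
  Vale.Agent.P180.R2.H471.Hc Vale.Agent.P180.R2.H954.Hc Vale.Agent.P180.R2.H12.Sl
  Vale.Agent.P180.H337
open Vale.Agent.P180.H393 (IsIr IsCF ev)

universe u

section

variable {k : Type u} [Field k] [IsAlgClosed k] {p : ℕ} [Fact p.Prime] [CharP k p]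

/-- **The small idempotent** of a block, by the number of its ordinary characters. -/
theorem exists_small' {G : Type} [Group G] [Finite G] [Fintype G] {U L Q : Subgroup G}
    (hpU : ¬ p ∣ Nat.card U) (hLU : L ≤ normalizer (U : Set G)) (hQ : IsPGroup p Q)
    (hQL : Q ≤ L) (hCU : U ⊓ centralizer (Q : Set G) = ⊥) {e j : MonoidAlgebra k G}
    (hee : e * e = e) (heF : e ∈ Fix (cj k G) ⊤) (hj : j ∈ SubAlg k L) (hjQ : j ∈ Fix (cj k G) Q)
    (hjj : j * j = j) (hbr : br Q j * br Q e ≠ 0) {B N T : ℕ}
    (hB : Module.finrank k (NN (SubAlg k L) j j) ≤ B)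
    (hN : ∀ E : MonoidAlgebra (WittVector p k) G, (∀ x, x * E = E * x) → E * E = E →
      MonoidAlgebra.mapRingHom G (WittVector.constantCoeff (p := p) (R := k)) E = e →
      Nat.card {χ : G → KK k p // IsIr (KK k p) G χ ∧
        ev χ (MonoidAlgebra.mapRingHom G (toKK k p) E) ≠ 0} ≤ N)
    (hT : ∀ J : MonoidAlgebra (WittVector p k) G, J * J = J → (∀ x, J.coeff x ≠ 0 → x ∈ L) →
      MonoidAlgebra.mapRingHom G (WittVector.constantCoeff (p := p) (R := k)) J = j →
      ∀ χ : G → KK k p, IsIr (KK k p) G χ →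
      ∃ m : ℕ, ev χ (BN.av (KK k p) U * MonoidAlgebra.mapRingHom G (toKK k p) J) = m ∧
        m ≤ T * Module.finrank (KK k p) (NN (SubAlg (KK k p) L)
          (MonoidAlgebra.mapRingHom G (toKK k p) J) (MonoidAlgebra.mapRingHom G (toKK k p) J))) :
    ∃ i ∈ Fix (cj k G) Q, i * i = i ∧ e * i = i ∧ br Q i ≠ 0 ∧
      Module.finrank k (NN (⊤ : Subalgebra k (MonoidAlgebra k G)) i i) ≤ N * (T * B) ^ 2 := by
  classical
  have hchar : CharZero (KK k p) := charZero_KK k p
  have hU0 : ((Nat.card U : ℕ) : k) ≠ 0 := fun h => hpU ((CharP.cast_eq_zero_iff k p _).mp h)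
  have hU0' : ((Nat.card U : ℕ) : KK k p) ≠ 0 := by
    have : Nat.card U ≠ 0 := Nat.card_pos.ne'
    exact_mod_cast this
  have hec : ∀ z : MonoidAlgebra k G, z * e = e * z := fun z => commute_of_mem (SubAlg_top z) heF
  have hjc : j * BN.av k U = BN.av k U * j := BN.av_comm hLU hj
  have hQN : Q ≤ normalizer (U : Set G) := hQL.trans hLU
  have haa : BN.av k U * BN.av k U = BN.av k U := BN.av_idem hU0
  have hvv : (BN.av k U * j) * (BN.av k U * j) = BN.av k U * j := by
    calc (BN.av k U * j) * (BN.av k U * j) = BN.av k U * (j * BN.av k U) * j := by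
          simp only [mul_assoc]
      _ = (BN.av k U * BN.av k U) * (j * j) := by rw [hjc]; simp only [mul_assoc]
      _ = BN.av k U * j := by rw [haa, hjj]
  have haQ : BN.av k U ∈ Fix (cj k G) Q := by
    intro x hx
    rw [BN.cj_av, BN.conjS_eq_of_mem_Nm (hQN hx)]
  have hvQ : BN.av k U * j ∈ Fix (cj k G) Q := Subalgebra.mul_mem _ haQ hjQ
  have heQ : e ∈ Fix (cj k G) Q := Fix_mono _ le_top heF
  refine ⟨e * (BN.av k U * j), Subalgebra.mul_mem _ heQ hvQ, ?_, ?_, ?_, ?_⟩
  · calc e * (BN.av k U * j) * (e * (BN.av k U * j))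
        = e * ((BN.av k U * j) * e) * (BN.av k U * j) := by simp only [mul_assoc]
      _ = (e * e) * ((BN.av k U * j) * (BN.av k U * j)) := by rw [hec]; simp only [mul_assoc]
      _ = e * (BN.av k U * j) := by rw [hee, hvv]
  · rw [← mul_assoc, hee]
  · have h1 : br Q (BN.av k U) = ((Nat.card U : ℕ) : k)⁻¹ • 1 := by
      refine BN.br_av hQ hpU ?_
      intro x hx hxc
      have h2 : x ∈ U ⊓ centralizer (Q : Set G) := ⟨hx, hxc⟩
      rwa [hCU, Subgroup.mem_bot] at h2
    rw [← hec, br_mul hQ hvQ heQ, br_mul hQ haQ hjQ, h1, smul_mul_assoc, one_mul,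
      smul_mul_assoc]
    exact smul_ne_zero (inv_ne_zero hU0) hbr
  · -- the lifts
    obtain ⟨E, hEc, hEE, hEe⟩ := exists_central_lift (p := p) hec hee
    obtain ⟨J, hJJ, hJL, -, hJj⟩ := exists_lift (p := p) (H := L) (Z := ⊥) bot_le
      (fun h _ z hz => by
        rw [Subgroup.mem_bot] at hz ⊢
        rw [hz, mul_one, mul_inv_cancel])
      (by
        rw [Subgroup.card_bot]
        exact fun h => (Fact.out : p.Prime).one_lt.ne' (Nat.dvd_one.mp h))
      hjj hj (fun z hz => by
        rw [Subgroup.mem_bot] at hz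
        rw [hz, ← MonoidAlgebra.one_def, one_mul])
    obtain ⟨A, hAk, hAK⟩ := exists_av (k := k) (p := p) hpU
    set φ := MonoidAlgebra.mapRingHom G (toKK k p) with hφ
    have hEK : ∀ x, x * φ E = φ E * x := by
      intro x
      have h1 : ∀ g : G, MonoidAlgebra.single g (1 : KK k p) * φ E =
          φ E * MonoidAlgebra.single g 1 := by
        intro g
        have h2 : MonoidAlgebra.single g (1 : KK k p) = φ (MonoidAlgebra.single g 1) := by
          rw [hφ, MonoidAlgebra.mapRingHom_single, map_one]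
        rw [h2, ← map_mul, ← map_mul, hEc]
      induction x using MonoidAlgebra.induction_linear with
      | zero => rw [zero_mul, mul_zero]
      | add x y hx hy => rw [add_mul, mul_add, hx, hy]
      | single g c =>
        have h2 : MonoidAlgebra.single g c = c • MonoidAlgebra.single g (1 : KK k p) := by
          rw [MonoidAlgebra.smul_single, smul_eq_mul, mul_one]
        rw [h2, smul_mul_assoc, mul_smul_comm, h1]
    have hEEK : φ E * φ E = φ E := by rw [← map_mul, hEE]
    have hJK : φ J ∈ SubAlg (KK k p) L := by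
      intro x hx
      rw [hφ, MonoidAlgebra.coeff_mapRingHom] at hx
      exact hJL x fun h => hx (by rw [h, map_zero])
    have hJJK : φ J * φ J = φ J := by rw [← map_mul, hJJ]
    have hJAK : φ J * BN.av (KK k p) U = BN.av (KK k p) U * φ J := BN.av_comm hLU hJK
    have hAAK : BN.av (KK k p) U * BN.av (KK k p) U = BN.av (KK k p) U := BN.av_idem hU0'
    have hFK : φ (E * (A * J)) = φ E * (BN.av (KK k p) U * φ J) := by
      rw [map_mul, map_mul, hAK]
    have hVV : (BN.av (KK k p) U * φ J) * (BN.av (KK k p) U * φ J) = BN.av (KK k p) U * φ J := by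
      calc (BN.av (KK k p) U * φ J) * (BN.av (KK k p) U * φ J)
          = BN.av (KK k p) U * (φ J * BN.av (KK k p) U) * φ J := by simp only [mul_assoc]
        _ = (BN.av (KK k p) U * BN.av (KK k p) U) * (φ J * φ J) := by
            rw [hJAK]; simp only [mul_assoc]
        _ = BN.av (KK k p) U * φ J := by rw [hAAK, hJJK]
    have hFFK : φ (E * (A * J)) * φ (E * (A * J)) = φ (E * (A * J)) := by
      rw [hFK]
      calc φ E * (BN.av (KK k p) U * φ J) * (φ E * (BN.av (KK k p) U * φ J))
          = φ E * ((BN.av (KK k p) U * φ J) * φ E) * (BN.av (KK k p) U * φ J) := by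
            simp only [mul_assoc]
        _ = (φ E * φ E) * ((BN.av (KK k p) U * φ J) * (BN.av (KK k p) U * φ J)) := by
            rw [hEK]; simp only [mul_assoc]
        _ = φ E * (BN.av (KK k p) U * φ J) := by rw [hEEK, hVV]
    have hFF : (E * (A * J)) * (E * (A * J)) = E * (A * J) := by
      apply mapKK_injective (k := k) (p := p)
      rw [map_mul]
      exact hFFK
    obtain ⟨r, hr⟩ := exists_rank (H := (⊤ : Subgroup G)) hFF hFF (fun x _ => Subgroup.mem_top x)
      (fun x _ => Subgroup.mem_top x)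
    obtain ⟨s, hs⟩ := exists_rank (H := L) hJJ hJJ hJL hJL
    have hrk := hr k (WittVector.constantCoeff (p := p) (R := k))
    have hrK := hr (KK k p) (toKK k p)
    have hsk := hs k (WittVector.constantCoeff (p := p) (R := k))
    have hsK := hs (KK k p) (toKK k p)
    have hik : MonoidAlgebra.mapRingHom G (WittVector.constantCoeff (p := p) (R := k))
        (E * (A * J)) = e * (BN.av k U * j) := by
      rw [map_mul, map_mul, hEe, hAk, hJj]
    rw [hik] at hrk
    rw [hJj] at hsk
    have htop : ∀ {K : Type u} [Field K], SubAlg K (⊤ : Subgroup G) =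
        (⊤ : Subalgebra K (MonoidAlgebra K G)) := fun {K} _ =>
      eq_top_iff.mpr fun x _ => SubAlg_top x
    rw [htop] at hrk hrK
    rw [hrk, ← hrK]
    obtain ⟨m, hm, hd⟩ := exists_ev_nat hFFK
    have hd' : Module.finrank (KK k p) (NN (⊤ : Subalgebra (KK k p) (MonoidAlgebra (KK k p) G))
        (φ (E * (A * J))) (φ (E * (A * J)))) = ∑ χ, m χ ^ 2 := hd
    change Module.finrank (KK k p) (NN (⊤ : Subalgebra (KK k p) (MonoidAlgebra (KK k p) G))
        (φ (E * (A * J))) (φ (E * (A * J)))) ≤ _
    rw [hd']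
    have hle : ∀ χ : IrK (KK k p) G, m χ ≤ T * B := by
      intro χ
      obtain ⟨m', h1, h2⟩ := hT J hJJ hJL hJj χ.1 χ.2
      have h3 : m' ≤ T * B := by
        refine h2.trans (Nat.mul_le_mul_left _ ?_)
        have h4 : Module.finrank (KK k p) (NN (SubAlg (KK k p) L) (φ J) (φ J)) = s := hsK
        rw [h4, ← hsk]
        exact hB
      have h4 := hm χ
      rw [hFK] at h4
      rcases ev_central χ.2 hEK hEEK with h5 | h5
      · rw [h5, h1] at h4
        have h6 : m' = m χ := by exact_mod_cast h4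
        rw [← h6]
        exact h3
      · rw [h5] at h4
        have h6 : 0 = m χ := by exact_mod_cast h4
        rw [← h6]
        exact Nat.zero_le _
    have hzero : ∀ χ : IrK (KK k p) G, ev χ.1 (φ E) = 0 → m χ = 0 := by
      intro χ h0
      have h4 := hm χ
      rw [hFK, (ev_central_eq_zero_iff χ.2 hEK hEEK).mp h0] at h4
      have h6 : 0 = m χ := by exact_mod_cast h4
      exact h6.symm
    have hcard : (Finset.univ.filter fun χ : IrK (KK k p) G => ev χ.1 (φ E) ≠ 0).card ≤ N := by
      rw [← Fintype.card_subtype, ← Nat.card_eq_fintype_card]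
      refine le_trans (le_of_eq ?_) (hN E hEc hEE hEe)
      exact Nat.card_congr (Equiv.subtypeSubtypeEquivSubtypeInter _
        (fun χ : G → KK k p => ev χ (φ E) ≠ 0))
    calc ∑ χ, m χ ^ 2 = ∑ χ ∈ Finset.univ.filter (fun χ : IrK (KK k p) G => ev χ.1 (φ E) ≠ 0),
          m χ ^ 2 := by
          rw [Finset.sum_filter]
          refine Finset.sum_congr rfl fun χ _ => ?_
          split_ifs with h
          · rfl
          · rw [hzero χ (not_not.mp h)]
            rfl
      _ ≤ ∑ χ ∈ Finset.univ.filter (fun χ : IrK (KK k p) G => ev χ.1 (φ E) ≠ 0),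
          (T * B) ^ 2 := Finset.sum_le_sum fun χ _ => Nat.pow_le_pow_left (hle χ) 2
      _ = _ * (T * B) ^ 2 := by rw [Finset.sum_const, smul_eq_mul]
      _ ≤ N * (T * B) ^ 2 := Nat.mul_le_mul_right _ hcard

end

end Vale.Agent.P180.H951
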