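import Vale.Agent.P180.H951.OneGL
import Vale.Agent.P180.H951.FacCh
import Vale.Agent.P180.H951.Small2
import Vale.Agent.P180.H897.BoxC1

/-! General linear groups of unbounded rank: a small idempotent for the blocks with an abelian defect
group, from the bound for the number of boxes. -/

set_option linter.all false

namespace Vale.Agent.P180.H951

open Module Subgroup Vale.Agent.P180 Vale.Agent.P180.H768.Gd Vale.Agent.P180.R2.H799
  Vale.Agent.P180.R2.H471.Hc Vale.Agent.P180.R2.H954.Hc Vale.Agent.P180.R2.H954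
  Vale.Agent.P180.R2.H471.He Vale.Agent.P180.R2.H799.BZ Vale.Agent.P180.R2.H12.Sl
  Vale.Agent.P180.H568 Vale.Agent.P180.H897
open Vale.Agent.P180.R2.H259.Cyc (cycB cycB_mono)
open Vale.Agent.P180.H393 (IsIr IsCF ev Om X)

universe u

/-- the bound -/
noncomputable def glC (p n : ℕ) : ℕ :=
  n ^ 2 * ((n * n).factorial * (n * (max 1 (cycB p n)) ^ (n + 1)) ^ 2) ^ 2

theorem glC_mono {p n n' : ℕ} (h : n ≤ n') : glC p n ≤ glC p n' := by
  unfold glC
  refine Nat.mul_le_mul (Nat.pow_le_pow_left h 2) (Nat.pow_le_pow_left (Nat.mul_le_mul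
    (Nat.factorial_le (Nat.mul_le_mul h h)) (Nat.pow_le_pow_left (Nat.mul_le_mul h ?_) 2)) 2)
  exact (Nat.pow_le_pow_left (max_le_max le_rfl (cycB_mono h)) _).trans
    (Nat.pow_le_pow_right (lt_of_lt_of_le Nat.one_pos (le_max_left _ _)) (Nat.add_le_add_right h 1))

/-- **The box statement**: the characters in a block with a homogeneous abelian defect group `R ≠ 1`
are contained in products of at most `|R|` primitive characters. -/
def BoxStmt (k : Type u) [Field k] [IsAlgClosed k] (p : ℕ) [Fact p.Prime] [CharP k p]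
    [CharZero (KK k p)] (F : Type) [Field F] [Finite F] [DecidableEq (Om (KK k p) F)] : Prop :=
  ∀ (W : Type) [AddCommGroup W] [Module F W] [Finite W] [Fintype (W ≃ₗ[F] W)]
    (R : Subgroup (W ≃ₗ[F] W)) (g a : MonoidAlgebra k (W ≃ₗ[F] W))
    (E : MonoidAlgebra (WittVector p k) (W ≃ₗ[F] W)) (σ : Om (KK k p) F),
    IsPGroup p R → R ≠ ⊥ → (∀ x ∈ R, ∀ y ∈ R, x * y = y * x) → HomOn R ⊤ →
    IsBlockOf (⊤ : Subgroup (W ≃ₗ[F] W)) g → a ∈ Fix (cj k (W ≃ₗ[F] W)) R →
    g = tr (cj k (W ≃ₗ[F] W)) R ⊤ a → br R g ≠ 0 →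
    (∀ x, x * E = E * x) → E * E = E →
    MonoidAlgebra.mapRingHom (W ≃ₗ[F] W) (WittVector.constantCoeff (p := p) (R := k)) E = g →
    σ.deg = finrank F W →
    ev (X σ W) (MonoidAlgebra.mapRingHom (W ≃ₗ[F] W) (toKK k p) E) ≠ 0 →
    Boxed (glPSH (KK k p) F) (Nat.card R) σ

theorem Boxed.mono {K : Type u} [Field K] [IsAlgClosed K] [CharZero K] {F : Type} [Field F]
    [Finite F] [DecidableEq (Om K F)] {P : PSH (Om K F)} {n n' : ℕ} (h : n ≤ n') {σ : Om K F}
    (hb : Boxed P n σ) : Boxed P n' σ := by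
  obtain ⟨L, h1, h2, h3⟩ := hb
  exact ⟨L, h1, h2.trans h, h3⟩

section

variable {F V : Type} [Field F] [AddCommGroup V] [Module F V] {Q : Subgroup (V ≃ₗ[F] V)}
  {W : Submodule F V}

/-- The image of `Q` in the general linear group of a summand is homogeneous. -/
theorem Dec.homOn (D : Dec Q W) (hQ : Q ≤ stab D.e) (t : Fin D.r) :
    HomOn ((Q.subgroupOf (stab D.e)).map (rsH D.e t)) ⊤ := by
  refine ⟨fun _ _ _ _ => Submodule.mem_top, fun x hx => ?_⟩
  have key : ∃ y ∈ Submodule.span F (Set.range fun q : Q => tE (q : V ≃ₗ[F] V)),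
      ∀ w : LinearMap.range (D.e t), ((x w : LinearMap.range (D.e t)) : V) = y (w : V) := by
    induction hx using Submodule.span_induction with
    | mem x hx =>
      obtain ⟨⟨_, q, hq, rfl⟩, rfl⟩ := hx
      exact ⟨_, Submodule.subset_span ⟨⟨(q : V ≃ₗ[F] V), hq⟩, rfl⟩, fun w => rfl⟩
    | zero => exact ⟨0, Submodule.zero_mem _, fun w => rfl⟩
    | add x x' _ _ hx hx' =>
      obtain ⟨y, hy, h1⟩ := hx
      obtain ⟨y', hy', h2⟩ := hx'
      refine ⟨y + y', Submodule.add_mem _ hy hy', fun w => ?_⟩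
      rw [LinearMap.add_apply, LinearMap.add_apply, Submodule.coe_add, h1, h2]
    | smul c x _ hx =>
      obtain ⟨y, hy, h1⟩ := hx
      refine ⟨c • y, Submodule.smul_mem _ _ hy, fun w => ?_⟩
      rw [LinearMap.smul_apply, LinearMap.smul_apply, Submodule.coe_smul, h1]
  obtain ⟨y, hy, hxy⟩ := key
  rcases D.hom t y hy with h | h
  · left
    rintro ⟨_, v, rfl⟩ _
    apply Subtype.ext
    rw [hxy]
    exact congrArg (fun a : End F V => a v) h
  · right
    rintro ⟨_, v, rfl⟩ _ h0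
    apply Subtype.ext
    apply h
    rw [← hxy ⟨D.e t v, ⟨v, rfl⟩⟩, h0]
    rfl

theorem Dec.ne_bot (D : Dec Q (fixV Q)) (hQ : Q ≤ stab D.e) (t : Fin D.r) :
    (Q.subgroupOf (stab D.e)).map (rsH D.e t) ≠ ⊥ := by
  intro h0
  apply D.ne t
  apply LinearMap.ext
  intro v
  have h1 : D.e t v ∈ fixV Q := by
    intro q hq
    have h2 : rsH D.e t ⟨q, hQ hq⟩ ∈ (Q.subgroupOf (stab D.e)).map (rsH D.e t) :=
      ⟨⟨q, hQ hq⟩, hq, rfl⟩
    rw [h0, Subgroup.mem_bot] at h2
    have h3 := congrArg (fun g : LinearMap.range (D.e t) ≃ₗ[F] LinearMap.range (D.e t) =>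
      ((g ⟨D.e t v, ⟨v, rfl⟩⟩ : LinearMap.range (D.e t)) : V)) h2
    exact h3
  have h4 := D.kf _ h1 t
  have h5 : D.e t (D.e t v) = D.e t v := congrArg (fun a : End F V => a v) (D.idem t)
  rw [h5] at h4
  exact h4

end

/-- **General linear groups**: a small idempotent for the blocks with an abelian defect group. -/
theorem oneBd_glb_of {k : Type u} [Field k] [IsAlgClosed k] {p : ℕ} [Fact p.Prime] [CharP k p]
    [CharZero (KK k p)]
    {F V : Type} [Field F] [Finite F] [DecidableEq (Om (KK k p) F)] [AddCommGroup V] [Module F V]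
    [Finite V] [Finite (V ≃ₗ[F] V)] (hbox : BoxStmt k p F)
    (hpF : ¬ p ∣ Nat.card F) {n : ℕ} {Q : Subgroup (V ≃ₗ[F] V)} (hQ : IsPGroup p Q)
    (hQn : Nat.card Q ≤ n) (hab : ∀ x ∈ Q, ∀ y ∈ Q, x * y = y * x) : OneBd k Q (glC p n) := by
  classical
  have hfint : Fintype (V ≃ₗ[F] V) := Fintype.ofFinite _
  intro e a he ha hea hbr
  have hfV : FiniteDimensional F V := Module.Finite.of_finite
  have hp : p.Prime := Fact.out
  obtain ⟨l, hl⟩ := IsPGroup.iff_card.mp hQ
  have hcop : (Nat.card F).Coprime (Nat.card Q) := by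
    rw [hl]
    exact (Nat.Coprime.pow_left l ((Nat.Prime.coprime_iff_not_dvd hp).mpr hpF)).symm
  obtain ⟨D⟩ := exists_dec Q (homOn_fixV Q) hcop hab
  have hfintS : Fintype (stab D.e) := Fintype.ofFinite _
  have hrn : D.r ≤ n := D.rc.trans hQn
  have hQL : Q ≤ stab D.e := D.Q_le hab
  have hstE : stab D.e = stab D.E := D.stab_E.symm
  have hsup : (⨆ j, gA D.E j) = stab D.e := by rw [D.idp.iSup_eq, hstE]
  have hQE : Q ≤ stab D.E := by rw [← hstE]; exact hQL
  have heT : e ∈ Fix (cj k (V ≃ₗ[F] V)) ⊤ := he.mem.2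
  have heQ : e ∈ Fix (cj k (V ≃ₗ[F] V)) Q := Fix_mono _ le_top heT
  -- the idempotent of the Levi subgroup
  obtain ⟨j₀, hjL, hjQ, hjj, hjb, hjd⟩ := exists_jr2 (k := k) (n := n) (β := 1) (Z := ⊥)
    (A := gA D.E) (L := stab D.e) hQ hQn hQL D.cent_le
    (fun j => by rw [hstE]; exact gA_le j)
    (fun j g hg h hh => gA_conj (by rw [← hstE]; exact hg) hh)
    (fun i j hij g hg h hh => D.idp.gA_comm hij hg hh)
    (fun i => D.idp.cycOn hQE i (D.cycE i))
    (fun g hg q hq => by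
      rw [hsup]
      exact Subgroup.mem_sup_left ((stab D.e).mul_mem ((stab D.e).mul_mem hg (hQL hq))
        ((stab D.e).inv_mem hg)))
    bot_le
    (fun z hz g hg => by
      rw [Subgroup.mem_bot] at hz
      rw [hz, one_mul, mul_one])
    (by
      rw [hsup, bot_sup_eq, Subgroup.relIndex_self])
    he.idem.eq ha hea hbr
  rw [one_mul] at hjd
  -- the block of the Levi subgroup
  obtain ⟨f, hf, hfj⟩ := exists_br_block (L := stab D.e) (Q := Q) hjb
  have hcje : br Q j₀ * br Q e = br Q e * br Q j₀ := by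
    rw [← br_mul hQ hjQ heQ, ← br_mul hQ heQ hjQ,
      commute_of_mem (SubAlg_top j₀) heT]
  have hfe : br Q f * br Q e ≠ 0 := by
    intro h0
    apply hfj
    rw [hcje, ← mul_assoc, h0, zero_mul]
  have hbrf : br Q f ≠ 0 := by
    intro h0
    apply hfe
    rw [h0, zero_mul]
  obtain ⟨z, hzL, hzF, hfz⟩ := block_of_sub hQ hQL D.cent_le he.idem.eq ha hea hf hfe
  have hfQ : f ∈ Fix (cj k (V ≃ₗ[F] V)) Q := Fix_mono _ hQL hf.mem.2
  have hfc : j₀ * f = f * j₀ := commute_of_mem hjL hf.mem.2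
  set j := f * j₀ with hj
  have hjL' : j ∈ SubAlg k (stab D.e) := Subalgebra.mul_mem _ hf.mem.1 hjL
  have hjQ' : j ∈ Fix (cj k (V ≃ₗ[F] V)) Q := Subalgebra.mul_mem _ hfQ hjQ
  have hjj' : j * j = j := by
    have h1 : f * j₀ * (f * j₀) = (f * f) * (j₀ * j₀) := by
      rw [mul_assoc, ← mul_assoc j₀ f j₀, show j₀ * f = f * j₀ from hfc, mul_assoc f j₀ j₀,
        ← mul_assoc]
    rw [hj, h1, hf.idem.eq, hjj]
  have hjb' : br Q j * br Q e ≠ 0 := by
    rw [hj, br_mul hQ hfQ hjQ, mul_assoc]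
    exact hfj
  have hjd' : Module.finrank k (NN (SubAlg k (stab D.e)) j j) ≤
      (n * (max 1 (cycB p n)) ^ (D.r + 1)) ^ 2 := by
    have hfinA : FiniteDimensional k (MonoidAlgebra k (V ≃ₗ[F] V)) :=
      Module.Finite.equiv (MonoidAlgebra.coeffLinearEquiv k (M := V ≃ₗ[F] V) (S := k)).symm
    refine le_trans (Submodule.finrank_mono ?_) hjd
    rintro y ⟨h1, h2, h3⟩
    refine ⟨h1, ?_, ?_⟩
    · conv_lhs => rw [← h2]
      rw [hj, ← mul_assoc, ← mul_assoc, hfc, mul_assoc f, hjj]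
      exact h2
    · conv_lhs => rw [← h3]
      rw [hj, mul_assoc, mul_assoc, hjj]
      exact h3
  have hfj' : f * j = j := by rw [hj, ← mul_assoc, hf.idem.eq]
  -- the unipotent radical
  obtain ⟨U, hU, hbd⟩ := c1_box (K := KK k p) D.e D.idem D.orth
  obtain ⟨c, hc⟩ := hU.card inferInstance
  have hpU : ¬ p ∣ Nat.card U := by
    rw [hc]
    exact fun h => hpF (hp.dvd_of_dvd_pow h)
  have hCU : U ⊓ centralizer (Q : Set (V ≃ₗ[F] V)) = ⊥ := by
    rw [eq_bot_iff]
    intro x hx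
    rw [Subgroup.mem_bot]
    exact hU.inf_eq_bot x hx.1 (D.cent_le hx.2)
  obtain ⟨i, h1, h2, h3, h4, h5⟩ := exists_small' (k := k) (p := p)
    (N := Nat.card Q ^ 2) (T := (n * D.r).factorial) hpU hU.le_normalizer hQ hQL hCU
    he.idem.eq he.mem.2 hjL' hjQ' hjj' hjb' hjd'
    (fun E hE1 hE2 hE3 => Vale.Agent.P180.H354.card_le he hQ hab ha hea hbr hE1 hE2 hE3)
    (fun J hJJ hJL hJj χ hχ => by
      refine hbd χ hχ _ ?_ ?_ n ?_
      · intro x hx
        rw [MonoidAlgebra.coeff_mapRingHom] at hx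
        exact hJL x fun h => hx (by rw [h, map_zero])
      · rw [← map_mul, hJJ]
      · rintro ψ hψ hne t σ hσ ⟨m, hm0, hm⟩
        have hfinW : Finite (LinearMap.range (D.e t)) := inferInstance
        have hfintW : Fintype (LinearMap.range (D.e t) ≃ₗ[F] LinearMap.range (D.e t)) :=
          Fintype.ofFinite _
        obtain ⟨R, g, a', hR, hg, ha', hga', hbg, hgf⟩ := exists_factor (k := k) (t := t)
          (io := iota (D.e t) (D.idem t)) D.idem D.orth (fun b x => iota_apply _ _ b x) hQ hQL hf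
          hzL hzF hfz hbrf
        obtain ⟨E, hEc, hEE, hEg⟩ := exists_central_lift (p := p)
          (fun x => commute_of_mem (SubAlg_top x) hg.mem.2) hg.idem.eq
        have hgj : MonoidAlgebra.mapDomain (iota (D.e t) (D.idem t)) g * j = j := by
          rw [← hfj', ← mul_assoc, hgf]
        have hev := ev_factor_ne (k := k) (p := p) D.idem D.orth
          (io := iota (D.e t) (D.idem t)) (fun b x => iota_apply _ _ b x) hgj hJJ hJL hJj hEc hEE
          hEg hψ hne (m := m) (ξ := X σ (LinearMap.range (D.e t))) (fun b => hm b)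
        have hcR : Nat.card R ≤ Nat.card Q := by
          rw [hR]
          refine (Nat.card_le_card_of_surjective
            ((rsH D.e t).subgroupMap (Q.subgroupOf (stab D.e)))
            (MonoidHom.subgroupMap_surjective _ _)).trans ?_
          exact Nat.card_le_card_of_injective (fun x : Q.subgroupOf (stab D.e) =>
            (⟨((x : stab D.e) : V ≃ₗ[F] V), x.2⟩ : Q)) fun x y hxy =>
              Subtype.ext (Subtype.ext (congrArg (fun z : Q => (z : V ≃ₗ[F] V)) hxy))
        refine Boxed.mono (hcR.trans hQn) (hbox _ R g a' E σ ?_ ?_ ?_ ?_ hg ha' hga' hbg hEc hEE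
          hEg hσ hev)
        · rw [hR]
          exact (hQ.comap_of_injective (stab D.e).subtype (stab D.e).subtype_injective).map _
        · rw [hR]
          exact D.ne_bot hQL t
        · rw [hR]
          rintro _ ⟨x, hx, rfl⟩ _ ⟨y, hy, rfl⟩
          rw [← map_mul, ← map_mul]
          congr 1
          exact Subtype.ext (hab _ hx _ hy)
        · rw [hR]
          exact D.homOn hQL t)
  refine ⟨i, h1, h2, h3, h4, h5.trans ?_⟩
  unfold glC
  refine Nat.mul_le_mul (Nat.pow_le_pow_left hQn 2) (Nat.pow_le_pow_left (Nat.mul_le_mul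
    (Nat.factorial_le (Nat.mul_le_mul_left _ hrn)) (Nat.pow_le_pow_left (Nat.mul_le_mul_left _
      (Nat.pow_le_pow_right (lt_of_lt_of_le Nat.one_pos (le_max_left _ _))
        (Nat.add_le_add_right hrn 1))) 2)) 2)

end Vale.Agent.P180.H951
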