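import Vale.Agent.P180.H951.Dec

/-! The stabiliser of a family of orthogonal idempotents is a Levi subgroup. -/

set_option linter.all false

namespace Vale.Agent.P180.H951

open Module

section

variable {F V : Type} [Field F] [AddCommGroup V] [Module F V]

/-- The stabiliser of a family of endomorphisms. -/
def stab {ι : Type} (e : ι → End F V) : Subgroup (V ≃ₗ[F] V) where
  carrier := {g | ∀ i, tE g * e i = e i * tE g}
  one_mem' := fun i => by rw [map_one, one_mul, mul_one]
  mul_mem' := by
    intro g h hg hh i
    rw [map_mul, mul_assoc, hh i, ← mul_assoc, hg i, mul_assoc]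
  inv_mem' := by
    intro g hg i
    calc tE g⁻¹ * e i = tE g⁻¹ * (e i * tE g) * tE g⁻¹ := by
          rw [mul_assoc, mul_assoc, tE_mul_inv, mul_one]
      _ = e i * tE g⁻¹ := by
          rw [← hg i, ← mul_assoc, tE_inv_mul, one_mul]

theorem mem_stab {ι : Type} {e : ι → End F V} {g : V ≃ₗ[F] V} :
    g ∈ stab e ↔ ∀ i, tE g * e i = e i * tE g := Iff.rfl

theorem mem_stab' {ι : Type} {e : ι → End F V} {g : V ≃ₗ[F] V} :
    g ∈ stab e ↔ ∀ i x, g (e i x) = e i (g x) := by
  rw [mem_stab]
  constructor
  · intro h i x
    exact congrArg (fun a : End F V => a x) (h i)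
  · intro h i
    apply LinearMap.ext
    intro x
    exact h i x

/-- restriction of a linear equivalence to a submodule -/
def rs (g : V ≃ₗ[F] V) (W : Submodule F V) (h : ∀ x ∈ W, g x ∈ W) (h' : ∀ x ∈ W, g⁻¹ x ∈ W) :
    W ≃ₗ[F] W :=
  LinearEquiv.ofLinear (g.toLinearMap.restrict h) ((g⁻¹).toLinearMap.restrict h')
    (LinearMap.ext fun x => Subtype.ext (app_inv g (x : V)))
    (LinearMap.ext fun x => Subtype.ext (inv_app g (x : V)))

theorem rs_coe (g : V ≃ₗ[F] V) (W : Submodule F V) (h : ∀ x ∈ W, g x ∈ W)
    (h' : ∀ x ∈ W, g⁻¹ x ∈ W) (x : W) : ((rs g W h h' x : W) : V) = g x := rfl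

end

/-- **The stabiliser of orthogonal idempotents is a Levi subgroup.** -/
theorem exists_isLevi {F : Type} [Field F] : ∀ (s : ℕ) (V : Type) [AddCommGroup V] [Module F V]
    [FiniteDimensional F V] (e : Fin s → End F V), (∀ i, e i * e i = e i) →
    (∀ i j, i ≠ j → e i * e j = 0) →
    ∃ U, IsLevi F V (stab e) U (∑ i, finrank F (LinearMap.range (e i))) := by
  intro s
  induction s with
  | zero =>
    intro V _ _ _ e _ _
    refine ⟨⊥, ?_⟩
    have h1 : stab e = ⊤ := by
      rw [eq_top_iff]
      intro g _ i
      exact i.elim0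
    rw [h1, Fin.sum_univ_zero]
    exact IsLevi.base V
  | succ s ih =>
    intro V _ _ _ e hid hor
    set p : End F V := e (Fin.last s) with hp
    have hpp : ∀ x, p (p x) = p x := fun x => congrArg (fun a : End F V => a x) (hid (Fin.last s))
    have hpe : ∀ (i : Fin s) x, p (e i.castSucc x) = 0 := fun i x =>
      congrArg (fun a : End F V => a x) (hor (Fin.last s) i.castSucc (Fin.castSucc_lt_last i).ne')
    have hep : ∀ (i : Fin s) x, e i.castSucc (p x) = 0 := fun i x =>
      congrArg (fun a : End F V => a x) (hor i.castSucc (Fin.last s) (Fin.castSucc_lt_last i).ne)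
    -- restriction to the kernel
    let W := LinearMap.ker p
    let R := LinearMap.range p
    have heW : ∀ (i : Fin s), ∀ x ∈ W, e i.castSucc x ∈ W := fun i x _ => hpe i x
    let e' : Fin s → End F W := fun i => (e i.castSucc).restrict (heW i)
    have he' : ∀ i (x : W), ((e' i x : W) : V) = e i.castSucc x := fun i x => rfl
    obtain ⟨U, hU⟩ := ih W e' (fun i => by
      apply LinearMap.ext
      intro x
      apply Subtype.ext
      exact congrArg (fun a : End F V => a (x : V)) (hid i.castSucc)) (fun i j hij => by
      apply LinearMap.ext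
      intro x
      apply Subtype.ext
      exact congrArg (fun a : End F V => a (x : V)) (hor i.castSucc j.castSucc
        (fun h => hij (Fin.castSucc_injective s h))))
    have hst := IsLevi.step W R (stab e') U _ hU (levM (stab e') R) (levU U R)
      (fun g => Iff.rfl) (fun g => Iff.rfl)
    -- the splitting
    have hcompl : IsCompl W R := by
      constructor
      · rw [Submodule.disjoint_def]
        rintro x hx ⟨y, rfl⟩
        have : p (p y) = 0 := hx
        rwa [hpp] at this
      · rw [codisjoint_iff, eq_top_iff]
        intro x _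
        rw [Submodule.mem_sup]
        refine ⟨x - p x, ?_, p x, ⟨x, rfl⟩, sub_add_cancel x (p x)⟩
        change p (x - p x) = 0
        rw [map_sub, hpp, sub_self]
    let E : (W × R) ≃ₗ[F] V := Submodule.prodEquivOfIsCompl W R hcompl
    have hE : ∀ x : W × R, E x = (x.1 : V) + x.2 := fun x => rfl
    have hE1 : ∀ x : W × R, p (E x) = x.2 := by
      rintro ⟨⟨x, hx⟩, ⟨_, y, rfl⟩⟩
      rw [hE, map_add]
      have : p x = 0 := hx
      rw [this, zero_add, hpp]
    have hE2 : ∀ x : W × R, E x - p (E x) = x.1 := by
      intro x
      rw [hE1, hE]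
      exact add_sub_cancel_right _ _
    have htr := IsLevi.transport (W × R) V E _ _ _ hst
    have hmap : (levM (stab e') R).map (cE E).toMonoidHom = stab e := by
      ext g
      constructor
      · rintro ⟨m, ⟨a, ha, b, rfl⟩, rfl⟩
        rw [mem_stab'] at ha ⊢
        intro i x
        obtain ⟨x, rfl⟩ := E.surjective x
        have h1 : ∀ y : W × R, (cE E).toMonoidHom (LinearEquiv.skewProd a b 0) (E y) =
            E (a y.1, b y.2) := by
          intro y
          change E (LinearEquiv.skewProd a b 0 (E.symm (E y))) = _
          rw [E.symm_apply_apply, skew_apply]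
          change E (a y.1, b y.2 + 0) = _
          rw [add_zero]
        refine Fin.lastCases ?_ (fun i => ?_) i
        · have h2 : ∀ y : W × R, e (Fin.last s) (E y) = E (0, y.2) := by
            intro y
            have h3 : e (Fin.last s) (E y) = (y.2 : V) := hE1 y
            rw [h3, hE]
            change _ = (0 : V) + (y.2 : V)
            rw [zero_add]
          rw [h2, h1, h1, h2, map_zero]
        · have h2 : ∀ y : W × R, e i.castSucc (E y) = E (e' i y.1, 0) := by
            intro y
            obtain ⟨z, hz⟩ := y.2.2
            rw [hE, map_add, hE, ← hz, hep, he']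
            rfl
          rw [h2, h1, h1, h2]
          change E (a (e' i x.1), b 0) = E (e' i (a x.1), 0)
          rw [ha, map_zero]
      · intro hg
        rw [mem_stab'] at hg
        have hgi : ∀ i x, g⁻¹ (e i x) = e i (g⁻¹ x) := mem_stab'.mp ((stab e).inv_mem
          (mem_stab'.mpr hg))
        have hW : ∀ x ∈ W, g x ∈ W := by
          intro x hx
          change p (g x) = 0
          rw [← hg (Fin.last s)]
          have : p x = 0 := hx
          change g (p x) = 0
          rw [this, map_zero]
        have hW' : ∀ x ∈ W, g⁻¹ x ∈ W := by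
          intro x hx
          change p (g⁻¹ x) = 0
          rw [← hgi (Fin.last s)]
          have : p x = 0 := hx
          change g⁻¹ (p x) = 0
          rw [this, map_zero]
        have hR : ∀ x ∈ R, g x ∈ R := by
          rintro _ ⟨y, rfl⟩
          exact ⟨g y, (hg (Fin.last s) y).symm⟩
        have hR' : ∀ x ∈ R, g⁻¹ x ∈ R := by
          rintro _ ⟨y, rfl⟩
          exact ⟨g⁻¹ y, (hgi (Fin.last s) y).symm⟩
        refine ⟨LinearEquiv.skewProd (rs g W hW hW') (rs g R hR hR') 0,
          ⟨rs g W hW hW', ?_, rs g R hR hR', rfl⟩, ?_⟩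
        · rw [mem_stab']
          intro i x
          apply Subtype.ext
          exact hg i.castSucc x
        · apply LinearEquiv.ext
          intro x
          obtain ⟨x, rfl⟩ := E.surjective x
          change E (LinearEquiv.skewProd (rs g W hW hW') (rs g R hR hR') 0 (E.symm (E x))) = _
          rw [E.symm_apply_apply, skew_apply]
          change g (x.1 : V) + ((g (x.2 : V)) + 0) = g ((x.1 : V) + x.2)
          rw [add_zero, map_add]
    rw [hmap] at htr
    refine ⟨(levU U R).map (cE E).toMonoidHom, ?_⟩
    have hsum : ∑ i, finrank F (LinearMap.range (e i)) =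
        ∑ i, finrank F (LinearMap.range (e' i)) + finrank F R := by
      rw [Fin.sum_univ_castSucc]
      congr 1
      refine Finset.sum_congr rfl fun i _ => ?_
      have h1 : (LinearMap.range (e' i)).map W.subtype = LinearMap.range (e i.castSucc) := by
        ext x
        constructor
        · rintro ⟨_, ⟨y, rfl⟩, rfl⟩
          exact ⟨(y : V), rfl⟩
        · rintro ⟨y, rfl⟩
          have hy : y - p y ∈ W := by
            change p (y - p y) = 0
            rw [map_sub, hpp, sub_self]
          refine ⟨e' i ⟨y - p y, hy⟩, ⟨_, rfl⟩, ?_⟩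
          change e i.castSucc (y - p y) = e i.castSucc y
          rw [map_sub, hep, sub_zero]
      rw [← h1, Submodule.finrank_map_subtype_eq]
    rw [hsum]
    exact htr

end Vale.Agent.P180.H951
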