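import Vale.Agent.P180.H951.SlAllG

/-! Special linear groups, all ranks and all fields, up to the lemma on maximal groups. -/

set_option linter.all false

namespace Vale.Agent.P180.H951

open Module Subgroup Vale.Agent.P180 Vale.Agent.P180.H768.Gd Vale.Agent.P180.R2.H471.Hc
open Vale.Agent.P180.H19.Pidx (PrimStmt oneBd_pidx_of)

universe u

/-- **Special linear groups**, every prime `p` for which the elements of determinant one of a maximal
group `S` commute only if `S` is commutative. -/
theorem oneBd_slAll_ofA {k : Type u} [Field k] [IsAlgClosed k] {p : ℕ} [Fact p.Prime] [CharP k p]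
    {K V : Type} [Field K] [Finite K] [AddCommGroup V] [Module K V] [Finite V]
    [Finite (V ≃ₗ[K] V)] [Finite (SpecialLinearGroup K V)] (hpK : ¬ p ∣ Nat.card K)
    (hA : ∀ S : Subgroup (V ≃ₗ[K] V), IsPGroup p S → MaxIn p S →
      (∀ x ∈ S, ∀ y ∈ S, LinearMap.det (x : V →ₗ[K] V) = 1 →
        LinearMap.det (y : V →ₗ[K] V) = 1 → x * y = y * x) → ∀ x ∈ S, ∀ y ∈ S, x * y = y * x)
    {n : ℕ} {Q : Subgroup (SpecialLinearGroup K V)} (hQ : IsPGroup p Q) (hQn : Nat.card Q ≤ n)
    (hab : ∀ x ∈ Q, ∀ y ∈ Q, x * y = y * x) : OneBd k Q (slC p n) := by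
  classical
  by_cases hcyc : IsCyclic Q
  · intro e a he ha hea hbr
    obtain ⟨i, h1, h2, h3, h4, h5⟩ := oneBd_cyc hQ hcyc e a he ha hea hbr
    exact ⟨i, h1, h2, h3, h4, h5.trans ((Vale.Agent.P180.R2.H259.Cyc.cycB_mono hQn).trans
      (le_max_right _ _))⟩
  refine oneBd_slAll_of hpK (fun _ => hA) ?_ ?_ hQ hQn hab
  · intro _ S hS hmax hSab
    rcases H354.NumS.card_le_sq_or S hS hpK hSab hmax with h | h
    · haveI := h
      exact Or.inl (isCyclic_of_injective (Subgroup.inclusion inf_le_left)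
        (Subgroup.inclusion_injective inf_le_left))
    · exact Or.inr h
  · intro Q' hQ' C hC
    refine oneBd_pidx_of ?_ isPGroup_quot (primStmt_cyc _ isCyclic_quot isPGroup_quot) hQ' ?_
    · intro x y
      obtain ⟨a, rfl⟩ := QuotientGroup.mk_surjective x
      obtain ⟨b, rfl⟩ := QuotientGroup.mk_surjective y
      rw [← QuotientGroup.mk_mul, ← QuotientGroup.mk_mul, QuotientGroup.eq]
      refine NG_of_det ?_
      rw [map_mul, map_inv, map_mul, map_mul, mul_comm (LinearEquiv.det b), inv_mul_cancel]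
    · rintro S B z hS ⟨g, hg⟩ hB hz hBz hbr
      refine hC S B z hS ⟨g, fun x => ?_⟩ hB hz hBz hbr
      rw [hg]
      exact mem_conjS

end Vale.Agent.P180.H951
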