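import Vale.Agent.P180.H951.Stab

/-! The stabiliser of a decomposition of a vector space is the product of the general linear groups
of the summands. -/

set_option linter.all false

namespace Vale.Agent.P180.H951

open Module Vale.Agent.P180.R2.H471.He

section

variable {F V : Type} [Field F] [AddCommGroup V] [Module F V]

/-- A complete family of orthogonal idempotents. -/
structure Idp {r : ℕ} (e : Fin r → End F V) : Prop where
  idem : ∀ i, e i * e i = e i
  orth : ∀ i j, i ≠ j → e i * e j = 0
  sum : ∑ i, e i = 1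

variable {r : ℕ} {e : Fin r → End F V}

/-- the sum of some projections -/
noncomputable def es (e : Fin r → End F V) (s : Finset (Fin r)) : End F V := ∑ i ∈ s, e i

namespace Idp

theorem e_mul_es_of_mem (D : Idp e) {s : Finset (Fin r)} {i : Fin r} (hi : i ∈ s) :
    e i * es e s = e i := by
  rw [es, Finset.mul_sum, Finset.sum_eq_single i]
  · exact D.idem i
  · intro j _ hj
    exact D.orth i j hj.symm
  · intro h; exact absurd hi h

theorem e_mul_es_of_notMem (D : Idp e) {s : Finset (Fin r)} {i : Fin r} (hi : i ∉ s) :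
    e i * es e s = 0 := by
  rw [es, Finset.mul_sum]
  refine Finset.sum_eq_zero fun j hj => D.orth i j ?_
  rintro rfl
  exact hi hj

theorem es_mul_e_of_notMem (D : Idp e) {s : Finset (Fin r)} {i : Fin r} (hi : i ∉ s) :
    es e s * e i = 0 := by
  rw [es, Finset.sum_mul]
  refine Finset.sum_eq_zero fun j hj => D.orth j i ?_
  rintro rfl
  exact hi hj

theorem comm_es {g : V ≃ₗ[F] V} (hg : g ∈ stab e) (s : Finset (Fin r)) :
    tE g * es e s = es e s * tE g := by
  rw [es, Finset.mul_sum, Finset.sum_mul]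
  exact Finset.sum_congr rfl fun i _ => hg i

theorem es_idem (D : Idp e) (s : Finset (Fin r)) : es e s * es e s = es e s := by
  conv_lhs => rw [es, Finset.sum_mul]
  exact Finset.sum_congr rfl fun i hi => D.e_mul_es_of_mem hi

theorem es_univ (D : Idp e) : es e Finset.univ = 1 := D.sum

theorem es_singleton (i : Fin r) : es e {i} = e i := Finset.sum_singleton _ _

end Idp

/-- the component on a set of summands -/
noncomputable def cp (e : Fin r → End F V) (s : Finset (Fin r)) (g : V ≃ₗ[F] V) : End F V :=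
  tE g * es e s + (1 - es e s)

namespace Idp

theorem cp_mul (D : Idp e) {s : Finset (Fin r)} {g h : V ≃ₗ[F] V} (hg : g ∈ stab e)
    (hh : h ∈ stab e) : cp e s (g * h) = cp e s g * cp e s h := by
  have h1 := D.es_idem s
  have h2 := comm_es hh s
  have h3 := comm_es hg s
  have e1 : tE g * es e s * (tE h * es e s) = tE g * tE h * es e s := by
    calc tE g * es e s * (tE h * es e s) = tE g * (es e s * tE h) * es e s := by
          simp only [mul_assoc]
      _ = tE g * tE h * (es e s * es e s) := by rw [← h2]; simp only [mul_assoc]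
      _ = _ := by rw [h1]
  have e2 : tE g * es e s * (1 - es e s) = 0 := by
    rw [mul_sub, mul_one, mul_assoc, h1, sub_self]
  have e3 : (1 - es e s) * (tE h * es e s) = 0 := by
    rw [h2, ← mul_assoc, sub_mul, one_mul, h1, sub_self, zero_mul]
  have e4 : (1 - es e s) * (1 - es e s) = 1 - es e s := by
    rw [mul_sub, mul_one, sub_mul, one_mul, h1, sub_self, sub_zero]
  rw [cp, cp, cp, add_mul, mul_add, mul_add, e1, e2, e3, e4, map_mul, add_zero, zero_add]

theorem cp_one (s : Finset (Fin r)) : cp e s 1 = 1 := by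
  rw [cp, map_one, one_mul, add_sub_cancel]

theorem cp_univ (D : Idp e) (g : V ≃ₗ[F] V) : cp e Finset.univ g = tE g := by
  rw [cp, D.es_univ, mul_one, sub_self, add_zero]

theorem cp_empty (g : V ≃ₗ[F] V) : cp e ∅ g = 1 := by
  rw [cp, es, Finset.sum_empty, mul_zero, zero_add, sub_zero]

theorem cp_insert (D : Idp e) {s : Finset (Fin r)} {i : Fin r} (hi : i ∉ s) {g : V ≃ₗ[F] V}
    (hg : g ∈ stab e) : cp e (insert i s) g = cp e {i} g * cp e s g := by
  have h1 : es e (insert i s) = e i + es e s := Finset.sum_insert hi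
  have h2 : e i * es e s = 0 := D.e_mul_es_of_notMem hi
  have h3 : es e s * e i = 0 := D.es_mul_e_of_notMem hi
  have h4 := comm_es hg s
  have e1 : tE g * e i * (tE g * es e s) = 0 := by
    rw [h4, ← mul_assoc, mul_assoc (tE g), h2, mul_zero, zero_mul]
  have e2 : tE g * e i * (1 - es e s) = tE g * e i := by
    rw [mul_sub, mul_one, mul_assoc, h2, mul_zero, sub_zero]
  have e3 : (1 - e i) * (tE g * es e s) = tE g * es e s := by
    rw [sub_mul, one_mul, h4, ← mul_assoc, h2, zero_mul, sub_zero]
  have e4 : (1 - e i) * (1 - es e s) = 1 - e i - es e s := by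
    rw [mul_sub, mul_one, sub_mul, one_mul, h2, sub_zero]
  have e5 : cp e {i} g * cp e s g = tE g * e i * (tE g * es e s) +
      tE g * e i * (1 - es e s) + ((1 - e i) * (tE g * es e s) +
        (1 - e i) * (1 - es e s)) := by
    rw [cp, cp, es_singleton, add_mul, mul_add, mul_add]
  rw [e5, e1, e2, e3, e4, cp, h1, mul_add]
  abel

theorem cp_comm (D : Idp e) {s : Finset (Fin r)} {g : V ≃ₗ[F] V} (hg : g ∈ stab e) (j : Fin r) :
    cp e s g * e j = e j * cp e s g := by
  have h1 : es e s * e j = e j * es e s := by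
    by_cases hj : j ∈ s
    · rw [D.e_mul_es_of_mem hj, es, Finset.sum_mul, Finset.sum_eq_single j]
      · exact D.idem j
      · intro l _ hl
        exact D.orth l j hl
      · intro h; exact absurd hj h
    · rw [D.e_mul_es_of_notMem hj, D.es_mul_e_of_notMem hj]
  have h2 : e j * (tE g * es e s) = tE g * (es e s * e j) := by
    rw [← mul_assoc, ← hg j, mul_assoc, h1]
  rw [cp, add_mul, mul_add, mul_assoc, h2, sub_mul, mul_sub, h1, one_mul, mul_one]

/-- the component as a linear equivalence -/
noncomputable def ce (D : Idp e) (s : Finset (Fin r)) (g : V ≃ₗ[F] V) (hg : g ∈ stab e) :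
    V ≃ₗ[F] V :=
  LinearEquiv.ofLinear (cp e s g) (cp e s g⁻¹)
    (by
      change cp e s g * cp e s g⁻¹ = 1
      rw [← D.cp_mul hg ((stab e).inv_mem hg), mul_inv_cancel, cp_one])
    (by
      change cp e s g⁻¹ * cp e s g = 1
      rw [← D.cp_mul ((stab e).inv_mem hg) hg, inv_mul_cancel, cp_one])

theorem tE_ce (D : Idp e) (s : Finset (Fin r)) (g : V ≃ₗ[F] V) (hg : g ∈ stab e) :
    tE (D.ce s g hg) = cp e s g := rfl

end Idp

/-- The general linear group of a summand. -/
def gA (e : Fin r → End F V) (i : Fin r) : Subgroup (V ≃ₗ[F] V) where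
  carrier := {g | g ∈ stab e ∧ ∀ j, j ≠ i → tE g * e j = e j}
  one_mem' := ⟨(stab e).one_mem, fun j _ => by rw [map_one, one_mul]⟩
  mul_mem' := by
    rintro g h ⟨hg, hg'⟩ ⟨hh, hh'⟩
    exact ⟨(stab e).mul_mem hg hh, fun j hj => by rw [map_mul, mul_assoc, hh' j hj, hg' j hj]⟩
  inv_mem' := by
    rintro g ⟨hg, hg'⟩
    refine ⟨(stab e).inv_mem hg, fun j hj => ?_⟩
    conv_lhs => rw [← hg' j hj, ← mul_assoc, tE_inv_mul, one_mul]

theorem gA_le (i : Fin r) : gA e i ≤ stab e := fun _ h => h.1

theorem gA_conj {i : Fin r} {g h : V ≃ₗ[F] V} (hg : g ∈ stab e) (hh : h ∈ gA e i) :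
    g * h * g⁻¹ ∈ gA e i := by
  refine ⟨(stab e).mul_mem ((stab e).mul_mem hg hh.1) ((stab e).inv_mem hg), fun j hj => ?_⟩
  rw [map_mul, map_mul, mul_assoc, ((stab e).inv_mem hg) j, mul_assoc, ← mul_assoc (tE h),
    hh.2 j hj, ← ((stab e).inv_mem hg) j, ← mul_assoc, tE_mul_inv, one_mul]

namespace Idp

/-- An endomorphism is determined by its restrictions to the summands. -/
theorem ext_e (D : Idp e) {a b : End F V} (h : ∀ i, a * e i = b * e i) : a = b := by
  rw [← mul_one a, ← mul_one b, ← D.sum, Finset.mul_sum, Finset.mul_sum]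
  exact Finset.sum_congr rfl fun i _ => h i

theorem gA_comm (D : Idp e) {i j : Fin r} (hij : i ≠ j) {g h : V ≃ₗ[F] V} (hg : g ∈ gA e i)
    (hh : h ∈ gA e j) : g * h = h * g := by
  apply tE_injective
  rw [map_mul, map_mul]
  apply D.ext_e
  intro l
  by_cases hl : l = i
  · subst hl
    have h1 : tE h * e l = e l := hh.2 l hij
    calc tE g * tE h * e l = tE g * e l := by rw [mul_assoc, h1]
      _ = e l * tE g := hg.1 l
      _ = tE h * e l * tE g := by rw [h1]
      _ = _ := by rw [mul_assoc, ← hg.1 l, mul_assoc]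
  · have h1 : tE g * e l = e l := hg.2 l hl
    calc tE g * tE h * e l = tE g * (e l * tE h) := by rw [mul_assoc, hh.1 l]
      _ = e l * tE h := by rw [← mul_assoc, h1]
      _ = tE h * (tE g * e l) := by rw [h1, hh.1 l]
      _ = _ := by rw [mul_assoc]

theorem ce_mem (D : Idp e) {i : Fin r} {g : V ≃ₗ[F] V} (hg : g ∈ stab e) :
    D.ce {i} g hg ∈ gA e i := by
  refine ⟨fun j => ?_, fun j hj => ?_⟩
  · rw [tE_ce]; exact D.cp_comm hg j
  · rw [tE_ce, cp, es_singleton, add_mul, mul_assoc, D.orth i j hj.symm, mul_zero, zero_add,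
      sub_mul, D.orth i j hj.symm, one_mul, sub_zero]

/-- The stabiliser is the product of the general linear groups of the summands. -/
theorem stab_le (D : Idp e) : stab e ≤ ⨆ i, gA e i := by
  classical
  intro g hg
  have key : ∀ s : Finset (Fin r), ∃ x ∈ ⨆ i, gA e i, tE x = cp e s g := by
    intro s
    induction s using Finset.induction_on with
    | empty => exact ⟨1, Subgroup.one_mem _, by rw [cp_empty, map_one]⟩
    | insert i s hi ih =>
      obtain ⟨x, hx, hxs⟩ := ih
      refine ⟨D.ce {i} g hg * x,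
        Subgroup.mul_mem _ (Subgroup.mem_iSup_of_mem i (D.ce_mem hg)) hx, ?_⟩
      rw [map_mul, tE_ce, hxs, D.cp_insert hi hg]
  obtain ⟨x, hx, hxs⟩ := key Finset.univ
  rw [D.cp_univ] at hxs
  rwa [← tE_injective hxs]

theorem iSup_eq (D : Idp e) : (⨆ i, gA e i) = stab e :=
  le_antisymm (iSup_le fun i => gA_le i) D.stab_le

theorem cp_of_mem (D : Idp e) {i : Fin r} {g : V ≃ₗ[F] V} (hg : g ∈ gA e i) :
    cp e {i} g = tE g := by
  apply D.ext_e
  intro l
  rw [cp, es_singleton, add_mul, mul_assoc, sub_mul, one_mul]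
  by_cases hl : l = i
  · subst hl
    rw [D.idem, sub_self, add_zero]
  · rw [D.orth i l (Ne.symm hl), mul_zero, zero_add, sub_zero, hg.2 l hl]

/-- A group acting on a summand through a cyclic group. -/
theorem cycOn (D : Idp e) {Q : Subgroup (V ≃ₗ[F] V)} (hQ : Q ≤ stab e) (i : Fin r)
    (hc : ∃ (K : Type) (_ : Field K) (_ : Finite K) (χ : Q →* Kˣ),
      ∀ q : Q, χ q = 1 ↔ tE (q : V ≃ₗ[F] V) * e i = e i) : CycOn Q (gA e i) := by
  classical
  let ψ₀ : gA e i →* End F V :=
    { toFun := fun x => tE (x : V ≃ₗ[F] V)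
      map_one' := map_one _
      map_mul' := fun x y => map_mul _ _ _ }
  let ρ₀ : Q →* End F V :=
    { toFun := fun q => cp e {i} (q : V ≃ₗ[F] V)
      map_one' := cp_one _
      map_mul' := fun x y => D.cp_mul (hQ x.2) (hQ y.2) }
  refine ⟨(End F V)ˣ, inferInstance, ψ₀.toHomUnits, ρ₀.toHomUnits, ?_, ?_, ?_, ?_⟩
  · intro x y hxy
    have h1 : tE (x : V ≃ₗ[F] V) = tE (y : V ≃ₗ[F] V) := congrArg Units.val hxy
    exact Subtype.ext (tE_injective h1)
  · obtain ⟨K, _, _, χ, hχ⟩ := hc
    have hker : ρ₀.toHomUnits.ker = χ.ker := by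
      ext q
      rw [MonoidHom.mem_ker, MonoidHom.mem_ker, hχ]
      constructor
      · intro h
        have h1 : cp e {i} (q : V ≃ₗ[F] V) = 1 := congrArg Units.val h
        rw [cp, es_singleton] at h1
        have h2 := congrArg (fun a : End F V => a * e i) h1
        simp only [add_mul, sub_mul, one_mul, mul_assoc, D.idem, sub_self, add_zero] at h2
        exact h2
      · intro h
        apply Units.ext
        change cp e {i} (q : V ≃ₗ[F] V) = 1
        rw [cp, es_singleton, h, add_sub_cancel]
    let e1 : ρ₀.toHomUnits.range ≃* χ.range :=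
      (QuotientGroup.quotientKerEquivRange _).symm.trans
        ((QuotientGroup.quotientMulEquivOfEq hker).trans (QuotientGroup.quotientKerEquivRange _))
    have h1 : IsCyclic χ.range := inferInstance
    exact isCyclic_of_surjective e1.symm e1.symm.surjective
  · intro r s s' hs
    rw [eq_mul_inv_iff_mul_eq]
    apply Units.ext
    change tE (s' : V ≃ₗ[F] V) * cp e {i} (r : V ≃ₗ[F] V) =
      cp e {i} (r : V ≃ₗ[F] V) * tE (s : V ≃ₗ[F] V)
    rw [← D.cp_of_mem s'.2, ← D.cp_of_mem s.2, ← D.cp_mul s'.2.1 (hQ r.2),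
      ← D.cp_mul (hQ r.2) s.2.1, hs, inv_mul_cancel_right]
  · intro x hA hQ
    apply Units.ext
    change tE x = cp e {i} x
    rw [D.cp_of_mem hA]

end Idp

namespace Dec

variable {Q : Subgroup (V ≃ₗ[F] V)} {W : Submodule F V} (D : Dec Q W)

/-- the complete family -/
noncomputable def E : Fin (D.r + 1) → End F V := Fin.cons (1 - ∑ i, D.e i) D.e

theorem E_zero : D.E 0 = 1 - ∑ i, D.e i := rfl

theorem E_succ (i : Fin D.r) : D.E i.succ = D.e i := rfl

theorem e_mul_sum (i : Fin D.r) : D.e i * ∑ j, D.e j = D.e i := by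
  rw [Finset.mul_sum, Finset.sum_eq_single i]
  · exact D.idem i
  · intro j _ hj
    exact D.orth i j hj.symm
  · intro h; exact absurd (Finset.mem_univ i) h

theorem sum_mul_e (i : Fin D.r) : (∑ j, D.e j) * D.e i = D.e i := by
  rw [Finset.sum_mul, Finset.sum_eq_single i]
  · exact D.idem i
  · intro j _ hj
    exact D.orth j i hj
  · intro h; exact absurd (Finset.mem_univ i) h

theorem idp : Idp D.E where
  idem := by
    intro i
    refine Fin.cases ?_ (fun i => ?_) i
    · rw [E_zero]
      have h1 : (∑ j, D.e j) * (∑ j, D.e j) = ∑ j, D.e j := by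
        conv_lhs => rw [Finset.sum_mul]
        exact Finset.sum_congr rfl fun i _ => D.e_mul_sum i
      rw [mul_sub, mul_one, sub_mul, one_mul, h1, sub_self, sub_zero]
    · rw [E_succ]
      exact D.idem i
  orth := by
    intro i j
    refine Fin.cases ?_ (fun i => ?_) i
    · refine Fin.cases (fun h => absurd rfl h) (fun j _ => ?_) j
      rw [E_zero, E_succ, sub_mul, one_mul, D.sum_mul_e, sub_self]
    · refine Fin.cases (fun _ => ?_) (fun j h => ?_) j
      · rw [E_zero, E_succ, mul_sub, mul_one, D.e_mul_sum, sub_self]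
      · rw [E_succ, E_succ]
        exact D.orth i j fun h' => h (congrArg Fin.succ h')
  sum := by
    rw [Fin.sum_univ_succ, E_zero]
    simp only [E_succ]
    exact sub_add_cancel _ _

theorem stab_E : stab D.E = stab D.e := by
  ext g
  constructor
  · intro h i
    exact h i.succ
  · intro h i
    refine Fin.cases ?_ (fun i => ?_) i
    · rw [E_zero, mul_sub, mul_one, sub_mul, one_mul, Finset.mul_sum, Finset.sum_mul]
      congr 1
      exact Finset.sum_congr rfl fun i _ => h i
    · exact h i

theorem cent_le : Subgroup.centralizer (Q : Set (V ≃ₗ[F] V)) ≤ stab D.e := by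
  intro g hg i
  refine D.comm _ (fun q hq => ?_) i
  rw [← map_mul, ← map_mul, (Subgroup.mem_centralizer_iff.mp hg q hq)]

theorem Q_le (hab : ∀ x ∈ Q, ∀ y ∈ Q, x * y = y * x) : Q ≤ stab D.e := by
  intro g hg
  exact D.cent_le (Subgroup.mem_centralizer_iff.mpr fun q hq => hab q hq g hg)

theorem cycE (i : Fin (D.r + 1)) :
    ∃ (K : Type) (_ : Field K) (_ : Finite K) (χ : Q →* Kˣ),
      ∀ q : Q, χ q = 1 ↔ tE (q : V ≃ₗ[F] V) * D.E i = D.E i := by
  refine Fin.cases ?_ (fun i => ?_) i
  · exact D.cyc0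
  · exact D.cyc i

/-- The dimensions of the summands. -/
theorem sum_add_le [FiniteDimensional F V] :
    ∑ i, finrank F (LinearMap.range (D.e i)) + finrank F W ≤ finrank F V := by
  let Ψ : ((∀ i, LinearMap.range (D.e i)) × W) →ₗ[F] V :=
    LinearMap.coprod (∑ i, (LinearMap.range (D.e i)).subtype ∘ₗ LinearMap.proj i) W.subtype
  have hΨ : ∀ x, Ψ x = ∑ i, ((x.1 i : LinearMap.range (D.e i)) : V) + (x.2 : V) := by
    intro x
    change (∑ i, (LinearMap.range (D.e i)).subtype ∘ₗ LinearMap.proj i) x.1 + _ = _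
    rw [LinearMap.sum_apply]
    rfl
  have hid : ∀ i (x : LinearMap.range (D.e i)), D.e i (x : V) = x := by
    rintro i ⟨_, y, rfl⟩
    exact congrArg (fun a : End F V => a y) (D.idem i)
  have hor : ∀ i j, i ≠ j → ∀ (x : LinearMap.range (D.e j)), D.e i (x : V) = 0 := by
    rintro i j hij ⟨_, y, rfl⟩
    exact congrArg (fun a : End F V => a y) (D.orth i j hij)
  have hinj : Function.Injective Ψ := by
    rw [← LinearMap.ker_eq_bot, LinearMap.ker_eq_bot']
    intro x hx
    rw [hΨ] at hx
    have h1 : ∀ i, x.1 i = 0 := by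
      intro i
      have h2 := congrArg (D.e i) hx
      rw [map_add, map_sum, map_zero, D.kf _ x.2.2 i, add_zero, Finset.sum_eq_single i, hid] at h2
      · exact Subtype.ext h2
      · intro j _ hj
        exact hor i j hj.symm _
      · intro h; exact absurd (Finset.mem_univ i) h
    have h3 : x.2 = 0 := by
      apply Subtype.ext
      rw [Finset.sum_eq_zero (fun i _ => by rw [h1 i]; rfl), zero_add] at hx
      exact hx
    exact Prod.ext (funext h1) h3
  have h1 := LinearMap.finrank_le_finrank_of_injective hinj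
  rw [Module.finrank_prod, Module.finrank_pi_fintype] at h1
  exact h1

theorem r_le [FiniteDimensional F V] : D.r ≤ ∑ i, finrank F (LinearMap.range (D.e i)) := by
  calc D.r = ∑ _i : Fin D.r, 1 := by rw [Finset.sum_const, Finset.card_univ, Fintype.card_fin,
        smul_eq_mul, mul_one]
    _ ≤ _ := Finset.sum_le_sum fun i _ => by
        rw [Nat.one_le_iff_ne_zero]
        intro h
        rw [Submodule.finrank_eq_zero, LinearMap.range_eq_bot] at h
        exact D.ne i h

end Dec

end

end Vale.Agent.P180.H951
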