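import Vale.Agent.P180.H951.Slice
import Vale.Agent.P180.H951.Fac
import Vale.Agent.P180.H951.Small

/-! The factors of a block of the stabiliser of a decomposition of a vector space. -/

set_option linter.all false

namespace Vale.Agent.P180.H951

open Module Subgroup Vale.Agent.P180 Vale.Agent.P180.H768.Gd Vale.Agent.P180.R2.H799
  Vale.Agent.P180.R2.H471.Hc Vale.Agent.P180.R2.H954.Hc Vale.Agent.P180.R2.H954
  Vale.Agent.P180.R2.H12.Sl Vale.Agent.P180.H337
open Vale.Agent.P180.H393 (IsIr IsCF ev)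

universe u

section

variable {F V : Type} [Field F] [AddCommGroup V] [Module F V] {s : ℕ}

/-- restriction to a summand -/
def rsH (e : Fin s → End F V) (t : Fin s) :
    stab e →* (LinearMap.range (e t) ≃ₗ[F] LinearMap.range (e t)) where
  toFun g := rs (g : V ≃ₗ[F] V) (LinearMap.range (e t))
    (by
      rintro _ ⟨y, rfl⟩
      exact ⟨(g : V ≃ₗ[F] V) y, (mem_stab'.mp g.2 t y).symm⟩)
    (by
      rintro _ ⟨y, rfl⟩
      exact ⟨(g : V ≃ₗ[F] V)⁻¹ y, (mem_stab'.mp ((stab e).inv_mem g.2) t y).symm⟩)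
  map_one' := rfl
  map_mul' _ _ := rfl

theorem rsH_coe (e : Fin s → End F V) (t : Fin s) (g : stab e) (y : LinearMap.range (e t)) :
    ((rsH e t g y : LinearMap.range (e t)) : V) = (g : V ≃ₗ[F] V) (y : V) := rfl

variable {e : Fin s → End F V} {t : Fin s}
  {io : (LinearMap.range (e t) ≃ₗ[F] LinearMap.range (e t)) →* (V ≃ₗ[F] V)}

theorem io_mem (hid : ∀ i, e i * e i = e i) (hor : ∀ i j, i ≠ j → e i * e j = 0)
    (hio : ∀ b x, io b x = (b ⟨e t x, ⟨x, rfl⟩⟩ : V) + (x - e t x))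
    (b : LinearMap.range (e t) ≃ₗ[F] LinearMap.range (e t)) : io b ∈ stab e := by
  have hpp : ∀ x, e t (e t x) = e t x := fun x => congrArg (fun a : End F V => a x) (hid t)
  have hfix : ∀ y : LinearMap.range (e t), e t (y : V) = y := by
    rintro ⟨_, y, rfl⟩
    exact hpp y
  have h0 : ∀ i, i ≠ t → ∀ y : LinearMap.range (e t), e i (y : V) = 0 := by
    rintro i hi ⟨_, y, rfl⟩
    exact congrArg (fun a : End F V => a y) (hor i t hi)
  rw [mem_stab']
  intro i x
  rw [hio, hio]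
  by_cases hi : i = t
  · subst hi
    have h1 : (⟨e i (e i x), ⟨e i x, rfl⟩⟩ : LinearMap.range (e i)) = ⟨e i x, ⟨x, rfl⟩⟩ :=
      Subtype.ext (hpp x)
    rw [h1, hpp, sub_self, add_zero, map_add, map_sub, hpp, sub_self, add_zero, hfix]
  · have h2 : e t (e i x) = 0 := congrArg (fun a : End F V => a x) (hor t i fun h => hi h.symm)
    have h1 : (⟨e t (e i x), ⟨e i x, rfl⟩⟩ : LinearMap.range (e t)) = 0 := Subtype.ext h2
    have h3 : e i (e t x) = 0 := congrArg (fun a : End F V => a x) (hor i t hi)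
    rw [h1, map_zero, h2, sub_zero, map_add, map_sub, h3, sub_zero, h0 i hi, Submodule.coe_zero]

/-- the embedding into the stabiliser -/
def ioL (hid : ∀ i, e i * e i = e i) (hor : ∀ i j, i ≠ j → e i * e j = 0)
    (hio : ∀ b x, io b x = (b ⟨e t x, ⟨x, rfl⟩⟩ : V) + (x - e t x)) :
    (LinearMap.range (e t) ≃ₗ[F] LinearMap.range (e t)) →* stab e :=
  io.codRestrict (stab e) (io_mem hid hor hio)

theorem rsH_ioL (hid : ∀ i, e i * e i = e i) (hor : ∀ i j, i ≠ j → e i * e j = 0)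
    (hio : ∀ b x, io b x = (b ⟨e t x, ⟨x, rfl⟩⟩ : V) + (x - e t x))
    (b : LinearMap.range (e t) ≃ₗ[F] LinearMap.range (e t)) : rsH e t (ioL hid hor hio b) = b := by
  apply LinearEquiv.ext
  intro y
  apply Subtype.ext
  rw [rsH_coe]
  change io b (y : V) = _
  have hy : e t (y : V) = y := by
    obtain ⟨_, z, rfl⟩ := y
    exact congrArg (fun a : End F V => a z) (hid t)
  have h1 : (⟨e t (y : V), ⟨(y : V), rfl⟩⟩ : LinearMap.range (e t)) = y := Subtype.ext hy
  rw [hio, h1, hy, sub_self, add_zero]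

theorem ioL_comm (hid : ∀ i, e i * e i = e i) (hor : ∀ i j, i ≠ j → e i * e j = 0)
    (hio : ∀ b x, io b x = (b ⟨e t x, ⟨x, rfl⟩⟩ : V) + (x - e t x))
    (b : LinearMap.range (e t) ≃ₗ[F] LinearMap.range (e t)) (g : stab e) (hg : rsH e t g = 1) :
    ioL hid hor hio b * g = g * ioL hid hor hio b := by
  apply Subtype.ext
  apply LinearEquiv.ext
  intro x
  change io b ((g : V ≃ₗ[F] V) x) = (g : V ≃ₗ[F] V) (io b x)
  have hfix : ∀ y : LinearMap.range (e t), (g : V ≃ₗ[F] V) (y : V) = y := by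
    intro y
    rw [← rsH_coe, hg]
    rfl
  have h1 : e t ((g : V ≃ₗ[F] V) x) = e t x := by
    rw [← mem_stab'.mp g.2 t x]
    exact hfix ⟨e t x, ⟨x, rfl⟩⟩
  have h2 : (⟨e t ((g : V ≃ₗ[F] V) x), ⟨(g : V ≃ₗ[F] V) x, rfl⟩⟩ : LinearMap.range (e t)) =
      ⟨e t x, ⟨x, rfl⟩⟩ := Subtype.ext h1
  rw [hio, hio, h2, h1, map_add, map_sub, hfix, hfix ⟨e t x, ⟨x, rfl⟩⟩]

end

section

variable {k : Type u} [Field k] {p : ℕ} [Fact p.Prime] [CharP k p]
variable {F V : Type} [Field F] [AddCommGroup V] [Module F V] [Finite (V ≃ₗ[F] V)] {s : ℕ}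
  {e : Fin s → End F V} {t : Fin s} [Finite (LinearMap.range (e t) ≃ₗ[F] LinearMap.range (e t))]
  {io : (LinearMap.range (e t) ≃ₗ[F] LinearMap.range (e t)) →* (V ≃ₗ[F] V)}

/-- **The factor of a block** of the stabiliser of a decomposition. -/
theorem exists_factor (hid : ∀ i, e i * e i = e i) (hor : ∀ i j, i ≠ j → e i * e j = 0)
    (hio : ∀ b x, io b x = (b ⟨e t x, ⟨x, rfl⟩⟩ : V) + (x - e t x))
    {Q : Subgroup (V ≃ₗ[F] V)} (hQ : IsPGroup p Q) (hQL : Q ≤ stab e)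
    {f z : MonoidAlgebra k (V ≃ₗ[F] V)} (hf : IsBlockOf (stab e) f) (hz : z ∈ SubAlg k (stab e))
    (hzF : z ∈ Fix (cj k (V ≃ₗ[F] V)) Q) (hfz : f = tr (cj k (V ≃ₗ[F] V)) Q (stab e) z)
    (hbr : br Q f ≠ 0) :
    ∃ (R : Subgroup (LinearMap.range (e t) ≃ₗ[F] LinearMap.range (e t)))
      (g a : MonoidAlgebra k (LinearMap.range (e t) ≃ₗ[F] LinearMap.range (e t))),
      R = (Q.subgroupOf (stab e)).map (rsH e t) ∧ IsBlockOf (⊤ : Subgroup _) g ∧
      a ∈ Fix (cj k _) R ∧ g = tr (cj k _) R ⊤ a ∧ br R g ≠ 0 ∧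
      MonoidAlgebra.mapDomain io g * f = f := by
  classical
  obtain ⟨f', rfl⟩ := exists_incl (stab e) hf.mem.1
  obtain ⟨z', rfl⟩ := exists_incl (stab e) hz
  set Q' : Subgroup (stab e) := Q.subgroupOf (stab e) with hQ'
  have hmap : Q'.map (stab e).subtype = Q := Subgroup.map_subgroupOf_eq_of_le hQL
  have hz'F : z' ∈ Fix (cj k (stab e)) Q' := by
    rw [← incl_mem_Fix_iff, hmap]; exact hzF
  have hf' : IsBlockOf (⊤ : Subgroup (stab e)) f' := by
    unfold IsBlockOf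
    rw [ZAlg_top]
    exact (isBlockOf_incl_iff (stab e) f').mp hf
  have hf'z : f' = tr (cj k (stab e)) Q' ⊤ z' := by
    apply incl_injective (k := k) (stab e)
    rw [incl_tr (stab e) Q' hz'F, hmap]
    exact hfz
  have hbr' : br Q' f' ≠ 0 := by
    obtain ⟨c, hc, hec⟩ := exists_coeff_of_br hbr
    have hcS : c ∈ stab e := incl_mem (stab e) f' c hec
    refine br_ne_zero_of_coeff (c := ⟨c, hcS⟩) ?_ ?_
    · intro r hr
      apply Subtype.ext
      exact hc r hr
    · rw [← Vale.Agent.P180.R2.H799.incl_coeff]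
      exact hec
  have hQ'p : IsPGroup p Q' := hQ.comap_of_injective (stab e).subtype (stab e).subtype_injective
  obtain ⟨g, a, hg, hgf, ha, hga, hbg⟩ := exists_factor_block (k := k) (ι := ioL hid hor hio)
    (π := rsH e t) (rsH_ioL hid hor hio) (ioL_comm hid hor hio) hQ'p hf' hz'F hf'z hbr'
  refine ⟨_, g, a, rfl, hg, ha, hga, hbg, ?_⟩
  have h1 : MonoidAlgebra.mapDomain io g = incl k (stab e) (mi k (ioL hid hor hio) g) := by
    change MonoidAlgebra.mapDomain io g =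
      MonoidAlgebra.mapDomain (stab e).subtype (MonoidAlgebra.mapDomain (ioL hid hor hio) g)
    apply MonoidAlgebra.coeff_injective
    rw [MonoidAlgebra.coeff_mapDomain, MonoidAlgebra.coeff_mapDomain,
      MonoidAlgebra.coeff_mapDomain, ← Finsupp.mapDomain_comp]
    rfl
  rw [h1, ← map_mul, hgf]

end

end Vale.Agent.P180.H951
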