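import Vale.Agent.P180.H951.GLH

/-! The box theorem with one primitive character. -/

set_option linter.all false

namespace Vale.Agent.P180.H951

open Vale.Agent.P180 Vale.Agent.P180.H768.Gd Vale.Agent.P180.H393 Vale.Agent.P180.H337
  Vale.Agent.P180.H568 Vale.Agent.P180.H568.Dc Module Finset
open Vale.Agent.P180.R2.H471.Hc Vale.Agent.P180.H568.Tp
open Vale.Agent.P180.R2.H954.Hc (KK toKK charZero_KK)
open Vale.Agent.P180.H897 (Boxed)
open Vale.Agent.P180.H386 (sg)

universe u

variable {k : Type u} [Field k] [IsAlgClosed k] {p : ℕ} [Fact p.Prime] [CharP k p]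
  {F : Type} [Field F] [Finite F]

/-- **The box theorem**: an irreducible character of a block of `GL(W)` with a homogeneous abelian
defect group `R ≠ 1` is a constituent of a power `ρ ^ n`, `ρ` primitive, `n ≤ |R|`. -/
theorem box1 [CharZero (KK k p)] [DecidableEq (Om (KK k p) F)] (hpF : ¬ p ∣ Nat.card F)
    {W : Type} [AddCommGroup W] [Module F W] [Finite W] [instF : Fintype (W ≃ₗ[F] W)]
    {R : Subgroup (W ≃ₗ[F] W)} {g a : MonoidAlgebra k (W ≃ₗ[F] W)}
    {E : MonoidAlgebra (WittVector p k) (W ≃ₗ[F] W)} {σ : Om (KK k p) F}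
    (hBD : BD W R g a E σ) :
    ∃ (ρ : Om (KK k p) F) (n : ℕ), (glPSH (KK k p) F).Prim ρ ∧ n ≤ Nat.card R ∧
      n * ρ.deg = σ.deg ∧
      (glPSH (KK k p) F).cnt σ.deg (List.replicate n ρ) (glPSH (KK k p) F).one σ ≠ 0 := by
  have inst : instF = fintGL := Subsingleton.elim _ _
  subst inst
  obtain ⟨hi, hn⟩ := HI_of (Tr.contr k p) W R g a E σ hBD
  have hR0 : (Nat.card R : KK k p) ≠ 0 := card_ne' R
  have hV : 0 < finrank F W := by
    rw [Nat.pos_iff_ne_zero]
    intro h0
    have : Module.Finite F W := Module.Finite.of_finite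
    have hsub : Subsingleton W := finrank_zero_iff.mp h0
    apply hBD.nt
    rw [eq_bot_iff]
    intro x _
    rw [Subgroup.mem_bot]
    ext w
    exact Subsingleton.elim _ _
  exact box_of (K := KK k p) hV (S := sg p (X σ W))
    (sg_cf (IsCh.cf (X_isCh σ))) (by
      intro A B _ _ _ _ _ _ hA hB e x y
      have h20 : (fun z => sg p (X σ W) (cg e z)) = sg p (X σ (A × B)) := by
        funext z
        unfold sg
        rw [X_cg]
        have h21 : orderOf (cg e z) = orderOf z :=
          orderOf_injective (cg e).toMonoidHom (cg e).injective z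
        rw [h21]
      rw [h20]
      exact HR_of hpF (glHalf p F) (Tr.secMain k p) A B hA hB _ _ _ _ σ
        (hBD.transport e.symm) x y) (N := Nat.card R) hi hBD.deg
    (sg_self _) (mul_ne_zero hR0 hn)

end Vale.Agent.P180.H951
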