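import Vale.Agent.P180.H951.TrpC
import Vale.Agent.P180.H568.HR
import Vale.Agent.P180.H393.SingC

/-! The pairings of the singular part of a character in a block with an abelian defect group. -/

set_option linter.all false

namespace Vale.Agent.P180.H951.Tr

open Finset Vale.Agent.P180.R2.H471.Hc Subgroup
open Vale.Agent.P180.H393 (IsIr ev IsCh.cf)
open Vale.Agent.P180.R2.H954.Hc (KK toKK charZero_KK)
open Vale.Agent.P180.H386 (sg)
open P179P (Irr)
open P179C (lam)

universe u

theorem sg_map {K : Type} [Field K] {K' : Type u} [Field K'] (ι : K →+* K') (p : ℕ) {H : Type}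
    [Group H] (χ : H → K) : sg p (fun x => ι (χ x)) = fun x => ι (sg p χ x) := by
  funext x
  unfold sg
  split_ifs
  · rfl
  · exact (map_zero ι).symm

/-- **The statement about the contributions** -/
theorem contr (k : Type u) [Field k] [IsAlgClosed k] (p : ℕ) [Fact p.Prime] [CharP k p] :
    H568.Contr k p := by
  intro G _ _ b a D B χ ψ hb hD hab ha htr hbr hBc hBB hBe hχ hev hψ
  obtain ⟨T⟩ := exists_trp k p
  obtain ⟨χ0, χc, h0, h1, h2⟩ := T.exists_c hχ
  obtain ⟨ψ0, ψc, g0, g1, g2⟩ := T.exists_c hψ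
  have e1 : χ = fun g => T.i2 (χ0 g) := funext h1
  have e2 : ψ = fun g => T.i2 (ψ0 g) := funext g1
  have c1 : χc.1 = fun g => T.i1 (χ0 g) := funext h2
  have c2 : ψc.1 = fun g => T.i1 (ψ0 g) := funext g2
  have hlam : lam T.red χc.1 (fun g => b.coeff g) = 1 := by
    rw [e1] at hev
    exact (T.ev_ne_iff h0 χc h2 hBc hBB hBe).1 hev
  constructor
  · obtain ⟨c, hc⟩ := H393.Sing.int_c (p := p) T.red hb hD hab ha htr hbr χc hlam ψc
    refine ⟨c, ?_⟩
    rw [c1, c2, sg_map, ip_map] at hc
    have h3 : (Nat.card D : Qb) * ip (sg p χ0) ψ0 = c := by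
      apply T.i1.injective
      rw [map_mul, map_natCast, map_intCast]
      exact hc
    rw [e1, e2, sg_map, ip_map, ← map_natCast T.i2, ← map_mul, h3, map_intCast]
  · intro hD1
    have h3 := H393.Sing.ne_c (p := p) T.red hb hD hab ha htr hbr hD1 χc hlam
    rw [c1, sg_map, ip_map] at h3
    rw [e1, sg_map, ip_map]
    intro h4
    apply h3
    have h5 : ip (sg p χ0) χ0 = 0 := by
      apply T.i2.injective
      rw [h4, map_zero]
    rw [h5, map_zero]

end Vale.Agent.P180.H951.Tr
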