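import Vale.Agent.P180.H951.GlueB
import Vale.Agent.P180.H568.Inst
import Vale.Agent.P180.H568.Tp

/-! The test idempotent of the general linear group. -/

set_option linter.all false

namespace Vale.Agent.P180.H951

universe u

open Finset Vale.Agent.P180 Vale.Agent.P180.R2.H799 Vale.Agent.P180.R2.H471.Hc
open Vale.Agent.P180.H393 Vale.Agent.P180.H337 Vale.Agent.P180.H568
open Vale.Agent.P180.H897 (ev_av0 ev_av cnt_step)
open Module (finrank)

/-- the index set of `N` blocks -/
def IN (ι : Type) : ℕ → Type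
  | 0 => Empty
  | N + 1 => IN ι N ⊕ ι

instance instFintypeIN (ι : Type) [Fintype ι] : ∀ N, Fintype (IN ι N)
  | 0 => inferInstanceAs (Fintype Empty)
  | N + 1 => by
      haveI := instFintypeIN ι N
      exact inferInstanceAs (Fintype (IN ι N ⊕ ι))

instance instDecidableEqIN (ι : Type) [DecidableEq ι] : ∀ N, DecidableEq (IN ι N)
  | 0 => inferInstanceAs (DecidableEq Empty)
  | N + 1 => by
      haveI := instDecidableEqIN ι N
      exact inferInstanceAs (DecidableEq (IN ι N ⊕ ι))

theorem card_IN (ι : Type) [Fintype ι] : ∀ N, Fintype.card (IN ι N) = N * Fintype.card ι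
  | 0 => by
      rw [zero_mul]
      exact Fintype.card_empty
  | N + 1 => by
      rw [Nat.succ_mul, ← card_IN ι N]
      exact Fintype.card_sum

/-- the two summands -/
def sIN (F : Type) [Field F] (ι : Type) (N : ℕ) : (IN ι (N + 1) → F) ≃ₗ[F] (IN ι N → F) × (ι → F) :=
  LinearEquiv.sumArrowLequivProdArrow (IN ι N) ι F F

theorem sIN_apply {F : Type} [Field F] {ι : Type} {N : ℕ} (a : IN ι (N + 1) → F) :
    sIN F ι N a = (fun i => a (Sum.inl i), fun i => a (Sum.inr i)) := rfl

theorem sIN_symm_inl {F : Type} [Field F] {ι : Type} {N : ℕ} (a : (IN ι N → F) × (ι → F))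
    (i : IN ι N) : (sIN F ι N).symm a (Sum.inl i) = a.1 i := rfl

theorem sIN_symm_inr {F : Type} [Field F] {ι : Type} {N : ℕ} (a : (IN ι N → F) × (ι → F))
    (i : ι) : (sIN F ι N).symm a (Sum.inr i) = a.2 i := rfl

section

variable {K : Type u} [Field K] {F : Type} [Field F]
variable {A B : Type} [AddCommGroup A] [Module F A] [AddCommGroup B] [Module F B]

/-- the two factors of the Levi subgroup -/
def lL (F A B : Type) [Field F] [AddCommGroup A] [Module F A] [AddCommGroup B] [Module F B] :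
    (A ≃ₗ[F] A) →* (A × B) ≃ₗ[F] (A × B) := (LB F A B).comp (MonoidHom.inl _ _)

def lR (F A B : Type) [Field F] [AddCommGroup A] [Module F A] [AddCommGroup B] [Module F B] :
    (B ≃ₗ[F] B) →* (A × B) ≃ₗ[F] (A × B) := (LB F A B).comp (MonoidHom.inr _ _)

theorem lL_apply (a : A ≃ₗ[F] A) : lL F A B a = sk a 1 0 := rfl

theorem lR_apply (b : B ≃ₗ[F] B) : lR F A B b = sk 1 b 0 := rfl

variable [Finite A] [Finite B]

/-- one step of the test idempotent -/
noncomputable def stp (x : MonoidAlgebra K (A ≃ₗ[F] A)) (y : MonoidAlgebra K (B ≃ₗ[F] B)) :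
    MonoidAlgebra K ((A × B) ≃ₗ[F] (A × B)) :=
  BN.av K (UB A B) * (mi K (lL F A B) x * mi K (lR F A B) y)

end

/-- **The test idempotent** of `GL(N * ι)`. -/
noncomputable def xN {K : Type u} [Field K] {F : Type} [Field F] [Finite F] {ι : Type} [Fintype ι]
    (eps : MonoidAlgebra K ((ι → F) ≃ₗ[F] (ι → F))) :
    (N : ℕ) → MonoidAlgebra K ((IN ι N → F) ≃ₗ[F] (IN ι N → F))
  | 0 => 1
  | N + 1 => Tp.T (cg (sIN F ι N).symm) (stp (xN eps N) eps)

end Vale.Agent.P180.H951
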