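import Vale.Agent.P180.H951.FacCh
import Vale.Agent.P180.H951.GlueB

/-! The factors of a block, and of a character, of a subgroup which is a direct product. -/

set_option linter.all false

namespace Vale.Agent.P180.H951

open Module Subgroup Vale.Agent.P180 Vale.Agent.P180.H768.Gd Vale.Agent.P180.R2.H799
  Vale.Agent.P180.R2.H471.Hc Vale.Agent.P180.R2.H954.Hc Vale.Agent.P180.R2.H954
  Vale.Agent.P180.R2.H12.Sl Vale.Agent.P180.H337
open Vale.Agent.P180.H393 (IsIr IsCF ev)

universe u

section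

variable {k : Type u} [Field k] {p : ℕ} [Fact p.Prime] [CharP k p]
variable {G B : Type} [Group G] [Finite G] [Group B] [Finite B] {M : Subgroup G}
  {ι : B →* M} {π : M →* B}

/-- **The factor of a block** of a subgroup. -/
theorem exists_factor' (hπ : ∀ b, π (ι b) = b) (hc : ∀ b m, π m = 1 → ι b * m = m * ι b)
    {Q : Subgroup G} (hQ : IsPGroup p Q) (hQM : Q ≤ M)
    {f z : MonoidAlgebra k G} (hf : IsBlockOf M f) (hz : z ∈ SubAlg k M)
    (hzF : z ∈ Fix (cj k G) Q) (hfz : f = tr (cj k G) Q M z) (hbr : br Q f ≠ 0) :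
    ∃ g a : MonoidAlgebra k B, IsBlockOf (⊤ : Subgroup B) g ∧
      a ∈ Fix (cj k B) ((Q.subgroupOf M).map π) ∧
      g = tr (cj k B) ((Q.subgroupOf M).map π) ⊤ a ∧ br ((Q.subgroupOf M).map π) g ≠ 0 ∧
      MonoidAlgebra.mapDomain (M.subtype.comp ι) g * f = f := by
  classical
  obtain ⟨f', rfl⟩ := exists_incl M hf.mem.1
  obtain ⟨z', rfl⟩ := exists_incl M hz
  set Q' : Subgroup M := Q.subgroupOf M with hQ'
  have hmap : Q'.map M.subtype = Q := Subgroup.map_subgroupOf_eq_of_le hQM
  have hz'F : z' ∈ Fix (cj k M) Q' := by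
    rw [← incl_mem_Fix_iff, hmap]; exact hzF
  have hf' : IsBlockOf (⊤ : Subgroup M) f' := by
    unfold IsBlockOf
    rw [ZAlg_top]
    exact (isBlockOf_incl_iff M f').mp hf
  have hf'z : f' = tr (cj k M) Q' ⊤ z' := by
    apply incl_injective (k := k) M
    rw [incl_tr M Q' hz'F, hmap]
    exact hfz
  have hbr' : br Q' f' ≠ 0 := by
    obtain ⟨c, hc', hec⟩ := exists_coeff_of_br hbr
    have hcS : c ∈ M := incl_mem M f' c hec
    refine br_ne_zero_of_coeff (c := ⟨c, hcS⟩) ?_ ?_
    · intro r hr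
      apply Subtype.ext
      exact hc' r hr
    · rw [← Vale.Agent.P180.R2.H799.incl_coeff]
      exact hec
  have hQ'p : IsPGroup p Q' := hQ.comap_of_injective M.subtype M.subtype_injective
  obtain ⟨g, a, hg, hgf, ha, hga, hbg⟩ := exists_factor_block (k := k) (ι := ι)
    (π := π) hπ hc hQ'p hf' hz'F hf'z hbr'
  refine ⟨g, a, hg, ha, hga, hbg, ?_⟩
  have h1 : MonoidAlgebra.mapDomain (M.subtype.comp ι) g = incl k M (mi k ι g) := by
    change MonoidAlgebra.mapDomain (M.subtype.comp ι) g =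
      MonoidAlgebra.mapDomain M.subtype (MonoidAlgebra.mapDomain ι g)
    apply MonoidAlgebra.coeff_injective
    rw [MonoidAlgebra.coeff_mapDomain, MonoidAlgebra.coeff_mapDomain,
      MonoidAlgebra.coeff_mapDomain, ← Finsupp.mapDomain_comp]
    rfl
  rw [h1, ← map_mul, hgf]

end

section

variable {k : Type u} [Field k] [IsAlgClosed k] {p : ℕ} [Fact p.Prime] [CharP k p]
variable {G B : Type} [Group G] [Fintype G] [Group B] [Fintype B] {M : Subgroup G} [Fintype M]
  {ι : B →* M} {π : M →* B}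

/-- **The factor of a character.** -/
theorem ev_factor_ne' (hπ : ∀ b, π (ι b) = b) (hc : ∀ b m, π m = 1 → ι b * m = m * ι b)
    {g : MonoidAlgebra k B}
    {j : MonoidAlgebra k G} (hgj : MonoidAlgebra.mapDomain (M.subtype.comp ι) g * j = j)
    {J : MonoidAlgebra (WittVector p k) G} (hJJ : J * J = J)
    (hJL : ∀ x, J.coeff x ≠ 0 → x ∈ M)
    (hJj : MonoidAlgebra.mapRingHom _ (WittVector.constantCoeff (p := p) (R := k)) J = j)
    {E : MonoidAlgebra (WittVector p k) B}
    (hEc : ∀ x, x * E = E * x) (hEE : E * E = E)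
    (hEg : MonoidAlgebra.mapRingHom _ (WittVector.constantCoeff (p := p) (R := k)) E = g)
    {ψ : M → KK k p} (hψ : IsIr (KK k p) M ψ)
    (hne : ev ψ (H337.rs M (MonoidAlgebra.mapRingHom _ (toKK k p) J)) ≠ 0)
    {m : KK k p} {ξ : B → KK k p} (hm : ∀ b, ψ (ι b) = m * ξ b) :
    ev ξ (MonoidAlgebra.mapRingHom _ (toKK k p) E) ≠ 0 := by
  classical
  have hchar : CharZero (KK k p) := charZero_KK k p
  set io : B →* G := M.subtype.comp ι with hio
  set φ := MonoidAlgebra.mapRingHom G (toKK k p) with hφ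
  set EA := MonoidAlgebra.mapRingHom B (toKK k p) E with hEA
  have hEAc : EA ∈ Fix (cj (KK k p) _) ⊤ := by
    rw [mem_Fix_cj_iff]
    intro x _
    have h2 : MonoidAlgebra.single x (1 : KK k p) =
        MonoidAlgebra.mapRingHom _ (toKK k p) (MonoidAlgebra.single x 1) := by
      rw [MonoidAlgebra.mapRingHom_single, map_one]
    rw [h2, hEA, ← map_mul, ← map_mul, hEc]
  have hEAA : EA * EA = EA := by rw [hEA, ← map_mul, hEE]
  set eh := mi (KK k p) ι EA with heh
  have hehT : eh ∈ Fix (cj (KK k p) M) ⊤ := mi_central hπ hc hEAc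
  have hehc : ∀ x, x * eh = eh * x := fun x => commute_of_mem (SubAlg_top x) hehT
  have hehh : eh * eh = eh := by rw [heh, ← map_mul, hEAA]
  have hφE : φ (MonoidAlgebra.mapDomain io E) = incl (KK k p) M eh := by
    rw [hφ, mapDomain_mapRing, ← hEA]
    change MonoidAlgebra.mapDomain io EA =
      MonoidAlgebra.mapDomain M.subtype (MonoidAlgebra.mapDomain ι EA)
    apply MonoidAlgebra.coeff_injective
    rw [MonoidAlgebra.coeff_mapDomain, MonoidAlgebra.coeff_mapDomain,
      MonoidAlgebra.coeff_mapDomain, ← Finsupp.mapDomain_comp]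
    rfl
  have hJK : φ J ∈ SubAlg (KK k p) M := by
    intro x hx
    rw [hφ, MonoidAlgebra.coeff_mapRingHom] at hx
    exact hJL x fun h => hx (by rw [h, map_zero])
  obtain ⟨J', hJ'⟩ := exists_incl M hJK
  have hcommK : φ J * φ (MonoidAlgebra.mapDomain io E) =
      φ (MonoidAlgebra.mapDomain io E) * φ J := by
    rw [hφE, ← hJ', ← map_mul, ← map_mul, hehc]
  have hcomm : J * MonoidAlgebra.mapDomain io E = MonoidAlgebra.mapDomain io E * J := by
    apply mapKK_injective (k := k) (p := p)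
    rw [map_mul, map_mul]
    exact hcommK
  have hEE' : MonoidAlgebra.mapDomain io E * MonoidAlgebra.mapDomain io E =
      MonoidAlgebra.mapDomain io E := by
    apply mapKK_injective (k := k) (p := p)
    rw [map_mul]
    change φ _ * φ _ = φ _
    rw [hφE, ← map_mul, hehh]
  have hund := lift_under (k := k) (p := p) hJJ hEE' hcomm (by
    rw [mapDomain_mapRing, hEg, hJj, hgj])
  change φ (MonoidAlgebra.mapDomain io E) * φ J = φ J at hund
  have hrsE : H337.rs M (φ (MonoidAlgebra.mapDomain io E)) = eh := by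
    rw [hφE]
    apply MonoidAlgebra.coeff_injective
    refine Finsupp.ext fun x => ?_
    rw [H337.rs_coeff, Vale.Agent.P180.R2.H799.incl_coeff]
  have hrs : eh * H337.rs M (φ J) = H337.rs M (φ J) := by
    conv_rhs => rw [← hund, rs_mul (by rw [hφE]; exact incl_mem _ _), hrsE]
  have hψe : ev ψ eh ≠ 0 := by
    intro h0
    apply hne
    change ev ψ (H337.rs M (φ J)) = 0
    rw [← hrs]
    exact (ev_central_eq_zero_iff hψ hehc hehh).mp h0 _
  intro h0
  apply hψe
  rw [heh, ev_mi (m := m) (ξ := ξ) ι hm, h0, mul_zero]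

end

end Vale.Agent.P180.H951
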