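import Vale.Agent.P180.H951.Fac
import Vale.Agent.P180.H951.Small
import Vale.Agent.P180.H354.B2
import Vale.Agent.P180.R2.H799.BZa
import Vale.Agent.P180.R2.H471.Hc8

/-! General linear groups of unbounded rank: a small idempotent for the blocks with an abelian defect
group which is homogeneous on a subspace of bounded codimension. -/

set_option linter.all false

namespace Vale.Agent.P180.H951

open Module Subgroup Vale.Agent.P180 Vale.Agent.P180.H768.Gd Vale.Agent.P180.R2.H799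
  Vale.Agent.P180.R2.H471.Hc Vale.Agent.P180.R2.H954.Hc Vale.Agent.P180.R2.H471.He
  Vale.Agent.P180.R2.H799.BZ
open Vale.Agent.P180.R2.H259.Cyc (cycB cycB_mono)
open Vale.Agent.P180.H393 (IsIr IsCF ev)

universe u

/-- the bound -/
noncomputable def glB (p m n : ℕ) : ℕ :=
  n ^ 2 * (m.factorial * (n * (max 1 (cycB p n)) ^ (m + 1)) ^ 2) ^ 2

theorem glB_mono {p m n n' : ℕ} (h : n ≤ n') : glB p m n ≤ glB p m n' := by
  unfold glB
  exact Nat.mul_le_mul (Nat.pow_le_pow_left h 2) (Nat.pow_le_pow_left (Nat.mul_le_mul_left _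
    (Nat.pow_le_pow_left (Nat.mul_le_mul h (Nat.pow_le_pow_left (max_le_max le_rfl
      (cycB_mono h)) _)) 2)) 2)

/-- **General linear groups**: a small idempotent for the blocks with an abelian defect group, from
the bound for the multiplicities of Harish-Chandra restriction. -/
theorem oneBd_gl_of {k : Type u} [Field k] [IsAlgClosed k] {p : ℕ} [Fact p.Prime] [CharP k p]
    {F V : Type} [Field F] [Finite F] [AddCommGroup V] [Module F V] [Finite V]
    [Finite (V ≃ₗ[F] V)] [Fintype (V ≃ₗ[F] V)]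
    (hC1 : ∀ {M U : Subgroup (V ≃ₗ[F] V)} {t : ℕ}, IsLevi F V M U t →
      ∀ χ : (V ≃ₗ[F] V) → KK k p, IsIr (KK k p) (V ≃ₗ[F] V) χ →
      ∀ x ∈ SubAlg (KK k p) M, x * x = x →
      ∃ m : ℕ, ev χ (BN.av (KK k p) U * x) = m ∧
        m ≤ t.factorial * finrank (KK k p) (NN (SubAlg (KK k p) M) x x))
    (hpF : ¬ p ∣ Nat.card F) {m n : ℕ} {Q : Subgroup (V ≃ₗ[F] V)} (hQ : IsPGroup p Q)
    (hQn : Nat.card Q ≤ n) (hab : ∀ x ∈ Q, ∀ y ∈ Q, x * y = y * x)
    (hm : ∃ W, HomOn Q W ∧ finrank F V ≤ finrank F W + m) : OneBd k Q (glB p m n) := by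
  classical
  intro e a he ha hea hbr
  obtain ⟨W, hW, hdim⟩ := hm
  have hfV : FiniteDimensional F V := Module.Finite.of_finite
  have hp : p.Prime := Fact.out
  obtain ⟨l, hl⟩ := IsPGroup.iff_card.mp hQ
  have hcop : (Nat.card F).Coprime (Nat.card Q) := by
    rw [hl]
    exact (Nat.Coprime.pow_left l ((Nat.Prime.coprime_iff_not_dvd hp).mpr hpF)).symm
  obtain ⟨D⟩ := exists_dec Q hW hcop hab
  have ht : ∑ i, finrank F (LinearMap.range (D.e i)) ≤ m := by
    have h1 := D.sum_add_le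
    omega
  have hr : D.r + 1 ≤ m + 1 := Nat.add_le_add_right (D.r_le.trans ht) 1
  have hQL : Q ≤ stab D.e := D.Q_le hab
  have hstE : stab D.e = stab D.E := D.stab_E.symm
  have hsup : (⨆ j, gA D.E j) = stab D.e := by rw [D.idp.iSup_eq, hstE]
  have hQE : Q ≤ stab D.E := by rw [← hstE]; exact hQL
  -- the idempotent of the Levi subgroup
  obtain ⟨j, hjL, hjQ, hjj, hjb, hjd⟩ := exists_jr2 (k := k) (n := n) (β := 1) (Z := ⊥)
    (A := gA D.E) (L := stab D.e) hQ hQn hQL D.cent_le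
    (fun j => by rw [hstE]; exact gA_le j)
    (fun j g hg h hh => gA_conj (by rw [← hstE]; exact hg) hh)
    (fun i j hij g hg h hh => D.idp.gA_comm hij hg hh)
    (fun i => D.idp.cycOn hQE i (D.cycE i))
    (fun g hg q hq => by
      rw [hsup]
      exact Subgroup.mem_sup_left ((stab D.e).mul_mem ((stab D.e).mul_mem hg (hQL hq))
        ((stab D.e).inv_mem hg)))
    bot_le
    (fun z hz g hg => by
      rw [Subgroup.mem_bot] at hz
      rw [hz, one_mul, mul_one])
    (by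
      rw [hsup, bot_sup_eq, Subgroup.relIndex_self])
    he.idem.eq ha hea hbr
  rw [one_mul] at hjd
  -- the unipotent radical
  obtain ⟨U, hU⟩ := exists_isLevi D.r V D.e D.idem D.orth
  obtain ⟨c, hc⟩ := hU.card inferInstance
  have hpU : ¬ p ∣ Nat.card U := by
    rw [hc]
    exact fun h => hpF (hp.dvd_of_dvd_pow h)
  have hCU : U ⊓ centralizer (Q : Set (V ≃ₗ[F] V)) = ⊥ := by
    rw [eq_bot_iff]
    intro x hx
    rw [Subgroup.mem_bot]
    exact hU.inf_eq_bot x hx.1 (D.cent_le hx.2)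
  obtain ⟨i, h1, h2, h3, h4, h5⟩ := exists_small (k := k) (p := p)
    (N := Nat.card Q ^ 2) hpU hU.le_normalizer hQ hQL hCU
    he.idem.eq he.mem.2 hjL hjQ hjj hjb hjd
    (fun E hE1 hE2 hE3 => Vale.Agent.P180.H354.card_le he hQ hab ha hea hbr hE1 hE2 hE3)
    (fun χ hχ x hx hxx => hC1 hU χ hχ x hx hxx)
  refine ⟨i, h1, h2, h3, h4, h5.trans ?_⟩
  unfold glB
  refine Nat.mul_le_mul (Nat.pow_le_pow_left hQn 2) (Nat.pow_le_pow_left (Nat.mul_le_mul
    (Nat.factorial_le ht) (Nat.pow_le_pow_left (Nat.mul_le_mul_left _ (Nat.pow_le_pow_right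
      (lt_of_lt_of_le Nat.one_pos (le_max_left _ _)) hr)) 2)) 2)

end Vale.Agent.P180.H951
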