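import Vale.Agent.P180.H951.SecMain
import Vale.Agent.P180.H951.Contr

/-! General linear groups of unbounded rank: a small idempotent for the blocks with an abelian defect
group, from the statement about parabolic subgroups of centralisers. -/

set_option linter.all false

namespace Vale.Agent.P180.H951

open Vale.Agent.P180.R2.H471.Hc Vale.Agent.P180.R2.H954.Hc

universe u

theorem oneBd_glb_of_half {k : Type u} [Field k] [IsAlgClosed k] {p : ℕ} [Fact p.Prime]
    [CharP k p] {F V : Type} [Field F] [Finite F] [AddCommGroup V] [Module F V] [Finite V]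
    [Finite (V ≃ₗ[F] V)] (HG : H568.GLHalf p F) (hpF : ¬ p ∣ Nat.card F) {n : ℕ}
    {Q : Subgroup (V ≃ₗ[F] V)} (hQ : IsPGroup p Q) (hQn : Nat.card Q ≤ n)
    (hab : ∀ x ∈ Q, ∀ y ∈ Q, x * y = y * x) : OneBd k Q (glC p n) := by
  classical
  have := charZero_KK k p
  exact oneBd_glb_of (H568.boxStmt hpF HG (Tr.secMain k p) (Tr.contr k p)) hpF hQ hQn hab

end Vale.Agent.P180.H951
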