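import Vale.Agent.P180.H951.SlAllH
import Vale.Agent.P180.H393.OutD
import Vale.Agent.P180.R2.H799.BNP2

/-! Outer diagonal actions on special linear groups: the group of the elements whose determinant is a
`p`-element. -/

set_option linter.all false

namespace Vale.Agent.P180.H951

open Module Subgroup Vale.Agent.P180 Vale.Agent.P180.H768.Gd Vale.Agent.P180.R2.H471.Hc
  Vale.Agent.P180.R2.H799 Vale.Agent.P180.R2.H954
open Vale.Agent.P180.H19.Pidx (PrimStmt)

universe u

section

variable {p : ℕ} {K V : Type} [Field K] [AddCommGroup V] [Module K V]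

/-- the elements whose determinant is a `p`-element -/
noncomputable def PG (p : ℕ) (K V : Type) [Field K] [AddCommGroup V] [Module K V] :
    Subgroup (V ≃ₗ[K] V) :=
  ((powMonoidHom (ordProj[p] (Nat.card K - 1)) : Kˣ →* Kˣ).comp
    (LinearEquiv.det : (V ≃ₗ[K] V) →* Kˣ)).ker

theorem mem_PG {g : V ≃ₗ[K] V} : g ∈ PG p K V ↔
    (LinearEquiv.det g) ^ (ordProj[p] (Nat.card K - 1)) = 1 := Iff.rfl

instance : (PG p K V).Normal := by
  unfold PG
  infer_instance

/-- the special linear group in `PG` -/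
noncomputable def SG (p : ℕ) (K V : Type) [Field K] [AddCommGroup V] [Module K V] :
    Subgroup (PG p K V) :=
  ((LinearEquiv.det : (V ≃ₗ[K] V) →* Kˣ).comp (PG p K V).subtype).ker

theorem mem_SG {g : PG p K V} : g ∈ SG p K V ↔ LinearEquiv.det (g : V ≃ₗ[K] V) = 1 := Iff.rfl

instance : (SG p K V).Normal := by
  unfold SG
  infer_instance

theorem isPGroup_PS : IsPGroup p (PG p K V ⧸ SG p K V) := by
  intro x
  obtain ⟨g, rfl⟩ := QuotientGroup.mk_surjective x
  refine ⟨(Nat.card K - 1).factorization p, ?_⟩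
  rw [← QuotientGroup.mk_pow, QuotientGroup.eq_one_iff, mem_SG, Subgroup.coe_pow, map_pow]
  exact g.2

theorem isCyclic_PS [Finite K] : IsCyclic (PG p K V ⧸ SG p K V) := by
  let f : PG p K V →* Kˣ := (LinearEquiv.det : (V ≃ₗ[K] V) →* Kˣ).comp (PG p K V).subtype
  have e : (PG p K V ⧸ f.ker) ≃* f.range := QuotientGroup.quotientKerEquivRange f
  have h1 : IsCyclic f.range := inferInstance
  exact isCyclic_of_injective e.toMonoidHom e.injective

theorem isCyclic_GP [Finite K] : IsCyclic ((V ≃ₗ[K] V) ⧸ PG p K V) := by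
  let f : (V ≃ₗ[K] V) →* Kˣ :=
    (powMonoidHom (ordProj[p] (Nat.card K - 1)) : Kˣ →* Kˣ).comp
      (LinearEquiv.det : (V ≃ₗ[K] V) →* Kˣ)
  have e : ((V ≃ₗ[K] V) ⧸ f.ker) ≃* f.range := QuotientGroup.quotientKerEquivRange f
  have h1 : IsCyclic f.range := inferInstance
  exact isCyclic_of_injective e.toMonoidHom e.injective

theorem not_dvd_index [Fact p.Prime] [Finite K] : ¬ p ∣ (PG p K V).index := by
  have hp : p.Prime := Fact.out
  have hq1 : Nat.card K - 1 ≠ 0 := by
    have := Finite.one_lt_card (α := K)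
    omega
  intro h
  unfold PG at h
  rw [Subgroup.index_ker] at h
  obtain ⟨x, hx⟩ := exists_prime_orderOf_dvd_card' p h
  have hx : orderOf (x : Kˣ) = p := by rw [Subgroup.orderOf_coe, hx]
  obtain ⟨g, hg⟩ := x.2
  have h1 : (x : Kˣ) ^ (ordCompl[p] (Nat.card K - 1)) = 1 := by
    have h2 : (LinearEquiv.det g) ^ (ordProj[p] (Nat.card K - 1)) = (x : Kˣ) := hg
    rw [← h2, ← pow_mul, Nat.ordProj_mul_ordCompl_eq_self, ← Nat.card_units]
    exact pow_card_eq_one'
  have h3 := orderOf_dvd_of_pow_eq_one h1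
  rw [hx] at h3
  exact Nat.not_dvd_ordCompl hp hq1 h3

theorem le_PG [Fact p.Prime] [Finite K] {P : Subgroup (V ≃ₗ[K] V)} (hP : IsPGroup p P) :
    P ≤ PG p K V := by
  have hp : p.Prime := Fact.out
  have hq1 : Nat.card K - 1 ≠ 0 := by
    have := Finite.one_lt_card (α := K)
    omega
  intro x hx
  obtain ⟨j, hj⟩ := hP ⟨x, hx⟩
  have hj : x ^ p ^ j = 1 := congrArg Subtype.val hj
  have h1 : (LinearEquiv.det x) ^ p ^ j = 1 := by rw [← map_pow, hj, map_one]
  obtain ⟨i, hi, h2⟩ := (Nat.dvd_prime_pow hp).mp (orderOf_dvd_of_pow_eq_one h1)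
  have h3 : orderOf (LinearEquiv.det x) ∣ Nat.card K - 1 := by
    apply orderOf_dvd_of_pow_eq_one
    rw [← Nat.card_units]
    exact pow_card_eq_one'
  rw [h2] at h3
  have h4 := (hp.pow_dvd_iff_le_factorization hq1).mp h3
  rw [mem_PG, ← orderOf_dvd_iff_pow_eq_one, h2]
  exact pow_dvd_pow p h4

/-- A defect group is maximal among the `p`-subgroups of the algebra which it generates. -/
theorem maxIn_of_blockPG {k : Type u} [Field k] [Fact p.Prime] [CharP k p] [Finite K]
    [Finite (V ≃ₗ[K] V)] {S : Subgroup (PG p K V)} (hS : IsPGroup p S)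
    {B z : MonoidAlgebra k (PG p K V)} (hz : z ∈ Fix (cj k _) S) (hB : B = tr (cj k _) S ⊤ z)
    (hbr : br S B ≠ 0) : MaxIn p (S.map (PG p K V).subtype) := by
  classical
  intro P hSP hP hspan
  obtain ⟨c, hc, hBc⟩ := exists_coeff_of_br hbr
  have hPG : P ≤ PG p K V := le_PG hP
  have hcS : ∀ s ∈ S, s * c = c * s := by
    intro s hs
    have h1 := hc s hs
    calc s * c = c * (c⁻¹ * s * c) := by group
      _ = c * s := by
        congr 1
        have h2 : s * c = c * s := by
          rw [mul_inv_eq_iff_eq_mul] at h1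
          exact h1
        rw [mul_assoc, h2, inv_mul_cancel_left]
  have hcP : ∀ h ∈ P.subgroupOf (PG p K V), h * c * h⁻¹ = c := by
    intro h hh
    have key : ∀ x ∈ Submodule.span K (Set.range fun s : S.map (PG p K V).subtype =>
        ((s : V ≃ₗ[K] V) : V →ₗ[K] V)),
        x ∘ₗ ((c : V ≃ₗ[K] V) : V →ₗ[K] V) = ((c : V ≃ₗ[K] V) : V →ₗ[K] V) ∘ₗ x := by
      intro x hx
      induction hx using Submodule.span_induction with
      | mem x hx =>
        obtain ⟨⟨_, s, hs, rfl⟩, rfl⟩ := hx
        have h3 := congrArg Subtype.val (hcS s hs)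
        apply LinearMap.ext
        intro v
        exact congrArg (fun g : V ≃ₗ[K] V => g v) h3
      | zero => rw [LinearMap.zero_comp, LinearMap.comp_zero]
      | add x y _ _ hx hy => rw [LinearMap.add_comp, LinearMap.comp_add, hx, hy]
      | smul a x _ hx => rw [LinearMap.smul_comp, LinearMap.comp_smul, hx]
    have h4 := key _ (hspan h hh)
    rw [mul_inv_eq_iff_eq_mul]
    apply Subtype.ext
    apply LinearEquiv.ext
    intro v
    exact congrArg (fun g : V →ₗ[K] V => g v) h4
  have hP' : IsPGroup p (P.subgroupOf (PG p K V)) := hP.comap_of_injective _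
    Subtype.val_injective
  have h5 := card_le_of_coeff (k := k) (p := p) (N := ⊤) (P := S) (Q := P.subgroupOf (PG p K V))
    le_top le_top hP' hz hB hcP hBc
  have h6 : Nat.card (P.subgroupOf (PG p K V)) = Nat.card P :=
    Nat.card_congr (Subgroup.subgroupOfEquivOfLe hPG).toEquiv
  have h7 : Nat.card (S.map (PG p K V).subtype) = Nat.card S :=
    Subgroup.card_map_of_injective Subtype.val_injective
  refine (Subgroup.eq_of_le_of_card_ge hSP ?_).symm
  rw [h7, ← h6]
  exact h5

end

end Vale.Agent.P180.H951
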