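import Vale.Agent.P180.H951.OutG

/-! Outer diagonal actions on special linear groups: the bound for the quotients of the group of the
elements whose determinant is a `p`-element. -/

set_option linter.all false

namespace Vale.Agent.P180.H951

open Module Subgroup Vale.Agent.P180 Vale.Agent.P180.H768.Gd Vale.Agent.P180.R2.H471.Hc
  Vale.Agent.P180.R2.H799 Vale.Agent.P180.R2.H954
open Vale.Agent.P180.H19.Pidx (PrimStmt)

universe u

/-- the bound for outer diagonal actions -/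
noncomputable def outC (p n m : ℕ) : ℕ := (n * m ^ 2).factorial * glC p (n * m ^ 2)

section

variable {p : ℕ} [Fact p.Prime] {K V : Type} [Field K] [Finite K] [AddCommGroup V] [Module K V]

theorem card_units_le {A : Subgroup Kˣ} (hA : IsPGroup p A) {m : ℕ}
    (hm : ∀ j, p ^ j ∣ Nat.card K - 1 → p ^ j ≤ m) : Nat.card A ≤ m := by
  obtain ⟨j, hj⟩ := IsPGroup.iff_card.mp hA
  rw [hj]
  apply hm
  rw [← hj, ← Nat.card_units]
  exact Subgroup.card_subgroup_dvd_card A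

theorem card_scalar_le [Finite V] {T : Subgroup (V ≃ₗ[K] V)} (hT : IsPGroup p T)
    (h : ∀ x ∈ T, ∃ c : K, ∀ v, x v = c • v) {m : ℕ}
    (hm : ∀ j, p ^ j ∣ Nat.card K - 1 → p ^ j ≤ m) : Nat.card T ≤ m := by
  classical
  have hfin : Finite (V ≃ₗ[K] V) :=
    Finite.of_injective (fun g : V ≃ₗ[K] V => (g : V → V)) DFunLike.coe_injective
  haveI := isCyclic_of_scalar T h
  obtain ⟨g, hg⟩ := IsCyclic.exists_generator (α := T)
  obtain ⟨j, hj⟩ := IsPGroup.iff_card.mp hT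
  rw [hj]
  apply hm
  rw [← hj, ← orderOf_eq_card_of_forall_mem_zpowers hg]
  apply orderOf_dvd_of_pow_eq_one
  apply Subtype.ext
  apply LinearEquiv.ext
  intro v
  obtain ⟨c, hc⟩ := h g g.2
  have hpow : ∀ (j : ℕ) (w : V), ((g : V ≃ₗ[K] V) ^ j) w = c ^ j • w := by
    intro j
    induction j with
    | zero => intro w; rw [pow_zero, pow_zero, one_smul]; rfl
    | succ j ih =>
      intro w
      rw [pow_succ, pow_succ, LinearEquiv.mul_apply, ih, hc, smul_smul]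
  change ((g : V ≃ₗ[K] V) ^ (Nat.card K - 1)) v = v
  rw [hpow]
  by_cases hv : v = 0
  · rw [hv, smul_zero]
  have hc0 : c ≠ 0 := by
    rintro rfl
    have h1 := hc v
    rw [zero_smul] at h1
    exact hv ((map_eq_zero_iff _ (g : V ≃ₗ[K] V).injective).mp h1)
  have h2 : (Units.mk0 c hc0) ^ (Nat.card K - 1) = 1 := by
    rw [← Nat.card_units]
    exact pow_card_eq_one'
  have h3 : c ^ (Nat.card K - 1) = 1 := congrArg Units.val h2
  rw [h3, one_smul]

theorem card_PG_le [Finite V] [Finite (V ≃ₗ[K] V)] {H : Type} [Group H] [Finite H]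
    (q : PG p K V →* H) (hqs : ∀ x, q x = 1 → ∃ c : K, ∀ v, (x : V ≃ₗ[K] V) v = c • v)
    {S : Subgroup (PG p K V)} (hS : IsPGroup p S) {m n : ℕ}
    (hm : ∀ j, p ^ j ∣ Nat.card K - 1 → p ^ j ≤ m) {R : Subgroup H}
    (hR : ∀ x ∈ S, x ∈ SG p K V → q x ∈ R) (hRn : Nat.card R ≤ n) :
    Nat.card S ≤ n * m ^ 2 := by
  classical
  let f : S →* Kˣ :=
    ((LinearEquiv.det : (V ≃ₗ[K] V) →* Kˣ).comp (PG p K V).subtype).comp S.subtype
  let f2 : f.ker →* H := (q.comp S.subtype).comp f.ker.subtype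
  have h1 : Nat.card f.ker * Nat.card f.range = Nat.card S := by
    rw [← Subgroup.index_ker]
    exact Subgroup.card_mul_index _
  have h2 : Nat.card f2.ker * Nat.card f2.range = Nat.card f.ker := by
    rw [← Subgroup.index_ker]
    exact Subgroup.card_mul_index _
  have h3 : Nat.card f.range ≤ m := by
    refine card_units_le (p := p) ?_ hm
    exact hS.of_surjective f.rangeRestrict f.rangeRestrict_surjective
  have h4 : Nat.card f2.range ≤ n := by
    refine (Nat.card_le_card_of_injective (Subgroup.inclusion (?_ : f2.range ≤ R))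
      (Subgroup.inclusion_injective _)).trans hRn
    rintro _ ⟨x, rfl⟩
    exact hR x.1 x.1.2 x.2
  let ι : f.ker →* (V ≃ₗ[K] V) := ((PG p K V).subtype.comp S.subtype).comp f.ker.subtype
  have hι : Function.Injective ι := fun x y h => Subtype.ext (Subtype.ext (Subtype.ext h))
  have h5 : Nat.card f2.ker ≤ m := by
    rw [← Subgroup.card_map_of_injective (K := f2.ker) hι]
    refine card_scalar_le (p := p) ?_ ?_ hm
    · refine IsPGroup.map ?_ ι
      exact (hS.to_subgroup f.ker).to_subgroup f2.ker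
    · rintro _ ⟨x, hx, rfl⟩
      exact hqs _ hx
  rw [← h1, ← h2]
  calc Nat.card f2.ker * Nat.card f2.range * Nat.card f.range
      ≤ m * n * m := Nat.mul_le_mul (Nat.mul_le_mul h5 h4) h3
    _ = n * m ^ 2 := by ring

end

section

variable {k : Type u} [Field k] [IsAlgClosed k] {p : ℕ} [Fact p.Prime] [CharP k p]
  {K V : Type} [Field K] [Finite K] [AddCommGroup V] [Module K V] [Finite V]
  [Finite (V ≃ₗ[K] V)]

/-- **The bound for the quotients of `PG`.** -/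
theorem oneBd_PG (hpK : ¬ p ∣ Nat.card K)
    (hA : ∀ S : Subgroup (V ≃ₗ[K] V), IsPGroup p S → MaxIn p S →
      (∀ x ∈ S, ∀ y ∈ S, LinearMap.det (x : V →ₗ[K] V) = 1 →
        LinearMap.det (y : V →ₗ[K] V) = 1 → x * y = y * x ∨
          (5 ≤ p ∧ x * y * x⁻¹ * y⁻¹ ∈ Subgroup.center (V ≃ₗ[K] V))) →
      ∀ x ∈ S, ∀ y ∈ S, x * y = y * x)
    {m : ℕ} (hm : ∀ j, p ^ j ∣ Nat.card K - 1 → p ^ j ≤ m)
    {H : Type} [Group H] [Finite H] (q : PG p K V →* H) (hq : Function.Surjective q)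
    (hqs : ∀ x, q x = 1 → ∃ c : K, ∀ v, (x : V ≃ₗ[K] V) v = c • v)
    {Q' : Subgroup H} {n : ℕ} (hQn : Nat.card Q' ≤ n)
    (hab : ∀ x y : PG p K V, LinearEquiv.det (x : V ≃ₗ[K] V) = 1 →
      LinearEquiv.det (y : V ≃ₗ[K] V) = 1 → q x ∈ Q' → q y ∈ Q' →
      (x : V ≃ₗ[K] V) * y = y * x ∨
        (5 ≤ p ∧ (x : V ≃ₗ[K] V) * y * (x : V ≃ₗ[K] V)⁻¹ * (y : V ≃ₗ[K] V)⁻¹ ∈
          Subgroup.center (V ≃ₗ[K] V)))
    {S : Subgroup H} (hS : IsPGroup p S)
    (hSN : ∃ g, S ⊓ (SG p K V).map q = conjS g Q') : OneBd k S (outC p n m) := by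
  classical
  obtain ⟨g, hg⟩ := hSN
  obtain ⟨g, rfl⟩ := hq g
  have hqc : q.ker ≤ Subgroup.center (PG p K V) := by
    intro x hx
    obtain ⟨c, hc⟩ := hqs x hx
    rw [Subgroup.mem_center_iff]
    intro y
    apply Subtype.ext
    apply LinearEquiv.ext
    intro v
    change (y : V ≃ₗ[K] V) ((x : V ≃ₗ[K] V) v) = (x : V ≃ₗ[K] V) ((y : V ≃ₗ[K] V) v)
    rw [hc, hc, map_smul]
  refine BN.oneBd_central hq hqc hS fun S1 hS1 hmap => ?_
  intro e a he ha hea hbr
  have hmax : MaxIn p (S1.map (PG p K V).subtype) := maxIn_of_blockPG hS1 ha hea hbr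
  have hmem : ∀ x ∈ S1, LinearEquiv.det (x : V ≃ₗ[K] V) = 1 → q (g⁻¹ * x * g) ∈ Q' := by
    intro x hx hx1
    have h1 : q x ∈ S ⊓ (SG p K V).map q := by
      refine ⟨?_, ⟨x, hx1, rfl⟩⟩
      rw [← hmap]
      exact ⟨x, hx, rfl⟩
    rw [hg, mem_conjS] at h1
    rwa [map_mul, map_mul, map_inv]
  have hdet : ∀ x : PG p K V, LinearEquiv.det (x : V ≃ₗ[K] V) = 1 →
      LinearEquiv.det ((g⁻¹ * x * g : PG p K V) : V ≃ₗ[K] V) = 1 := by
    intro x hx
    rw [Subgroup.coe_mul, Subgroup.coe_mul, Subgroup.coe_inv, map_mul, map_mul, map_inv, hx,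
      mul_one, inv_mul_cancel]
  have hSab : ∀ x ∈ S1.map (PG p K V).subtype, ∀ y ∈ S1.map (PG p K V).subtype,
      x * y = y * x := by
    refine hA _ (hS1.map _) hmax ?_
    rintro _ ⟨x, hx, rfl⟩ _ ⟨y, hy, rfl⟩ hx1 hy1
    have hx2 : LinearEquiv.det (x : V ≃ₗ[K] V) = 1 :=
      Units.ext (by rw [LinearEquiv.coe_det, Units.val_one]; exact hx1)
    have hy2 : LinearEquiv.det (y : V ≃ₗ[K] V) = 1 :=
      Units.ext (by rw [LinearEquiv.coe_det, Units.val_one]; exact hy1)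
    have h1 := hab (g⁻¹ * x * g) (g⁻¹ * y * g) (hdet x hx2) (hdet y hy2) (hmem x hx hx2)
      (hmem y hy hy2)
    have ex : ((g⁻¹ * x * g : PG p K V) : V ≃ₗ[K] V) =
        (g : V ≃ₗ[K] V)⁻¹ * (x : V ≃ₗ[K] V) * (g : V ≃ₗ[K] V) := rfl
    have ey : ((g⁻¹ * y * g : PG p K V) : V ≃ₗ[K] V) =
        (g : V ≃ₗ[K] V)⁻¹ * (y : V ≃ₗ[K] V) * (g : V ≃ₗ[K] V) := rfl
    rw [ex, ey] at h1
    change (x : V ≃ₗ[K] V) * y = y * x ∨ (5 ≤ p ∧ (x : V ≃ₗ[K] V) * y *
      (x : V ≃ₗ[K] V)⁻¹ * (y : V ≃ₗ[K] V)⁻¹ ∈ Subgroup.center (V ≃ₗ[K] V))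
    generalize (g : V ≃ₗ[K] V) = g' at h1
    generalize (x : V ≃ₗ[K] V) = x' at h1 ⊢
    generalize (y : V ≃ₗ[K] V) = y' at h1 ⊢
    rcases h1 with h1 | ⟨h5, h1⟩
    · left
      have h2 : g'⁻¹ * (x' * y') * g' = g'⁻¹ * (y' * x') * g' := by
        calc g'⁻¹ * (x' * y') * g' = g'⁻¹ * x' * g' * (g'⁻¹ * y' * g') := by group
          _ = g'⁻¹ * y' * g' * (g'⁻¹ * x' * g') := h1
          _ = g'⁻¹ * (y' * x') * g' := by group
      exact mul_left_cancel (mul_right_cancel h2)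
    · right
      refine ⟨h5, ?_⟩
      have h2 := (Subgroup.Normal.conj_mem inferInstance _ h1 g' :
        g' * (g'⁻¹ * x' * g' * (g'⁻¹ * y' * g') * (g'⁻¹ * x' * g')⁻¹ * (g'⁻¹ * y' * g')⁻¹) *
          g'⁻¹ ∈ Subgroup.center (V ≃ₗ[K] V))
      have h3 : g' * (g'⁻¹ * x' * g' * (g'⁻¹ * y' * g') * (g'⁻¹ * x' * g')⁻¹ *
          (g'⁻¹ * y' * g')⁻¹) * g'⁻¹ = x' * y' * x'⁻¹ * y'⁻¹ := by group
      rwa [h3] at h2
  have hQc : Nat.card (conjS (q g) Q' : Subgroup H) ≤ n := by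
    refine le_trans (le_of_eq ?_) hQn
    refine Nat.card_congr ⟨fun x => ⟨(q g)⁻¹ * x * q g, mem_conjS.mp x.2⟩,
      fun x => ⟨q g * x * (q g)⁻¹, mem_conjS.mpr (by
        have h1 : (q g)⁻¹ * (q g * (x : H) * (q g)⁻¹) * q g = x := by group
        rw [h1]
        exact x.2)⟩, fun x => Subtype.ext (by
        change q g * ((q g)⁻¹ * (x : H) * q g) * (q g)⁻¹ = x
        group), fun x => Subtype.ext (by
        change (q g)⁻¹ * (q g * (x : H) * (q g)⁻¹) * q g = x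
        group)⟩
  have hcard : Nat.card S1 ≤ n * m ^ 2 := by
    refine card_PG_le q hqs hS1 hm (R := conjS (q g) Q') ?_ hQc
    intro x hx hx1
    have h1 := hmem x hx hx1
    rw [mem_conjS]
    rwa [map_mul, map_mul, map_inv] at h1
  haveI : IsCyclic ((V ≃ₗ[K] V) ⧸ PG p K V) := isCyclic_GP
  have hcard' : Nat.card (S1.map (PG p K V).subtype) ≤ n * m ^ 2 := by
    rw [Subgroup.card_map_of_injective Subtype.val_injective]
    exact hcard
  obtain ⟨i, h1, h2, h3, h4, h5⟩ := H396.oneBd_normal (k := k) (p := p) (S := PG p K V)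
    not_dvd_index hS1 (oneBd_glb hpK (hS1.map _) hcard' hSab) e a he ha hea hbr
  refine ⟨i, h1, h2, h3, h4, h5.trans ?_⟩
  refine (Nat.mul_le_mul_right _ (Nat.factorial_le hcard)).trans ?_
  exact Nat.le_mul_of_pos_left _ Nat.card_pos

theorem isPGroup_mapSG {H : Type} [Group H] (q : PG p K V →* H) (hq : Function.Surjective q)
    [((SG p K V).map q).Normal] : IsPGroup p (H ⧸ (SG p K V).map q) :=
  isPGroup_PS.of_surjective (QuotientGroup.map (SG p K V) ((SG p K V).map q) q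
    (Subgroup.le_comap_map _ _)) (by
      intro x
      obtain ⟨y, rfl⟩ := QuotientGroup.mk_surjective x
      obtain ⟨z, rfl⟩ := hq y
      exact ⟨(z : PG p K V ⧸ SG p K V), rfl⟩)

theorem isCyclic_mapSG {H : Type} [Group H] (q : PG p K V →* H) (hq : Function.Surjective q)
    [((SG p K V).map q).Normal] : IsCyclic (H ⧸ (SG p K V).map q) := by
  haveI : IsCyclic (PG p K V ⧸ SG p K V) := isCyclic_PS
  exact isCyclic_of_surjective (QuotientGroup.map (SG p K V) ((SG p K V).map q) q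
    (Subgroup.le_comap_map _ _)) (by
      intro x
      obtain ⟨y, rfl⟩ := QuotientGroup.mk_surjective x
      obtain ⟨z, rfl⟩ := hq y
      exact ⟨(z : PG p K V ⧸ SG p K V), rfl⟩)

end

end Vale.Agent.P180.H951
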