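import Vale.Agent.P180.H951.OutI
import Vale.Agent.P180.H574.LemDC

/-! Outer diagonal actions on special linear groups, with a general condition on the commutators. -/

set_option linter.all false

namespace Vale.Agent.P180.H951

open Module Subgroup Vale.Agent.P180 Vale.Agent.P180.H768.Gd Vale.Agent.P180.R2.H471.Hc
  Vale.Agent.P180.R2.H799 Vale.Agent.P180.R2.H954

universe u

/-- the bound for outer diagonal actions -/
noncomputable def outE (p n m : ℕ) : ℕ := ((n * m) ^ 2).factorial * glC p ((n * m) ^ 2)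

section

variable {p : ℕ} [Fact p.Prime] {K V : Type} [Field K] [Finite K] [AddCommGroup V] [Module K V]

theorem card_scalar_le' [Finite V] {T : Subgroup (V ≃ₗ[K] V)} (hT : IsPGroup p T)
    (h : ∀ x ∈ T, (∃ c : K, ∀ v, x v = c • v) ∧ LinearEquiv.det x = 1) {m : ℕ}
    (hm : ∀ j, p ^ j ∣ Module.finrank K V → p ^ j ∣ Nat.card K - 1 → p ^ j ≤ m) :
    Nat.card T ≤ m := by
  classical
  have hfin : Finite (V ≃ₗ[K] V) :=
    Finite.of_injective (fun g : V ≃ₗ[K] V => (g : V → V)) DFunLike.coe_injective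
  haveI : FiniteDimensional K V := Module.Finite.of_finite
  haveI := isCyclic_of_scalar T fun x hx => (h x hx).1
  obtain ⟨g, hg⟩ := IsCyclic.exists_generator (α := T)
  obtain ⟨j, hj⟩ := IsPGroup.iff_card.mp hT
  obtain ⟨c, hc⟩ := (h g g.2).1
  have hdet := (h g g.2).2
  have hpow : ∀ (j : ℕ) (w : V), ((g : V ≃ₗ[K] V) ^ j) w = c ^ j • w := by
    intro j
    induction j with
    | zero => intro w; rw [pow_zero, pow_zero, one_smul]; rfl
    | succ j ih =>
      intro w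
      rw [pow_succ, pow_succ, LinearEquiv.mul_apply, ih, hc, smul_smul]
  rw [hj]
  apply hm
  · rw [← hj, ← orderOf_eq_card_of_forall_mem_zpowers hg]
    apply orderOf_dvd_of_pow_eq_one
    apply Subtype.ext
    apply LinearEquiv.ext
    intro v
    change ((g : V ≃ₗ[K] V) ^ (Module.finrank K V)) v = v
    rw [hpow]
    have h1 : (((g : V ≃ₗ[K] V)) : V →ₗ[K] V) = c • LinearMap.id := by
      apply LinearMap.ext
      intro w
      exact hc w
    have h2 : LinearMap.det (((g : V ≃ₗ[K] V)) : V →ₗ[K] V) = 1 := by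
      rw [← LinearEquiv.coe_det, hdet, Units.val_one]
    rw [h1, LinearMap.det_smul, LinearMap.det_id, mul_one] at h2
    rw [h2, one_smul]
  · rw [← hj, ← orderOf_eq_card_of_forall_mem_zpowers hg]
    apply orderOf_dvd_of_pow_eq_one
    apply Subtype.ext
    apply LinearEquiv.ext
    intro v
    change ((g : V ≃ₗ[K] V) ^ (Nat.card K - 1)) v = v
    rw [hpow]
    by_cases hv : v = 0
    · rw [hv, smul_zero]
    have hc0 : c ≠ 0 := by
      rintro rfl
      have h1 := hc v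
      rw [zero_smul] at h1
      exact hv ((map_eq_zero_iff _ (g : V ≃ₗ[K] V).injective).mp h1)
    have h2 : (Units.mk0 c hc0) ^ (Nat.card K - 1) = 1 := by
      rw [← Nat.card_units]
      exact pow_card_eq_one'
    have h3 : c ^ (Nat.card K - 1) = 1 := congrArg Units.val h2
    rw [h3, one_smul]

theorem card_inf_le [Finite V] [Finite (V ≃ₗ[K] V)] {H : Type} [Group H] [Finite H]
    (q : PG p K V →* H)
    (hqs : ∀ x, q x = 1 → (∃ c : K, ∀ v, (x : V ≃ₗ[K] V) v = c • v) ∧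
      LinearEquiv.det (x : V ≃ₗ[K] V) = 1)
    {S : Subgroup (PG p K V)} (hS : IsPGroup p S) {m n : ℕ}
    (hm : ∀ j, p ^ j ∣ Module.finrank K V → p ^ j ∣ Nat.card K - 1 → p ^ j ≤ m)
    {R : Subgroup H} (hR : ∀ x ∈ S, x ∈ SG p K V → q x ∈ R) (hRn : Nat.card R ≤ n) :
    Nat.card (S ⊓ SG p K V : Subgroup (PG p K V)) ≤ n * m := by
  classical
  let f : (S ⊓ SG p K V : Subgroup (PG p K V)) →* H :=
    q.comp (S ⊓ SG p K V : Subgroup (PG p K V)).subtype
  have h1 : Nat.card f.ker * Nat.card f.range =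
      Nat.card (S ⊓ SG p K V : Subgroup (PG p K V)) := by
    rw [← Subgroup.index_ker]
    exact Subgroup.card_mul_index _
  have h4 : Nat.card f.range ≤ n := by
    refine (Nat.card_le_card_of_injective (Subgroup.inclusion (?_ : f.range ≤ R))
      (Subgroup.inclusion_injective _)).trans hRn
    rintro _ ⟨x, rfl⟩
    exact hR x.1 x.2.1 x.2.2
  let ι : (S ⊓ SG p K V : Subgroup (PG p K V)) →* (V ≃ₗ[K] V) :=
    (PG p K V).subtype.comp (S ⊓ SG p K V : Subgroup (PG p K V)).subtype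
  have hι : Function.Injective ι := fun x y h => Subtype.ext (Subtype.ext h)
  have h5 : Nat.card f.ker ≤ m := by
    rw [← Subgroup.card_map_of_injective (K := f.ker) hι]
    refine card_scalar_le' (p := p) ?_ ?_ hm
    · refine IsPGroup.map ?_ ι
      exact (hS.to_le inf_le_left : IsPGroup p (S ⊓ SG p K V : Subgroup (PG p K V))).to_subgroup
        f.ker
    · rintro _ ⟨x, hx, rfl⟩
      exact hqs _ hx
  rw [← h1, mul_comm n m]
  exact Nat.mul_le_mul h5 h4

theorem card_le_inf_mul [Finite (V ≃ₗ[K] V)] {S : Subgroup (PG p K V)} (hS : IsPGroup p S) {m : ℕ}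
    (hm : ∀ j, p ^ j ∣ Nat.card K - 1 → p ^ j ≤ m) :
    Nat.card S ≤ Nat.card (S ⊓ SG p K V : Subgroup (PG p K V)) * m := by
  classical
  let f : S →* Kˣ :=
    ((LinearEquiv.det : (V ≃ₗ[K] V) →* Kˣ).comp (PG p K V).subtype).comp S.subtype
  have h1 : Nat.card f.ker * Nat.card f.range = Nat.card S := by
    rw [← Subgroup.index_ker]
    exact Subgroup.card_mul_index _
  have h3 : Nat.card f.range ≤ m := by
    refine card_units_le (p := p) ?_ hm
    exact hS.of_surjective f.rangeRestrict f.rangeRestrict_surjective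
  have h2 : Nat.card f.ker ≤ Nat.card (S ⊓ SG p K V : Subgroup (PG p K V)) := by
    refine Nat.card_le_card_of_injective
      (fun x : f.ker => (⟨((x : S) : PG p K V), (x : S).2, x.2⟩ :
        (S ⊓ SG p K V : Subgroup (PG p K V)))) ?_
    intro x y h
    exact Subtype.ext (Subtype.ext (congrArg (fun z : (S ⊓ SG p K V : Subgroup (PG p K V)) =>
      (z : PG p K V)) h))
  rw [← h1]
  exact Nat.mul_le_mul h2 h3

end

section

variable {k : Type u} [Field k] [IsAlgClosed k] {p : ℕ} [Fact p.Prime] [CharP k p]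
  {K V : Type} [Field K] [Finite K] [AddCommGroup V] [Module K V] [Finite V]
  [Finite (V ≃ₗ[K] V)]

/-- **The bound for the quotients of `PG`**, general condition `W`. -/
theorem oneBd_PGW (hpK : ¬ p ∣ Nat.card K) {W : (V ≃ₗ[K] V) → (V ≃ₗ[K] V) → Prop}
    (hW : ∀ g x y, W x y → W (g * x * g⁻¹) (g * y * g⁻¹))
    (hA : ∀ S : Subgroup (V ≃ₗ[K] V), IsPGroup p S → MaxIn p S →
      (∀ x ∈ S, ∀ y ∈ S, LinearMap.det (x : V →ₗ[K] V) = 1 →
        LinearMap.det (y : V →ₗ[K] V) = 1 → W x y) → ∀ x ∈ S, ∀ y ∈ S, x * y = y * x)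
    {m : ℕ} (hm : ∀ j, p ^ j ∣ Module.finrank K V → p ^ j ∣ Nat.card K - 1 → p ^ j ≤ m)
    {H : Type} [Group H] [Finite H] (q : PG p K V →* H) (hq : Function.Surjective q)
    (hqs : ∀ x, q x = 1 → (∃ c : K, ∀ v, (x : V ≃ₗ[K] V) v = c • v) ∧
      LinearEquiv.det (x : V ≃ₗ[K] V) = 1)
    {Q' : Subgroup H} {n : ℕ} (hQn : Nat.card Q' ≤ n)
    (hcase : (∀ j, p ^ j ∣ Nat.card K - 1 → p ^ j ≤ m) ∨ ∃ x : PG p K V,
      LinearEquiv.det (x : V ≃ₗ[K] V) = 1 ∧ q x ∈ Q' ∧ ¬ ∃ c : K, ∀ v, (x : V ≃ₗ[K] V) v = c • v)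
    (hab : ∀ x y : PG p K V, LinearEquiv.det (x : V ≃ₗ[K] V) = 1 →
      LinearEquiv.det (y : V ≃ₗ[K] V) = 1 → q x ∈ Q' → q y ∈ Q' → W x y)
    {S : Subgroup H} (hS : IsPGroup p S)
    (hSN : ∃ g, S ⊓ (SG p K V).map q = conjS g Q') : OneBd k S (outE p n m) := by
  classical
  obtain ⟨g, hg⟩ := hSN
  obtain ⟨g, rfl⟩ := hq g
  have hqc : q.ker ≤ Subgroup.center (PG p K V) := by
    intro x hx
    obtain ⟨⟨c, hc⟩, -⟩ := hqs x hx
    rw [Subgroup.mem_center_iff]
    intro y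
    apply Subtype.ext
    apply LinearEquiv.ext
    intro v
    change (y : V ≃ₗ[K] V) ((x : V ≃ₗ[K] V) v) = (x : V ≃ₗ[K] V) ((y : V ≃ₗ[K] V) v)
    rw [hc, hc, map_smul]
  refine BN.oneBd_central hq hqc hS fun S1 hS1 hmap => ?_
  intro e a he ha hea hbr
  have hmax : MaxIn p (S1.map (PG p K V).subtype) := maxIn_of_blockPG hS1 ha hea hbr
  have hmem : ∀ x ∈ S1, LinearEquiv.det (x : V ≃ₗ[K] V) = 1 → q (g⁻¹ * x * g) ∈ Q' := by
    intro x hx hx1
    have h1 : q x ∈ S ⊓ (SG p K V).map q := by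
      refine ⟨?_, ⟨x, hx1, rfl⟩⟩
      rw [← hmap]
      exact ⟨x, hx, rfl⟩
    rw [hg, mem_conjS] at h1
    rwa [map_mul, map_mul, map_inv]
  have hdet : ∀ x : PG p K V, LinearEquiv.det (x : V ≃ₗ[K] V) = 1 →
      LinearEquiv.det ((g⁻¹ * x * g : PG p K V) : V ≃ₗ[K] V) = 1 := by
    intro x hx
    rw [Subgroup.coe_mul, Subgroup.coe_mul, Subgroup.coe_inv, map_mul, map_mul, map_inv, hx,
      mul_one, inv_mul_cancel]
  have hSab : ∀ x ∈ S1.map (PG p K V).subtype, ∀ y ∈ S1.map (PG p K V).subtype,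
      x * y = y * x := by
    refine hA _ (hS1.map _) hmax ?_
    rintro _ ⟨x, hx, rfl⟩ _ ⟨y, hy, rfl⟩ hx1 hy1
    have hx2 : LinearEquiv.det (x : V ≃ₗ[K] V) = 1 :=
      Units.ext (by rw [LinearEquiv.coe_det, Units.val_one]; exact hx1)
    have hy2 : LinearEquiv.det (y : V ≃ₗ[K] V) = 1 :=
      Units.ext (by rw [LinearEquiv.coe_det, Units.val_one]; exact hy1)
    have h1 := hW (g : V ≃ₗ[K] V) _ _ (hab (g⁻¹ * x * g) (g⁻¹ * y * g) (hdet x hx2) (hdet y hy2)
      (hmem x hx hx2) (hmem y hy hy2))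
    have ex : (g : V ≃ₗ[K] V) * ((g⁻¹ * x * g : PG p K V) : V ≃ₗ[K] V) * (g : V ≃ₗ[K] V)⁻¹ =
        (x : V ≃ₗ[K] V) := by
      change (g : V ≃ₗ[K] V) * ((g : V ≃ₗ[K] V)⁻¹ * (x : V ≃ₗ[K] V) * (g : V ≃ₗ[K] V)) *
        (g : V ≃ₗ[K] V)⁻¹ = (x : V ≃ₗ[K] V)
      group
    have ey : (g : V ≃ₗ[K] V) * ((g⁻¹ * y * g : PG p K V) : V ≃ₗ[K] V) * (g : V ≃ₗ[K] V)⁻¹ =
        (y : V ≃ₗ[K] V) := by
      change (g : V ≃ₗ[K] V) * ((g : V ≃ₗ[K] V)⁻¹ * (y : V ≃ₗ[K] V) * (g : V ≃ₗ[K] V)) *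
        (g : V ≃ₗ[K] V)⁻¹ = (y : V ≃ₗ[K] V)
      group
    rw [ex, ey] at h1
    exact h1
  have hQc : Nat.card (conjS (q g) Q' : Subgroup H) ≤ n := by
    refine le_trans (le_of_eq ?_) hQn
    refine Nat.card_congr ⟨fun x => ⟨(q g)⁻¹ * x * q g, mem_conjS.mp x.2⟩,
      fun x => ⟨q g * x * (q g)⁻¹, mem_conjS.mpr (by
        have h1 : (q g)⁻¹ * (q g * (x : H) * (q g)⁻¹) * q g = x := by group
        rw [h1]
        exact x.2)⟩, fun x => Subtype.ext (by
        change q g * ((q g)⁻¹ * (x : H) * q g) * (q g)⁻¹ = x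
        group), fun x => Subtype.ext (by
        change (q g)⁻¹ * (q g * (x : H) * (q g)⁻¹) * q g = x
        group)⟩
  have hinf : Nat.card (S1 ⊓ SG p K V : Subgroup (PG p K V)) ≤ n * m := by
    refine card_inf_le q hqs hS1 hm (R := conjS (q g) Q') ?_ hQc
    intro x hx hx1
    have h1 := hmem x hx hx1
    rw [mem_conjS]
    rwa [map_mul, map_mul, map_inv] at h1
  have hn : 1 ≤ n := Nat.card_pos.trans_le hQn
  have hcard : Nat.card S1 ≤ (n * m) ^ 2 := by
    rcases hcase with h1 | ⟨x, hx1, hx2, hx3⟩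
    · refine (card_le_inf_mul hS1 h1).trans ((Nat.mul_le_mul_right m hinf).trans ?_)
      rw [pow_two]
      exact Nat.mul_le_mul_left _ (Nat.le_mul_of_pos_left m hn)
    · -- a noncentral element of determinant one
      have h2 : q (g * x * g⁻¹) ∈ S := by
        have h3 : q (g * x * g⁻¹) ∈ S ⊓ (SG p K V).map q := by
          rw [hg, mem_conjS, map_mul, map_mul, map_inv]
          have h4 : (q g)⁻¹ * (q g * q x * (q g)⁻¹) * q g = q x := by group
          rw [h4]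
          exact hx2
        exact h3.1
      rw [← hmap] at h2
      obtain ⟨t, ht, htx⟩ := h2
      obtain ⟨⟨c, hc⟩, hz⟩ := hqs ((g * x * g⁻¹)⁻¹ * t) (by
        rw [map_mul, map_inv, htx, inv_mul_cancel])
      have ht1 : LinearEquiv.det (t : V ≃ₗ[K] V) = 1 := by
        rw [Subgroup.coe_mul, map_mul, Subgroup.coe_inv, map_inv, Subgroup.coe_mul,
          Subgroup.coe_mul, map_mul, map_mul, hx1, Subgroup.coe_inv, map_inv, mul_one,
          mul_inv_cancel, inv_one, one_mul] at hz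
        exact hz
      have h5 : Nat.card (S1.map (PG p K V).subtype) ≤ Nat.card
          (S1.map (PG p K V).subtype ⊓ (LinearEquiv.det : (V ≃ₗ[K] V) →* Kˣ).ker :
            Subgroup (V ≃ₗ[K] V)) ^ 2 := by
        refine H354.NumS.card_le_sq _ (hS1.map _) hpK hSab hmax ⟨t, ⟨t, ht, rfl⟩, ht1, ?_⟩
        rintro ⟨d, hd⟩
        apply hx3
        -- `x` is a scalar
        have hc0 : ∀ v : V, v ≠ 0 → c ≠ 0 := by
          rintro v hv rfl
          have h6 := hc v
          rw [zero_smul] at h6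
          exact hv ((map_eq_zero_iff _ (((g * x * g⁻¹)⁻¹ * t : PG p K V) :
            V ≃ₗ[K] V).injective).mp h6)
        refine ⟨d * c⁻¹, fun v => ?_⟩
        by_cases hv : v = 0
        · rw [hv, map_zero, smul_zero]
        have hc1 := hc0 v hv
        have h7 : ∀ w : V, (t : V ≃ₗ[K] V) w = c • ((g : V ≃ₗ[K] V) ((x : V ≃ₗ[K] V)
            ((g : V ≃ₗ[K] V).symm w))) := by
          intro w
          have h8 : (t : V ≃ₗ[K] V) = ((g * x * g⁻¹ : PG p K V) : V ≃ₗ[K] V) *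
              (((g * x * g⁻¹)⁻¹ * t : PG p K V) : V ≃ₗ[K] V) := by
            rw [← Subgroup.coe_mul, mul_inv_cancel_left]
          rw [h8, LinearEquiv.mul_apply, hc, map_smul]
          rfl
        have h9 := h7 ((g : V ≃ₗ[K] V) v)
        rw [LinearEquiv.symm_apply_apply] at h9
        have h10 : (t : V ≃ₗ[K] V) ((g : V ≃ₗ[K] V) v) = d • (g : V ≃ₗ[K] V) v := hd _
        rw [h10] at h9
        apply (g : V ≃ₗ[K] V).injective
        rw [map_smul, mul_comm, mul_smul, h9, smul_smul, inv_mul_cancel₀ hc1, one_smul]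
      have h6 : Nat.card (S1.map (PG p K V).subtype) = Nat.card S1 :=
        Subgroup.card_map_of_injective Subtype.val_injective
      rw [← h6]
      refine h5.trans (Nat.pow_le_pow_left (le_trans ?_ hinf) 2)
      have h7 : Nat.card ((S1 ⊓ SG p K V : Subgroup (PG p K V)).map (PG p K V).subtype) =
          Nat.card (S1 ⊓ SG p K V : Subgroup (PG p K V)) :=
        Subgroup.card_map_of_injective Subtype.val_injective
      rw [← h7]
      refine Nat.card_le_card_of_injective (Subgroup.inclusion ?_) (Subgroup.inclusion_injective _)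
      rintro _ ⟨⟨y, hy, rfl⟩, hy1⟩
      exact ⟨y, ⟨hy, hy1⟩, rfl⟩
  haveI : IsCyclic ((V ≃ₗ[K] V) ⧸ PG p K V) := isCyclic_GP
  have hcard' : Nat.card (S1.map (PG p K V).subtype) ≤ (n * m) ^ 2 := by
    rw [Subgroup.card_map_of_injective Subtype.val_injective]
    exact hcard
  obtain ⟨i, h1, h2, h3, h4, h5⟩ := H396.oneBd_normal (k := k) (p := p) (S := PG p K V)
    not_dvd_index hS1 (oneBd_glb hpK (hS1.map _) hcard' hSab) e a he ha hea hbr
  refine ⟨i, h1, h2, h3, h4, h5.trans ?_⟩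
  refine (Nat.mul_le_mul_right _ (Nat.factorial_le hcard)).trans ?_
  exact Nat.le_mul_of_pos_left _ Nat.card_pos

end

end Vale.Agent.P180.H951
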