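import Vale.Agent.P180.H951.OutJ
import Vale.Agent.P180.H568.OutL

/-! Outer diagonal actions on special linear groups, with the Engel condition. -/

set_option linter.all false

namespace Vale.Agent.P180.H951

open Module Subgroup Vale.Agent.P180 Vale.Agent.P180.H768.Gd Vale.Agent.P180.R2.H471.Hc
  Vale.Agent.P180.R2.H799 Vale.Agent.P180.R2.H954

universe u

section

variable {p : ℕ} {K V : Type} [Field K] [AddCommGroup V] [Module K V]

theorem mem_PG_of_det {g : V ≃ₗ[K] V} (h : LinearEquiv.det g = 1) : g ∈ PG p K V := by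
  rw [mem_PG, h, one_pow]

theorem mem_PG_of_pow [Fact p.Prime] [Finite K] {g : V ≃ₗ[K] V} (h : ∃ b, g ^ p ^ b = 1) :
    g ∈ PG p K V := by
  obtain ⟨b, hb⟩ := h
  have h1 : IsPGroup p (Subgroup.zpowers g) := by
    rintro ⟨x, hx⟩
    obtain ⟨i, rfl⟩ := Subgroup.mem_zpowers_iff.mp hx
    refine ⟨b, Subtype.ext ?_⟩
    change (g ^ i) ^ p ^ b = 1
    rw [← zpow_natCast, ← zpow_mul, mul_comm, zpow_mul, zpow_natCast, hb, one_zpow]
  exact le_PG h1 (Subgroup.mem_zpowers g)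

theorem range_jW_PG {hW : ∀ g : V ≃ₗ[K] V, LinearEquiv.det g = 1 → g ∈ PG p K V} :
    (H568.Out.jW (PG p K V) hW).range = SG p K V := by
  ext x
  constructor
  · rintro ⟨y, rfl⟩
    exact y.2
  · intro hx
    exact H568.Out.mem_range_jW hx

/-- a central element of determinant one is a scalar -/
theorem scalar_of_centerPG [Module.Finite K V] {y : PG p K V} (hy : y ∈ Subgroup.center (PG p K V))
    (hd : LinearEquiv.det (y : V ≃ₗ[K] V) = 1) : ∃ c : K, ∀ v, (y : V ≃ₗ[K] V) v = c • v := by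
  have h1 : y ∈ (jP p K V).range := by
    rw [range_jP]
    exact hd
  obtain ⟨z, rfl⟩ := h1
  refine scalar_of_center (x := z) ?_
  rw [Subgroup.mem_center_iff] at hy ⊢
  intro w
  apply jP_injective p
  rw [map_mul, map_mul]
  exact hy _

end

section

variable {k : Type u} [Field k] [IsAlgClosed k] {p : ℕ} [Fact p.Prime] [CharP k p]
  {K V : Type} [Field K] [Finite K] [AddCommGroup V] [Module K V] [Finite V]
  [Finite (V ≃ₗ[K] V)]

/-- **(F2) Outer diagonal actions**: general form. -/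
theorem outBd_glE' (h2 : p ≠ 2) (hpK : ¬ p ∣ Nat.card K) {m n : ℕ}
    (hm : ∀ j, p ^ j ∣ Module.finrank K V → p ^ j ∣ Nat.card K - 1 → p ^ j ≤ m)
    (Y : Subgroup (PG p K V)) [Y.Normal] (hYc : Y ≤ Subgroup.center (PG p K V))
    (hYd : ∀ y ∈ Y, LinearEquiv.det ((y : PG p K V) : V ≃ₗ[K] V) = 1)
    (P Q : Subgroup (PG p K V ⧸ Y)) (hP : IsPGroup p P) (hQ : IsPGroup p Q)
    (hQN : Q ≤ (SG p K V).map (QuotientGroup.mk' Y)) (hQn : Nat.card Q ≤ n)
    (hcase : (∀ j, p ^ j ∣ Nat.card K - 1 → p ^ j ≤ m) ∨ ∃ x : PG p K V,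
      LinearEquiv.det (x : V ≃ₗ[K] V) = 1 ∧ (QuotientGroup.mk x : PG p K V ⧸ Y) ∈ Q ∧
        ¬ ∃ c : K, ∀ v, (x : V ≃ₗ[K] V) v = c • v)
    (hab : ∀ x y : PG p K V, LinearEquiv.det (x : V ≃ₗ[K] V) = 1 →
      LinearEquiv.det (y : V ≃ₗ[K] V) = 1 → (QuotientGroup.mk x : PG p K V ⧸ Y) ∈ Q →
      (QuotientGroup.mk y : PG p K V ⧸ Y) ∈ Q → (fun t => x * t * x⁻¹ * t⁻¹)^[p - 2] y = 1) :
    H393.OutBd k ((SG p K V).map (QuotientGroup.mk' Y)) P Q (outE p n m) := by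
  haveI : FiniteDimensional K V := Module.Finite.of_finite
  have hq : Function.Surjective (QuotientGroup.mk' Y) := QuotientGroup.mk'_surjective Y
  haveI : ((SG p K V).map (QuotientGroup.mk' Y)).Normal :=
    Subgroup.Normal.map inferInstance _ hq
  have hc := isCyclic_mapSG (QuotientGroup.mk' Y) hq
  have hN := isPGroup_mapSG (QuotientGroup.mk' Y) hq
  refine H19.Pidx.outBd_pidx hc hN (primStmt_cyc _ hc hN) hP hQ hQN
    fun S B z hS _ hSN _ _ _ _ => ?_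
  refine oneBd_PGW (p := p) hpK
    (W := fun x y : V ≃ₗ[K] V => (fun t => x * t * x⁻¹ * t⁻¹)^[p - 2] y = 1) ?_
    (fun S hS hmax hT => H574.rowE h2 hpK S hS hmax hT) hm (QuotientGroup.mk' Y) hq ?_ hQn hcase
    ?_ hS hSN
  · intro g x y hxy
    have h1 := H574.cm_map (MulAut.conj g).toMonoidHom x y (p - 2)
    have h3 : (H574.cm x)^[p - 2] y = 1 := hxy
    rw [h3, map_one] at h1
    exact h1.symm
  · intro x hx
    have hx1 : x ∈ Y := (QuotientGroup.eq_one_iff x).mp hx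
    exact ⟨scalar_of_centerPG (hYc hx1) (hYd x hx1), hYd x hx1⟩
  · intro x y hx hy hqx hqy
    have h1 := H574.cm_map (PG p K V).subtype x y (p - 2)
    have h3 : (H574.cm x)^[p - 2] y = 1 := hab x y hx hy hqx hqy
    rw [h3, map_one] at h1
    exact h1.symm

/-- **(F2) Outer diagonal actions**, in the form which `corP_outGl` asks. -/
theorem outBd_glE (h2 : p ≠ 2) (hpK : ¬ p ∣ Nat.card K) {m n : ℕ}
    (hm : ∀ j, p ^ j ∣ Nat.card K - 1 → p ^ j ≤ m)
    {hW : ∀ g : V ≃ₗ[K] V, LinearEquiv.det g = 1 → g ∈ PG p K V}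
    (Y : Subgroup (PG p K V)) [Y.Normal] (hYc : Y ≤ Subgroup.center (PG p K V))
    (hYd : ∀ y ∈ Y, LinearEquiv.det ((y : PG p K V) : V ≃ₗ[K] V) = 1)
    (P Q : Subgroup (PG p K V ⧸ Y)) (hP : IsPGroup p P) (hQ : IsPGroup p Q)
    (hQN : Q ≤ ((H568.Out.jW (PG p K V) hW).range).map (QuotientGroup.mk' Y))
    (hQn : Nat.card Q ≤ n)
    (hab : ∀ x y : PG p K V, LinearEquiv.det (x : V ≃ₗ[K] V) = 1 →
      LinearEquiv.det (y : V ≃ₗ[K] V) = 1 → (QuotientGroup.mk x : PG p K V ⧸ Y) ∈ Q →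
      (QuotientGroup.mk y : PG p K V ⧸ Y) ∈ Q → (fun t => x * t * x⁻¹ * t⁻¹)^[p - 2] y = 1) :
    H393.OutBd k (((H568.Out.jW (PG p K V) hW).range).map (QuotientGroup.mk' Y)) P Q
      (outE p n m) := by
  rw [range_jW_PG] at hQN ⊢
  exact outBd_glE' h2 hpK (fun j _ h => hm j h) Y hYc hYd P Q hP hQ hQN hQn (Or.inl hm) hab

end

end Vale.Agent.P180.H951
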