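import Vale.Agent.P180.H951.OutK
import Vale.Agent.P180.H574.RowU

/-! Outer diagonal actions on special linear groups, all primes, noncentral defect groups. -/

set_option linter.all false

namespace Vale.Agent.P180.H951

open Module Subgroup Vale.Agent.P180 Vale.Agent.P180.H768.Gd Vale.Agent.P180.R2.H471.Hc
  Vale.Agent.P180.R2.H799 Vale.Agent.P180.R2.H954

universe u

variable {k : Type u} [Field k] [IsAlgClosed k] {p : ℕ} [Fact p.Prime] [CharP k p]
  {K V : Type} [Field K] [Finite K] [AddCommGroup V] [Module K V] [Finite V]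
  [Finite (V ≃ₗ[K] V)]

/-- a special linear map which is a scalar is central -/
theorem center_of_scalar {K V : Type} [Field K] [AddCommGroup V] [Module K V]
    {x : SpecialLinearGroup K V} (h : ∃ c : K, ∀ v, (SpecialLinearGroup.toLinearEquiv x) v = c • v) :
    x ∈ Subgroup.center (SpecialLinearGroup K V) := by
  obtain ⟨c, hc⟩ := h
  rw [Subgroup.mem_center_iff]
  intro y
  apply SpecialLinearGroup.toLinearEquiv_injective
  rw [map_mul, map_mul]
  apply LinearEquiv.ext
  intro v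
  change (SpecialLinearGroup.toLinearEquiv y) ((SpecialLinearGroup.toLinearEquiv x) v) =
    (SpecialLinearGroup.toLinearEquiv x) ((SpecialLinearGroup.toLinearEquiv y) v)
  rw [hc, hc, map_smul]

/-- **(F2) Outer diagonal actions**, all primes, in the form which `corP_outGlD` asks. -/
theorem outBd_glU (hpK : ¬ p ∣ Nat.card K) {m n : ℕ}
    (hm : ∀ j, p ^ j ∣ Module.finrank K V → p ^ j ∣ Nat.card K - 1 → p ^ j ≤ m)
    {hW : ∀ g : V ≃ₗ[K] V, LinearEquiv.det g = 1 → g ∈ PG p K V}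
    (Y : Subgroup (PG p K V)) [Y.Normal] (hYc : Y ≤ Subgroup.center (PG p K V))
    (hYd : ∀ y ∈ Y, LinearEquiv.det ((y : PG p K V) : V ≃ₗ[K] V) = 1)
    (P Q : Subgroup (PG p K V ⧸ Y)) (hP : IsPGroup p P) (hQ : IsPGroup p Q)
    (hQN : Q ≤ ((H568.Out.jW (PG p K V) hW).range).map (QuotientGroup.mk' Y))
    (hQn : Nat.card Q ≤ n)
    (hab : ∀ x y : PG p K V, LinearEquiv.det (x : V ≃ₗ[K] V) = 1 →
      LinearEquiv.det (y : V ≃ₗ[K] V) = 1 → (QuotientGroup.mk x : PG p K V ⧸ Y) ∈ Q →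
      (QuotientGroup.mk y : PG p K V ⧸ Y) ∈ Q →
      (fun t => x * t * x⁻¹ * t⁻¹)^[max 1 (p - 2)] y = 1)
    (hnc : ∃ x : SpecialLinearGroup K V,
      (QuotientGroup.mk (H568.Out.jW (PG p K V) hW x) : PG p K V ⧸ Y) ∈ Q ∧
        x ∉ Subgroup.center (SpecialLinearGroup K V)) :
    H393.OutBd k (((H568.Out.jW (PG p K V) hW).range).map (QuotientGroup.mk' Y)) P Q
      (outE p n m) := by
  haveI : FiniteDimensional K V := Module.Finite.of_finite
  rw [range_jW_PG] at hQN ⊢
  have hq : Function.Surjective (QuotientGroup.mk' Y) := QuotientGroup.mk'_surjective Y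
  haveI : ((SG p K V).map (QuotientGroup.mk' Y)).Normal :=
    Subgroup.Normal.map inferInstance _ hq
  have hc := isCyclic_mapSG (QuotientGroup.mk' Y) hq
  have hN := isPGroup_mapSG (QuotientGroup.mk' Y) hq
  refine H19.Pidx.outBd_pidx hc hN (primStmt_cyc _ hc hN) hP hQ hQN
    fun S B z hS _ hSN _ _ _ _ => ?_
  refine oneBd_PGW (p := p) hpK
    (W := fun x y : V ≃ₗ[K] V => (fun t => x * t * x⁻¹ * t⁻¹)^[max 1 (p - 2)] y = 1) ?_
    (fun S hS hmax hT => H574.rowU hpK S hS hmax hT) hm (QuotientGroup.mk' Y) hq ?_ hQn ?_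
    ?_ hS hSN
  · intro g x y hxy
    have h1 := H574.cm_map (MulAut.conj g).toMonoidHom x y (max 1 (p - 2))
    have h3 : (H574.cm x)^[max 1 (p - 2)] y = 1 := hxy
    rw [h3, map_one] at h1
    exact h1.symm
  · intro x hx
    have hx1 : x ∈ Y := (QuotientGroup.eq_one_iff x).mp hx
    exact ⟨scalar_of_centerPG (hYc hx1) (hYd x hx1), hYd x hx1⟩
  · right
    obtain ⟨x, hx1, hx2⟩ := hnc
    exact ⟨H568.Out.jW (PG p K V) hW x, H568.Out.det_jW x, hx1,
      fun h => hx2 (center_of_scalar h)⟩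
  · intro x y hx hy hqx hqy
    have h1 := H574.cm_map (PG p K V).subtype x y (max 1 (p - 2))
    have h3 : (H574.cm x)^[max 1 (p - 2)] y = 1 := hab x y hx hy hqx hqy
    rw [h3, map_one] at h1
    exact h1.symm

end Vale.Agent.P180.H951
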