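import Vale.Agent.P180.H951.TrpC
import Vale.Agent.P180.H568.HR
import Vale.Agent.P179.H905.TwoMT0

/-! Brauer's second main theorem over an algebraic closure of the fraction field of the Witt
vectors. -/

set_option linter.all false

namespace Vale.Agent.P180.H951.Tr

open Finset Vale.Agent.P180.R2.H471.Hc Subgroup
open Vale.Agent.P180.H393 (IsIr ev IsCh.cf)
open Vale.Agent.P180.R2.H954.Hc (KK toKK charZero_KK)
open P179P (Irr omA isCF_restr AA)
open P179C (lam ind isCF_ind lam_int lam_add lam_smul redC_of_mem)

open scoped Classical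

universe u

section

variable {k : Type u} [Field k] {p : ℕ} [hp : Fact p.Prime] [CharP k p]
  (red : integralClosure ℤ ℂ →+* k) {G : Type} [Group G] [Fintype G]

/-- The second main theorem for separated characters, complex form. -/
theorem two_mt_c (χ : Irr G) {u : G} (hu : ∃ a : ℕ, u ^ p ^ a = 1) {H : Subgroup G}
    (hH : ∀ x, x ∈ H ↔ x * u = u * x) (ζ : Irr H) {a : G → k} (ha : P179C.IsCF a)
    (hne : lam red χ.1 a ≠ lam red ζ.1 (fun h : H => a h)) :
    ∑ s : H, (if ¬ p ∣ orderOf s then χ.1 (s * u) * ζ.1 s⁻¹ else 0) = 0 := by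
  have _ := Fintype.ofFinite (ConjClasses G)
  by_cases hz : ∃ D : ConjClasses G,
      red (omA χ (ind D) (isCF_ind D)) ≠
        red (omA ζ (fun h : H => ind D h) (isCF_restr (isCF_ind D) H))
  · obtain ⟨D, hD⟩ := hz
    exact P179P.two_mt p red χ u hu H hH ζ (ind D) (isCF_ind D) hD
  · push Not at hz
    exfalso
    apply hne
    have h1 : ∀ D : ConjClasses G, lam red ζ.1 (fun h : H => ((ind D (h : G) : ℤ) : k)) =
        P179C.redC red (P179C.om χ.1 (ind D)) := by
      intro D
      rw [lam_int red ζ.2 (isCF_restr (isCF_ind D) H),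
        redC_of_mem red (P179C.isIntegral_om ζ.2 (isCF_restr (isCF_ind D) H)),
        redC_of_mem red (P179C.isIntegral_om χ.2 (isCF_ind D))]
      exact (hz D).symm
    have h2 : (fun h : H => a h) = ∑ D : ConjClasses G,
        a D.out • (fun h : H => ((ind D (h : G) : ℤ) : k)) := by
      funext h
      rw [P179C.cf_eq_sum ha (h : G), Finset.sum_apply]
      rfl
    have h3 : ∀ (s : Finset (ConjClasses G)) (f : ConjClasses G → H → k),
        lam red ζ.1 (∑ D ∈ s, f D) = ∑ D ∈ s, lam red ζ.1 (f D) := by
      intro s f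
      induction s using Finset.induction_on with
      | empty =>
        rw [Finset.sum_empty, Finset.sum_empty]
        have := lam_smul red ζ.1 (0 : k) (0 : H → k)
        rw [zero_smul, zero_mul] at this
        exact this
      | insert D s hD ih => rw [Finset.sum_insert hD, Finset.sum_insert hD, lam_add, ih]
    rw [h2, h3, lam, finsum_eq_sum_of_fintype]
    refine Finset.sum_congr rfl fun D _ => ?_
    rw [lam_smul, h1]

end

/-- **The second main theorem** -/
theorem secMain (k : Type u) [Field k] [IsAlgClosed k] (p : ℕ) [Fact p.Prime] [CharP k p] :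
    H568.SecMain k p := by
  intro G _ _ x instC b B E χ hx hb hBc hBB hBe hEE hEc hEe hχ hev instC' ζ hζ hζE
  obtain rfl : instC = instC' := Subsingleton.elim _ _
  obtain rfl : Subgroup.instFintypeSubtypeMemOfDecidablePred (centralizer ({x} : Set G)) = instC :=
    Subsingleton.elim _ _
  obtain ⟨T⟩ := exists_trp k p
  obtain ⟨χ0, χc, h0, h1, h2⟩ := T.exists_c hχ
  obtain ⟨ζ0, ζc, g0, g1, g2⟩ := T.exists_c hζ
  have e1 : χ = fun g => T.i2 (χ0 g) := funext h1
  have e2 : ζ = fun g => T.i2 (ζ0 g) := funext g1
  have hlam : lam T.red χc.1 (fun g => b.coeff g) = 1 := by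
    rw [e1] at hev
    exact (T.ev_ne_iff h0 χc h2 hBc hBB hBe).1 hev
  have hlam2 : lam T.red ζc.1 (fun h : centralizer ({x} : Set G) => b.coeff (h : G)) = 0 := by
    rw [e2] at hζE
    have h3 := (T.ev_iff g0 ζc g2 hEc hEE hEe).2 hζE
    have h4 : (fun h : centralizer ({x} : Set G) =>
        (H337.rs (centralizer ({x} : Set G)) b).coeff h) =
        fun h : centralizer ({x} : Set G) => b.coeff (h : G) := by
      funext h
      exact H337.rs_coeff _ _ _
    rw [h4] at h3
    exact h3
  have hcf : P179C.IsCF (fun g => b.coeff g) := by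
    rw [← P179C.mem_center_iff, Subalgebra.mem_center_iff]
    exact fun y => commute_of_mem (SubAlg_top y) hb.mem.2
  have h5 := two_mt_c T.red χc hx (H := centralizer ({x} : Set G)) (fun y => by
    rw [mem_centralizer_singleton_iff]) ζc hcf (by
      rw [hlam, hlam2]
      exact one_ne_zero)
  have h6 : ∑ s : centralizer ({x} : Set G),
      (if p ∣ orderOf s then 0 else χ0 (s * x) * ζ0 s⁻¹) = 0 := by
    apply T.i1.injective
    rw [map_sum, map_zero, ← h5]
    refine Finset.sum_congr rfl fun s _ => ?_
    split_ifs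
    · exact map_zero _
    · rw [map_mul, h2, g2]
  rw [e1, e2]
  have h7 := congrArg T.i2 h6
  rw [map_sum, map_zero] at h7
  refine Eq.trans (Finset.sum_congr rfl fun s _ => ?_) h7
  split_ifs
  · exact (map_zero T.i2).symm
  · rw [map_mul]

end Vale.Agent.P180.H951.Tr
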