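import Vale.Agent.P180.R2.H365.InnB

set_option linter.all false

/-!
P180: the elements of odd order of the normaliser of a central quotient of `SL(d, K)`, `d ≥ 3`, as
semilinear bijections.
-/

namespace Vale.Agent.P180.H951

open Matrix Subgroup Module
open Vale.Agent.P180.R2.H589.Sch Vale.Agent.P180.R2.H589.Bt Vale.Agent.P180.R2.H471.Au
  Vale.Agent.P180.R2.H365.Inn

section

variable {K : Type*} [Field K] {d : ℕ} {G : Type*} [Group G] {L : Subgroup G}

/-- `r` acts on `L`, a quotient of `SL(d, K)`, as the `σ`-semilinear bijection `g`. -/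
def SemR (π : _root_.SpecialLinearGroup K (Fin d → K) →* L) (r : G) (σ : K ≃+* K)
    (g : (Fin d → K) ≃+ (Fin d → K)) : Prop :=
  (∀ (c : K) v, g (c • v) = σ c • g v) ∧
    ∀ x : _root_.SpecialLinearGroup K (Fin d → K),
      ∃ y : _root_.SpecialLinearGroup K (Fin d → K),
        (∀ v, g (x v) = y (g v)) ∧ r * (π x : G) * r⁻¹ = π y

variable {π : _root_.SpecialLinearGroup K (Fin d → K) →* L} {r r' : G} {σ σ' : K ≃+* K}
  {g g' : (Fin d → K) ≃+ (Fin d → K)}

theorem ext_sl {x y : _root_.SpecialLinearGroup K (Fin d → K)} (h : ∀ v, x v = y v) : x = y :=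
  Subtype.ext (LinearEquiv.ext h)

theorem SemR.one : SemR π 1 1 (AddEquiv.refl _) :=
  ⟨fun _ _ => rfl, fun x => ⟨x, fun _ => rfl, by rw [one_mul, inv_one, mul_one]⟩⟩

theorem SemR.mul (h : SemR π r σ g) (h' : SemR π r' σ' g') :
    SemR π (r * r') (σ * σ') (g'.trans g) := by
  refine ⟨fun c v => ?_, fun x => ?_⟩
  · change g (g' (c • v)) = σ (σ' c) • g (g' v)
    rw [h'.1, h.1]
  · obtain ⟨y', h1, h2⟩ := h'.2 x
    obtain ⟨y, h3, h4⟩ := h.2 y'
    refine ⟨y, fun v => ?_, ?_⟩
    · change g (g' (x v)) = y (g (g' v))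
      rw [h1, h3]
    · calc r * r' * (π x : G) * (r * r')⁻¹ = r * (r' * (π x : G) * r'⁻¹) * r⁻¹ := by group
        _ = _ := by rw [h2, h4]

theorem SemR.pow (h : SemR π r σ g) (n : ℕ) :
    ∃ g' : (Fin d → K) ≃+ (Fin d → K), SemR π (r ^ n) (σ ^ n) g' ∧ ∀ v, g' v = g^[n] v := by
  induction n with
  | zero =>
    refine ⟨AddEquiv.refl _, ?_, fun v => rfl⟩
    rw [pow_zero, pow_zero]
    exact SemR.one
  | succ n ih =>
    obtain ⟨g', h1, h2⟩ := ih
    refine ⟨g'.trans g, ?_, fun v => ?_⟩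
    · rw [pow_succ', pow_succ']
      exact h.mul h1
    · change g (g' v) = _
      rw [h2, Function.iterate_succ_apply']

/-- the homomorphism `x ↦ g x g⁻¹` -/
noncomputable def SemR.hom (h : SemR π r σ g) :
    _root_.SpecialLinearGroup K (Fin d → K) →* _root_.SpecialLinearGroup K (Fin d → K) where
  toFun x := (h.2 x).choose
  map_one' := by
    apply ext_sl
    intro w
    obtain ⟨v, rfl⟩ := g.surjective w
    rw [← (h.2 1).choose_spec.1]
    rfl
  map_mul' x y := by
    apply ext_sl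
    intro w
    obtain ⟨v, rfl⟩ := g.surjective w
    rw [← (h.2 (x * y)).choose_spec.1]
    change g (x (y v)) = (h.2 x).choose ((h.2 y).choose (g v))
    rw [(h.2 x).choose_spec.1, (h.2 y).choose_spec.1]

theorem SemR.hom_apply (h : SemR π r σ g) (x : _root_.SpecialLinearGroup K (Fin d → K))
    (v : Fin d → K) : g (x v) = h.hom x (g v) := (h.2 x).choose_spec.1 v

theorem SemR.hom_conj (h : SemR π r σ g) (x : _root_.SpecialLinearGroup K (Fin d → K)) :
    r * (π x : G) * r⁻¹ = π (h.hom x) := (h.2 x).choose_spec.2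

/-- `SL(d, K)` is perfect: homomorphisms which agree modulo the center are equal. -/
theorem hom_eq_sl [Finite K] (hd : 3 ≤ d)
    {f₁ f₂ : _root_.SpecialLinearGroup K (Fin d → K) →* _root_.SpecialLinearGroup K (Fin d → K)}
    (h : ∀ x, (f₁ x)⁻¹ * f₂ x ∈ center _) (x : _root_.SpecialLinearGroup K (Fin d → K)) :
    f₁ x = f₂ x := by
  obtain ⟨n, rfl⟩ : ∃ n, d = n + 1 := ⟨d - 1, by omega⟩
  let ι := Matrix.SpecialLinearGroup.toLin'_equiv (R := K) (n := Fin (n + 1))
  obtain ⟨x, rfl⟩ := ι.surjective x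
  exact hom_eq (f₁ := f₁.comp ι.toMonoidHom) (f₂ := f₂.comp ι.toMonoidHom) (perfect_gs (by omega))
    (fun x => h (ι x)) x

theorem SemR.hom_eq [Finite K] (hd : 3 ≤ d) (hk : π.ker ≤ center _) (h : SemR π r σ g)
    (h' : SemR π r σ' g') (x : _root_.SpecialLinearGroup K (Fin d → K)) : h.hom x = h'.hom x := by
  refine hom_eq_sl hd (fun x => ?_) x
  apply hk
  rw [MonoidHom.mem_ker, map_mul, map_inv, inv_mul_eq_one]
  apply Subtype.ext
  rw [← h.hom_conj, ← h'.hom_conj]

theorem single_mulVec' {n : ℕ} (i j : Fin n) (c : K) (w : Fin n → K) :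
    Matrix.single i j c *ᵥ w = (c * w j) • Pi.single i (1 : K) := by
  rw [Matrix.single_mulVec]
  funext a
  by_cases h : a = i
  · subst h
    simp
  · simp [h]

/-- a semilinear map which commutes with `SL` is linear, and multiplies by a scalar -/
theorem semi_scalar (hd : 2 ≤ d) {τ : K ≃+* K} {h : (Fin d → K) ≃+ (Fin d → K)}
    (hs : ∀ (c : K) v, h (c • v) = τ c • h v)
    (hc : ∀ (x : _root_.SpecialLinearGroup K (Fin d → K)) v, h (x v) = x (h v)) :
    τ = 1 ∧ ∃ b : K, b ≠ 0 ∧ ∀ v, h v = b • v := by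
  obtain ⟨n, rfl⟩ : ∃ n, d = n + 1 := ⟨d - 1, by omega⟩
  let ι := Matrix.SpecialLinearGroup.toLin'_equiv (R := K) (n := Fin (n + 1))
  have hι : ∀ (x : GS (n + 1) K) (v : Fin (n + 1) → K),
      (ι x) v = (x : Matrix (Fin (n + 1)) (Fin (n + 1)) K) *ᵥ v := fun x v => rfl
  let e : Fin (n + 1) → (Fin (n + 1) → K) := fun i => Pi.single i 1
  have key : ∀ (i j : Fin (n + 1)), i ≠ j → ∀ c : K,
      τ c • h (e i) = (c * h (e j) j) • e i := by
    intro i j hij c
    let t : GS (n + 1) K := ⟨Matrix.transvection i j c, Matrix.det_transvection_of_ne i j hij c⟩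
    have ht : ∀ v, (ι t) v = v + (c * v j) • e i := by
      intro v
      rw [hι]
      change (1 + Matrix.single i j c) *ᵥ v = _
      rw [Matrix.add_mulVec, Matrix.one_mulVec, single_mulVec']
    have h1 := hc (ι t) (e j)
    rw [ht, ht, map_add, hs] at h1
    have h2 : e j j = 1 := Pi.single_eq_same j 1
    rw [h2, mul_one] at h1
    exact add_left_cancel h1
  have hei : ∀ i, h (e i) ≠ 0 := by
    intro i h0
    have h1 : e i = 0 := h.injective (by rw [h0, map_zero])
    have h2 := congrFun h1 i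
    have h3 : e i i = 1 := Pi.single_eq_same i 1
    rw [h3] at h2
    exact one_ne_zero h2
  have key1 : ∀ (i j : Fin (n + 1)), i ≠ j → h (e i) = h (e j) j • e i := by
    intro i j hij
    have h1 := key i j hij 1
    rwa [map_one, one_smul, one_mul] at h1
  have hτ : τ = 1 := by
    have h01 : (0 : Fin (n + 1)) ≠ Fin.last n := by
      intro h
      have := congrArg Fin.val h
      simp at this
      omega
    ext c
    have h1 := key 0 (Fin.last n) h01 c
    rw [mul_smul, ← key1 0 (Fin.last n) h01] at h1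
    have h2 : (τ c - c) • h (e 0) = 0 := by rw [sub_smul, h1, sub_self]
    rcases smul_eq_zero.mp h2 with h3 | h3
    · exact sub_eq_zero.mp h3
    · exact absurd h3 (hei 0)
  subst hτ
  refine ⟨rfl, ?_⟩
  have hdiag : ∀ (i j : Fin (n + 1)), h (e i) i = h (e j) j := by
    intro i j
    by_cases hij : i = j
    · rw [hij]
    · have h1 := congrFun (key1 i j hij) i
      have h3 : e i i = 1 := Pi.single_eq_same i 1
      rw [Pi.smul_apply, h3, smul_eq_mul, mul_one] at h1
      exact h1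
  have hall : ∀ i, h (e i) = h (e 0) 0 • e i := by
    intro i
    obtain ⟨j, hj⟩ : ∃ j, i ≠ j := by
      have : Nontrivial (Fin (n + 1)) := Fin.nontrivial_iff_two_le.mpr hd
      obtain ⟨j, hj⟩ := exists_ne i
      exact ⟨j, hj.symm⟩
    rw [key1 i j hj, hdiag j 0]
  refine ⟨h (e 0) 0, ?_, fun v => ?_⟩
  · intro h0
    have h1 := hall 0
    rw [h0, zero_smul] at h1
    exact hei 0 h1
  · have h1 : v = ∑ i, v i • e i := pi_eq_sum_univ' v
    rw [h1, map_sum, Finset.smul_sum]
    refine Finset.sum_congr rfl fun i _ => ?_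
    rw [hs, hall, smul_comm]
    rfl

/-- **Uniqueness** of the field automorphism. -/
theorem SemR.unique [Finite K] (hd : 3 ≤ d) (hk : π.ker ≤ center _) (h : SemR π r σ g)
    (h' : SemR π r σ' g') : σ = σ' := by
  have h1 : ∀ (c : K) v, (g.trans g'.symm) (c • v) = (σ'⁻¹ * σ) c • (g.trans g'.symm) v := by
    intro c v
    change g'.symm (g (c • v)) = σ'.symm (σ c) • g'.symm (g v)
    rw [h.1]
    apply g'.injective
    rw [h'.1, g'.apply_symm_apply, g'.apply_symm_apply, σ'.apply_symm_apply]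
  have h2 : ∀ (x : _root_.SpecialLinearGroup K (Fin d → K)) v,
      (g.trans g'.symm) (x v) = x ((g.trans g'.symm) v) := by
    intro x v
    change g'.symm (g (x v)) = x (g'.symm (g v))
    apply g'.injective
    rw [g'.apply_symm_apply, h'.hom_apply, g'.apply_symm_apply, h.hom_apply,
      SemR.hom_eq hd hk h h']
  have h3 := (semi_scalar (by omega) h1 h2).1
  rw [inv_mul_eq_one] at h3
  exact h3.symm

theorem SemR.pow_eq_one [Finite K] (hd : 3 ≤ d) (hk : π.ker ≤ center _) (h : SemR π r σ g)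
    {n : ℕ} (hr : r ^ n = 1) : σ ^ n = 1 := by
  obtain ⟨g', h1, -⟩ := h.pow n
  rw [hr] at h1
  exact h1.unique hd hk SemR.one

end

end Vale.Agent.P180.H951
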