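import Vale.Agent.P180.H951.SemA
import Vale.Agent.P180.R2.H471.He4

set_option linter.all false

/-!
P180: `p`-groups which normalise a central quotient of `SL(d, K)`, `d ≥ 3`, `p` does not divide
`gcd(d, |K| - 1)`.
-/

namespace Vale.Agent.P180.H951

open Matrix Subgroup Module
open Vale.Agent.P180.R2.H589.Sch Vale.Agent.P180.R2.H589.Bt Vale.Agent.P180.R2.H471.Au
  Vale.Agent.P180.R2.H365.Inn

section

variable {K : Type*} [Field K] {d : ℕ} {G : Type*} [Group G] {L : Subgroup G}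
variable {π : _root_.SpecialLinearGroup K (Fin d → K) →* L} {r r' : G} {σ σ' : K ≃+* K}
  {g g' : (Fin d → K) ≃+ (Fin d → K)}

/-- **Existence** of the semilinear form. -/
theorem exists_semR [Finite K] (hd : 3 ≤ d) (hπ : Function.Surjective π) (hk : π.ker ≤ center _)
    (hr : r ∈ normalizer (L : Set G)) {m : ℕ} (hm : Odd m) (h : r ^ m = 1) :
    ∃ (σ : K ≃+* K) (g : (Fin d → K) ≃+ (Fin d → K)), SemR π r σ g := by
  obtain ⟨n, rfl⟩ : ∃ n, d = n + 1 := ⟨d - 1, by omega⟩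
  let ι := Matrix.SpecialLinearGroup.toLin'_equiv (R := K) (n := Fin (n + 1))
  have hι : ∀ (x : GS (n + 1) K) (v : Fin (n + 1) → K),
      (ι x) v = (x : Matrix (Fin (n + 1)) (Fin (n + 1)) K) *ᵥ v := fun x v => rfl
  let π' : GS (n + 1) K →* L := π.comp ι.toMonoidHom
  have hπ' : Function.Surjective π' := hπ.comp ι.surjective
  have hk' : π'.ker ≤ center (GS (n + 1) K) := by
    intro x hx
    have h1 : ι x ∈ center (_root_.SpecialLinearGroup K (Fin (n + 1) → K)) := hk hx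
    rw [mem_center_iff] at h1 ⊢
    intro y
    apply ι.injective
    rw [map_mul, map_mul]
    exact h1 (ι y)
  let α : MulAut L := L.normalizerMonoidHom ⟨r, hr⟩
  have hα : ∀ l : L, ((α l : L) : G) = r * l * r⁻¹ := fun l => rfl
  have hα1 : α ^ m = 1 := by
    have h1 : (⟨r, hr⟩ : normalizer (L : Set G)) ^ m = 1 := Subtype.ext h
    change (L.normalizerMonoidHom ⟨r, hr⟩) ^ m = 1
    rw [← map_pow, h1, map_one]
  obtain ⟨X, Y, hXY, σ, hg⟩ := semi_of_odd (by omega) hπ' hk' α hm hα1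
  obtain ⟨σ', g, h1, h2⟩ := exists_semi hXY σ
  refine ⟨σ', g, h1, fun x => ?_⟩
  obtain ⟨x, rfl⟩ := ι.surjective x
  refine ⟨ι (CJ hXY (Matrix.SpecialLinearGroup.map σ x)), fun v => ?_, ?_⟩
  · rw [hι, hι]
    exact h2 x v
  · exact congrArg (fun l : L => (l : G)) (hg x)

theorem center_pow [Finite K] (hd : 1 ≤ d) {z : _root_.SpecialLinearGroup K (Fin d → K)}
    (hz : z ∈ center (_root_.SpecialLinearGroup K (Fin d → K))) :
    z ^ Nat.gcd d (Nat.card K - 1) = 1 := by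
  classical
  have _ := Fintype.ofFinite K
  obtain ⟨c, hc, h⟩ := SpecialLinearGroup.mem_center_iff.mp hz
  rw [Module.finrank_fin_fun] at hc
  have hc0 : c ≠ 0 := by
    rintro rfl
    rw [zero_pow (by omega)] at hc
    exact zero_ne_one hc
  have hv : ∀ v, z v = c • v := fun v => LinearMap.congr_fun h v
  have hcg : c ^ Nat.gcd d (Nat.card K - 1) = 1 := by
    let u : Kˣ := Units.mk0 c hc0
    have h1 : u ^ d = 1 := Units.ext hc
    have h2 : u ^ (Nat.card K - 1) = 1 := by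
      rw [Nat.card_eq_fintype_card, ← Fintype.card_units]
      exact pow_card_eq_one
    have h3 : u ^ Nat.gcd d (Nat.card K - 1) = 1 := orderOf_dvd_iff_pow_eq_one.mp
      (Nat.dvd_gcd (orderOf_dvd_of_pow_eq_one h1) (orderOf_dvd_of_pow_eq_one h2))
    exact congrArg Units.val h3
  have hpow : ∀ (n : ℕ) (v : Fin d → K), (z ^ n) v = c ^ n • v := by
    intro n
    induction n with
    | zero => intro v; rw [pow_zero, pow_zero, one_smul]; rfl
    | succ n ih =>
      intro v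
      rw [pow_succ, pow_succ]
      change (z ^ n) (z v) = _
      rw [hv, ih, mul_smul]
  apply ext_sl
  intro v
  rw [hpow, hcg, one_smul]
  rfl

theorem center_eq_one [Finite K] {p i : ℕ} [hp : Fact p.Prime] (hd : 1 ≤ d)
    (hg : ¬ p ∣ Nat.gcd d (Nat.card K - 1)) {z : _root_.SpecialLinearGroup K (Fin d → K)}
    (hz : z ∈ center (_root_.SpecialLinearGroup K (Fin d → K))) (hi : z ^ p ^ i = 1) : z = 1 := by
  have h1 := orderOf_dvd_of_pow_eq_one (center_pow hd hz)
  obtain ⟨j, -, hj⟩ := (Nat.dvd_prime_pow hp.out).mp (orderOf_dvd_of_pow_eq_one hi)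
  rcases Nat.eq_zero_or_pos j with h0 | h0
  · rw [h0, pow_zero] at hj
    exact orderOf_eq_one_iff.mp hj
  · rw [hj] at h1
    exact absurd ((dvd_pow_self p h0.ne').trans h1) hg

/-- `p`-elements of `SL` with the same image in `L` are equal. -/
theorem lift_unique [Finite K] {p i j : ℕ} [hp : Fact p.Prime] (hd : 1 ≤ d)
    (hg : ¬ p ∣ Nat.gcd d (Nat.card K - 1)) (hk : π.ker ≤ center _)
    {x y : _root_.SpecialLinearGroup K (Fin d → K)} (h : π x = π y) (hx : x ^ p ^ i = 1)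
    (hy : y ^ p ^ j = 1) : x = y := by
  have hz : x⁻¹ * y ∈ center (_root_.SpecialLinearGroup K (Fin d → K)) := by
    apply hk
    rw [MonoidHom.mem_ker, map_mul, map_inv, h, inv_mul_cancel]
  have hcomm : Commute x (x⁻¹ * y) := mem_center_iff.mp hz x
  have h1 : y ^ p ^ (i + j) = x ^ p ^ (i + j) * (x⁻¹ * y) ^ p ^ (i + j) := by
    rw [← hcomm.mul_pow, mul_inv_cancel_left]
  have h2 : (x⁻¹ * y) ^ p ^ (i + j) = 1 := by
    have h3 : x ^ p ^ (i + j) = 1 := by rw [pow_add, pow_mul, hx, one_pow]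
    have h4 : y ^ p ^ (i + j) = 1 := by rw [add_comm, pow_add, pow_mul, hy, one_pow]
    rw [h3, h4, one_mul] at h1
    exact h1.symm
  have h3 := center_eq_one hd hg hz h2
  exact inv_mul_eq_one.mp h3

theorem exists_lift [Finite K] {p i : ℕ} [hp : Fact p.Prime] (hd : 1 ≤ d)
    (hg : ¬ p ∣ Nat.gcd d (Nat.card K - 1)) (hπ : Function.Surjective π)
    (hk : π.ker ≤ center _) {q : L} (hq : q ^ p ^ i = 1) :
    ∃ x, π x = q ∧ x ^ p ^ i = 1 := by
  obtain ⟨x, rfl⟩ := hπ q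
  have hcop : (p ^ i).Coprime (Nat.gcd d (Nat.card K - 1)) :=
    Nat.Coprime.pow_left i ((Nat.Prime.coprime_iff_not_dvd hp.out).mpr hg)
  obtain ⟨N, hN1, hN2⟩ := Nat.chineseRemainder hcop 1 0
  refine ⟨x ^ N, ?_, ?_⟩
  · have h2 : N ≡ 1 [MOD orderOf (π x)] := hN1.of_dvd (orderOf_dvd_of_pow_eq_one hq)
    have h3 := (pow_eq_pow_iff_modEq (x := π x)).mpr h2
    rw [map_pow, h3, pow_one]
  · obtain ⟨c, rfl⟩ := (Nat.modEq_zero_iff_dvd).mp hN2
    have hz : x ^ p ^ i ∈ center (_root_.SpecialLinearGroup K (Fin d → K)) := by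
      apply hk
      rw [MonoidHom.mem_ker, map_pow, hq]
    rw [← pow_mul, mul_comm, pow_mul, pow_mul, center_pow hd hz, one_pow]

/-- An element of `SL` with central image is central. -/
theorem mem_center_of_map [Finite K] (hd : 3 ≤ d) (hk : π.ker ≤ center _)
    {x : _root_.SpecialLinearGroup K (Fin d → K)} (h : ∀ y, π x * π y = π y * π x) :
    x ∈ center (_root_.SpecialLinearGroup K (Fin d → K)) := by
  rw [mem_center_iff]
  intro y
  have h1 := hom_eq_sl hd (f₁ := MonoidHom.id _) (f₂ := (MulAut.conj x).toMonoidHom) (fun y => by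
    apply hk
    change π (y⁻¹ * (x * y * x⁻¹)) = 1
    rw [map_mul, map_inv, map_mul, map_mul, map_inv, h y, mul_inv_cancel_right, inv_mul_cancel]) y
  have h2 : y = x * y * x⁻¹ := h1
  calc y * x = (x * y * x⁻¹) * x := by rw [← h2]
    _ = x * y := by group

theorem comm_lift [Finite K] {p i : ℕ} [hp : Fact p.Prime] (hd : 1 ≤ d)
    (hg : ¬ p ∣ Nat.gcd d (Nat.card K - 1)) (hk : π.ker ≤ center _)
    {x y : _root_.SpecialLinearGroup K (Fin d → K)} (hx : x ^ p ^ i = 1)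
    (h : π x * π y = π y * π x) : x * y = y * x := by
  have h1 : (y * x * y⁻¹) ^ p ^ i = 1 := by
    rw [conj_pow, hx, mul_one, mul_inv_cancel]
  have h2 : π (y * x * y⁻¹) = π x := by
    rw [map_mul, map_mul, map_inv, ← h, mul_inv_cancel_right]
  have h3 := lift_unique hd hg hk h2 h1 hx
  calc x * y = (y * x * y⁻¹) * y := by rw [h3]
    _ = y * x := by group

/-- The semilinear bijection commutes with the `p`-elements whose image is centralised. -/
theorem SemR.comm [Finite K] {p i : ℕ} [hp : Fact p.Prime] (hd : 1 ≤ d)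
    (hg : ¬ p ∣ Nat.gcd d (Nat.card K - 1)) (hk : π.ker ≤ center _) (h : SemR π r σ g)
    {x : _root_.SpecialLinearGroup K (Fin d → K)} (hx : x ^ p ^ i = 1)
    (hr : r * (π x : G) * r⁻¹ = π x) (v : Fin d → K) : g (x v) = x (g v) := by
  have h1 : (h.hom x) ^ p ^ i = 1 := by rw [← map_pow, hx, map_one]
  have h2 : π (h.hom x) = π x := Subtype.ext (by rw [← h.hom_conj, hr])
  rw [h.hom_apply, lift_unique hd hg hk h2 h1 hx]

/-- **Linear `p`-elements are inner.** -/
theorem SemR.sup [Finite K] {p i : ℕ} [hp : Fact p.Prime] (hd : 3 ≤ d)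
    (hg : ¬ p ∣ Nat.gcd d (Nat.card K - 1)) (hπ : Function.Surjective π)
    (hk : π.ker ≤ center _) (h : SemR π r 1 g) (hr : r ^ p ^ i = 1) :
    r ∈ L ⊔ centralizer (L : Set G) := by
  classical
  let u : (Fin d → K) ≃ₗ[K] (Fin d → K) := { g with map_smul' := fun c v => h.1 c v }
  have hu : ∀ v, u v = g v := fun v => rfl
  obtain ⟨g', h1, h2⟩ := h.pow (p ^ i)
  rw [hr, one_pow] at h1
  have hc : ∀ (x : _root_.SpecialLinearGroup K (Fin d → K)) v, g' (x v) = x (g' v) := by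
    intro x v
    have h3 := SemR.hom_eq hd hk h1 SemR.one x
    have h4 : (SemR.one (π := π)).hom x = x := by
      apply ext_sl
      intro w
      exact ((SemR.one (π := π)).hom_apply x w).symm
    rw [h1.hom_apply, h3, h4]
  obtain ⟨-, b, hb0, hb⟩ := semi_scalar (by omega) h1.1 hc
  have hpow : ((u : (Fin d → K) →ₗ[K] (Fin d → K)) ^ (p ^ i)) = b • LinearMap.id := by
    apply LinearMap.ext
    intro v
    rw [Module.End.pow_apply, LinearMap.smul_apply, LinearMap.id_apply, ← hb, h2]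
    rfl
  have hdet : LinearMap.det (u : (Fin d → K) →ₗ[K] (Fin d → K)) ≠ 0 := u.isUnit_det'.ne_zero
  have hdb : LinearMap.det (u : (Fin d → K) →ₗ[K] (Fin d → K)) ^ (p ^ i) = b ^ d := by
    rw [← map_pow, hpow, LinearMap.det_smul, LinearMap.det_id, mul_one, Module.finrank_fin_fun]
  obtain ⟨c, hc0, hc⟩ := exists_root hg hdet hb0 hdb
  let w : (Fin d → K) ≃ₗ[K] (Fin d → K) :=
    u.trans (LinearEquiv.smulOfNeZero K (Fin d → K) c⁻¹ (inv_ne_zero hc0))
  have hw : (w : (Fin d → K) →ₗ[K] (Fin d → K)) = c⁻¹ • (u : (Fin d → K) →ₗ[K] (Fin d → K)) := by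
    apply LinearMap.ext
    intro v
    rfl
  let s : _root_.SpecialLinearGroup K (Fin d → K) := ⟨w, by
    apply Units.ext
    rw [LinearEquiv.coe_det, hw, LinearMap.det_smul, Module.finrank_fin_fun, inv_pow, hc,
      inv_mul_cancel₀ hdet]
    rfl⟩
  have hs : ∀ v, s v = c⁻¹ • g v := fun v => rfl
  have h5 : ∀ x, h.hom x = s * x * s⁻¹ := by
    intro x
    rw [eq_mul_inv_iff_mul_eq]
    apply ext_sl
    intro v
    change h.hom x (s v) = s (x v)
    rw [hs, hs, h.hom_apply]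
    exact map_smul (h.hom x).toLinearEquiv c⁻¹ (g v)
  have h6 : ((π s : L) : G)⁻¹ * r ∈ centralizer (L : Set G) := by
    rw [mem_centralizer_iff]
    intro l hl
    obtain ⟨x, hx⟩ := hπ ⟨l, hl⟩
    have h3 : r * l * r⁻¹ = (π s : G) * l * (π s : G)⁻¹ := by
      have h4 := h.hom_conj x
      rw [h5, map_mul, map_mul, map_inv, hx] at h4
      exact h4
    calc l * (((π s : L) : G)⁻¹ * r) = ((π s : L) : G)⁻¹ * ((π s : G) * l * (π s : G)⁻¹) * r := by
          group
      _ = ((π s : L) : G)⁻¹ * (r * l * r⁻¹) * r := by rw [h3]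
      _ = ((π s : L) : G)⁻¹ * r * l := by group
  have h7 : r = (π s : G) * (((π s : L) : G)⁻¹ * r) := by group
  rw [h7]
  exact Subgroup.mul_mem_sup (π s).2 h6

end

theorem isCyclic_aut (K : Type*) [Field K] [Finite K] : IsCyclic (K ≃+* K) := by
  obtain ⟨l, hl⟩ := CharP.exists K
  have hlp : Fact l.Prime := ⟨CharP.char_is_prime K l⟩
  letI := ZMod.algebra K l
  let φ : (K ≃+* K) →* (K ≃ₐ[ZMod l] K) :=
    { toFun := fun σ => AlgEquiv.ofRingEquiv (f := σ) fun r => RingHom.congr_fun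
        (Subsingleton.elim ((σ : K →+* K).comp (algebraMap (ZMod l) K)) (algebraMap (ZMod l) K)) r
      map_one' := by ext; rfl
      map_mul' := fun σ τ => by ext; rfl }
  refine isCyclic_of_injective φ fun σ τ h => ?_
  refine RingEquiv.ext fun x => ?_
  exact congrArg (fun f : K ≃ₐ[ZMod l] K => f x) h

section

variable {K : Type*} [Field K] [Finite K] {d : ℕ} {G : Type} [Group G] [Finite G]
  {L R : Subgroup G} {π : _root_.SpecialLinearGroup K (Fin d → K) →* L}

/-- **The cyclic case.** -/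
theorem cycOn_R {p : ℕ} [hp : Fact p.Prime] (hp2 : p ≠ 2) (hd : 3 ≤ d)
    (hg : ¬ p ∣ Nat.gcd d (Nat.card K - 1)) (hπ : Function.Surjective π)
    (hk : π.ker ≤ center _) (hR : IsPGroup p R) (hRN : R ≤ normalizer (L : Set G))
    (hin : ∀ r ∈ R, r ∈ L ⊔ centralizer (L : Set G) → r ∈ centralizer (L : Set G)) :
    R2.H471.He.CycOn R L := by
  classical
  have hsem : ∀ r ∈ R, ∃ σ g, SemR π r σ g := by
    intro r hr
    obtain ⟨i, hi⟩ := hR ⟨r, hr⟩
    exact exists_semR hd hπ hk (hRN hr) ((hp.out.odd_of_ne_two hp2).pow (n := i))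
      (congrArg Subtype.val hi)
  have hfin : Finite (K ≃+* K) :=
    Finite.of_injective (fun σ => (σ : K → K)) DFunLike.coe_injective
  let S : Submonoid (G × (K ≃+* K)) :=
    { carrier := {a | a.1 ∈ R ∧ ∃ g, SemR π a.1 a.2 g}
      one_mem' := ⟨R.one_mem, _, SemR.one⟩
      mul_mem' := by
        rintro ⟨r, σ⟩ ⟨r', σ'⟩ ⟨hr, g, hg⟩ ⟨hr', g', hg'⟩
        exact ⟨R.mul_mem hr hr', _, hg.mul hg'⟩ }
  let Γ : Subgroup (G × (K ≃+* K)) :=
    { S with
      inv_mem' := by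
        intro a ha
        have h1 : a⁻¹ = a ^ (orderOf a - 1) := by
          symm
          refine eq_inv_of_mul_eq_one_left ?_
          rw [← pow_succ, Nat.sub_add_cancel (orderOf_pos a), pow_orderOf_eq_one]
        rw [h1]
        exact S.pow_mem ha _ }
  have hΓ : ∀ a, a ∈ Γ ↔ a.1 ∈ R ∧ ∃ g, SemR π a.1 a.2 g := fun a => Iff.rfl
  have hcyc : IsCyclic (K ≃+* K) := isCyclic_aut K
  obtain ⟨⟨t, ht⟩, hgen⟩ := IsCyclic.exists_generator
    (α := (Γ.map (MonoidHom.snd G (K ≃+* K)) : Subgroup (K ≃+* K)))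
  obtain ⟨a, ha, rfl⟩ := ht
  have hcent : ∀ c ∈ centralizer (L : Set G), ∀ r ∈ normalizer (L : Set G),
      r * c * r⁻¹ ∈ centralizer (L : Set G) := by
    intro c hc r hr
    rw [mem_centralizer_iff]
    intro y hy
    have h3 : r⁻¹ * y * r ∈ L := by
      have := (mem_normalizer_iff.mp ((normalizer (L : Set G)).inv_mem hr) y).mp hy
      rwa [inv_inv] at this
    have h4 := mem_centralizer_iff.mp hc _ h3
    calc y * (r * c * r⁻¹) = r * ((r⁻¹ * y * r) * c) * r⁻¹ := by group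
      _ = r * (c * (r⁻¹ * y * r)) * r⁻¹ := by rw [h4]
      _ = r * c * r⁻¹ * y := by group
  refine R2.H471.He.cycOn_of_ker (N := R) (L := L) (M := R ⊓ centralizer (L : Set G)) (c := a.1)
    (fun x hx s hs => (mem_normalizer_iff.mp (hRN hx) s).mp hs)
    (fun x hx m hm => ⟨R.mul_mem (R.mul_mem hx hm.1) (R.inv_mem hx), hcent m hm.2 x (hRN hx)⟩)
    (fun m hm s hs => (mem_centralizer_iff.mp hm.2 s hs).symm) (fun x hx hxL => ?_)
    ((hΓ a).mp ha).1 (fun r hr => ?_) inf_le_left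
  · obtain ⟨i, hi⟩ := hR ⟨x, hx.1⟩
    have hi : x ^ p ^ i = 1 := congrArg Subtype.val hi
    obtain ⟨y, hy, hyp⟩ := exists_lift (i := i) (by omega) hg hπ hk (q := ⟨x, hxL⟩)
      (Subtype.ext hi)
    have h1 : y ∈ center (_root_.SpecialLinearGroup K (Fin d → K)) := by
      refine mem_center_of_map hd hk fun z => ?_
      rw [hy]
      exact Subtype.ext (mem_centralizer_iff.mp hx.2 _ (π z).2).symm
    have h2 := center_eq_one (by omega) hg h1 hyp
    have h3 := congrArg (fun l : L => (l : G)) hy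
    rw [h2, map_one] at h3
    exact h3.symm
  · obtain ⟨σ, g, hs⟩ := hsem r hr
    have h1 : (r, σ) ∈ Γ := (hΓ _).mpr ⟨hr, g, hs⟩
    obtain ⟨n, hn⟩ := Subgroup.mem_zpowers_iff.mp
      (hgen ⟨(MonoidHom.snd G (K ≃+* K)) (r, σ), (r, σ), h1, rfl⟩)
    have hn : a.2 ^ n = σ := congrArg Subtype.val hn
    have h2 : (a ^ n)⁻¹ * (r, σ) ∈ Γ := Γ.mul_mem (Γ.inv_mem (Γ.zpow_mem ha n)) h1
    obtain ⟨h3, g', h4⟩ := (hΓ _).mp h2
    have h5 : ((a ^ n)⁻¹ * (r, σ)).2 = 1 := by
      change (a.2 ^ n)⁻¹ * σ = 1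
      rw [hn, inv_mul_cancel]
    have h6 : ((a ^ n)⁻¹ * (r, σ)).1 = (a.1 ^ n)⁻¹ * r := rfl
    rw [h5, h6] at h4
    rw [h6] at h3
    obtain ⟨i, hi⟩ := hR ⟨_, h3⟩
    have h7 := h4.sup hd hg hπ hk (congrArg Subtype.val hi)
    exact ⟨n, (a.1 ^ n)⁻¹ * r, ⟨h3, hin _ h3 h7⟩, by group⟩

end

end Vale.Agent.P180.H951
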