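import Vale.Agent.P180.H951.SlAll
import Vale.Agent.P180.H574.LemD
import Vale.Agent.P180.H354.NumS
import Vale.Agent.P180.H19.PidxB

/-! Special linear groups, all ranks and all fields. -/

set_option linter.all false

namespace Vale.Agent.P180.H951

open Module Subgroup Vale.Agent.P180 Vale.Agent.P180.H768.Gd Vale.Agent.P180.R2.H471.Hc
open Vale.Agent.P180.H19.Pidx (PrimStmt oneBd_pidx_of)

universe u

section

variable {p : ℕ} [Fact p.Prime] {K V : Type} [Field K] [Finite K] [AddCommGroup V] [Module K V]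
  [Finite V]

/-- Lemma D, in the form which is used. -/
theorem lemA (h2 : p ≠ 2) (hpK : ¬ p ∣ Nat.card K) (S : Subgroup (V ≃ₗ[K] V))
    (hS : IsPGroup p S) (hmax : MaxIn p S)
    (hab : ∀ x ∈ S, ∀ y ∈ S, LinearMap.det (x : V →ₗ[K] V) = 1 →
      LinearMap.det (y : V →ₗ[K] V) = 1 → x * y = y * x) : ∀ x ∈ S, ∀ y ∈ S, x * y = y * x := by
  haveI : FiniteDimensional K V := Module.Finite.of_finite
  refine H574.lemD h2 hpK S hS (fun P hP hSP hsp => hmax P hSP hP hsp)
    (LinearEquiv.det : (V ≃ₗ[K] V) →* Kˣ) (fun x hx y hy h3 h4 => hab x hx y hy ?_ ?_)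
  · have h5 := congrArg Units.val h3
    rw [LinearEquiv.coe_det] at h5
    exact h5
  · have h5 := congrArg Units.val h4
    rw [LinearEquiv.coe_det] at h5
    exact h5

omit [Fact p.Prime] [Finite V] in
/-- The quotient is cyclic. -/
theorem isCyclic_quot : IsCyclic ((V ≃ₗ[K] V) ⧸ NG p K V) := by
  let f : (V ≃ₗ[K] V) →* Kˣ :=
    (powMonoidHom (ordCompl[p] (Nat.card K - 1)) : Kˣ →* Kˣ).comp
      (LinearEquiv.det : (V ≃ₗ[K] V) →* Kˣ)
  have e : ((V ≃ₗ[K] V) ⧸ f.ker) ≃* f.range := QuotientGroup.quotientKerEquivRange f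
  have h1 : IsCyclic f.range := inferInstance
  exact isCyclic_of_injective e.toMonoidHom e.injective

/-- A group of scalars is cyclic. -/
theorem isCyclic_of_scalar (T : Subgroup (V ≃ₗ[K] V)) (h : ∀ x ∈ T, ∃ c : K, ∀ v, x v = c • v) :
    IsCyclic T := by
  classical
  have hfin : Finite (V ≃ₗ[K] V) :=
    Finite.of_injective (fun g : V ≃ₗ[K] V => (g : V → V)) DFunLike.coe_injective
  by_cases hV : Subsingleton V
  · have h1 : Subsingleton T := ⟨fun x y => Subtype.ext (LinearEquiv.ext fun v =>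
      Subsingleton.elim _ _)⟩
    infer_instance
  · rw [not_subsingleton_iff_nontrivial] at hV
    obtain ⟨v0, hv0⟩ := exists_ne (0 : V)
    choose c hc using fun x : T => h x.1 x.2
    have huniq : ∀ a b : K, a • v0 = b • v0 → a = b := fun a b hab => smul_left_injective K hv0 hab
    let f : T →* K :=
      { toFun := c
        map_one' := huniq _ _ (by rw [← hc, one_smul]; rfl)
        map_mul' := fun x y => huniq _ _ (by
          rw [← hc]
          change (x : V ≃ₗ[K] V) ((y : V ≃ₗ[K] V) v0) = _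
          rw [hc y, hc x, smul_smul, mul_comm]) }
    refine isCyclic_of_subgroup_isDomain f ?_
    intro x y hxy
    apply Subtype.ext
    apply LinearEquiv.ext
    intro v
    rw [hc, hc]
    exact congrArg (fun z : K => z • v) hxy

end

/-- **Special linear groups**, all ranks, `p` odd: a small idempotent for the blocks with an abelian
defect group. -/
theorem oneBd_slAll_of1 {k : Type u} [Field k] [IsAlgClosed k] {p : ℕ} [Fact p.Prime] [CharP k p]
    {K V : Type} [Field K] [Finite K] [AddCommGroup V] [Module K V] [Finite V]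
    [Finite (V ≃ₗ[K] V)] [Finite (SpecialLinearGroup K V)] (h2 : p ≠ 2) (hpK : ¬ p ∣ Nat.card K)
    (hB1 : PrimStmt k (NG p K V))
    {n : ℕ} {Q : Subgroup (SpecialLinearGroup K V)} (hQ : IsPGroup p Q) (hQn : Nat.card Q ≤ n)
    (hab : ∀ x ∈ Q, ∀ y ∈ Q, x * y = y * x) : OneBd k Q (slC p n) := by
  classical
  by_cases hcyc : IsCyclic Q
  · intro e a he ha hea hbr
    obtain ⟨i, h1, h2, h3, h4, h5⟩ := oneBd_cyc hQ hcyc e a he ha hea hbr
    exact ⟨i, h1, h2, h3, h4, h5.trans ((Vale.Agent.P180.R2.H259.Cyc.cycB_mono hQn).trans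
      (le_max_right _ _))⟩
  refine oneBd_slAll_of hpK (fun _ => lemA h2 hpK) ?_ ?_ hQ hQn hab
  · intro _ S hS hmax hSab
    rcases H354.NumS.card_le_sq_or S hS hpK hSab hmax with h | h
    · haveI := h
      exact Or.inl (isCyclic_of_injective (Subgroup.inclusion inf_le_left)
        (Subgroup.inclusion_injective inf_le_left))
    · exact Or.inr h
  · intro Q' hQ' C hC
    refine oneBd_pidx_of ?_ isPGroup_quot hB1 hQ' ?_
    · intro x y
      obtain ⟨a, rfl⟩ := QuotientGroup.mk_surjective x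
      obtain ⟨b, rfl⟩ := QuotientGroup.mk_surjective y
      rw [← QuotientGroup.mk_mul, ← QuotientGroup.mk_mul, QuotientGroup.eq]
      refine NG_of_det ?_
      rw [map_mul, map_inv, map_mul, map_mul, mul_comm (LinearEquiv.det b), inv_mul_cancel]
    · rintro S B z hS ⟨g, hg⟩ hB hz hBz hbr
      refine hC S B z hS ⟨g, fun x => ?_⟩ hB hz hBz hbr
      rw [hg]
      exact mem_conjS

/-- The statement of (B1) for a cyclic quotient which is a `p`-group. -/
def PrimCyc (k : Type u) [Field k] (p : ℕ) : Prop :=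
  ∀ (G : Type) [Group G] [Finite G] (N : Subgroup G) [N.Normal], IsCyclic (G ⧸ N) →
    IsPGroup p (G ⧸ N) → PrimStmt k N

theorem oneBd_slAll_of2 {k : Type u} [Field k] [IsAlgClosed k] {p : ℕ} [Fact p.Prime] [CharP k p]
    {K V : Type} [Field K] [Finite K] [AddCommGroup V] [Module K V] [Finite V]
    [Finite (V ≃ₗ[K] V)] [Finite (SpecialLinearGroup K V)] (h2 : p ≠ 2) (hpK : ¬ p ∣ Nat.card K)
    (hB1 : PrimCyc k p)
    {n : ℕ} {Q : Subgroup (SpecialLinearGroup K V)} (hQ : IsPGroup p Q) (hQn : Nat.card Q ≤ n)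
    (hab : ∀ x ∈ Q, ∀ y ∈ Q, x * y = y * x) : OneBd k Q (slC p n) :=
  oneBd_slAll_of1 h2 hpK (hB1 _ _ isCyclic_quot isPGroup_quot) hQ hQn hab

end Vale.Agent.P180.H951
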