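import Vale.Agent.P180.H951.OutI

/-! Special linear groups, all ranks and all fields, with a weaker condition on the defect group. -/

set_option linter.all false

namespace Vale.Agent.P180.H951

open Module Subgroup Vale.Agent.P180 Vale.Agent.P180.H768.Gd Vale.Agent.P180.R2.H471.Hc
  Vale.Agent.P180.R2.H799 Vale.Agent.P180.R2.H954
open Vale.Agent.P180.R2.H259.Cyc (cycB cycB_mono)
open Vale.Agent.P180.H19.Pidx (PrimStmt oneBd_pidx_of)

universe u

/-- if `p` does not divide `|K| - 1`, then the central `p`-elements are trivial -/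
theorem comm_of_weak {p : ℕ} [Fact p.Prime] {K V : Type} [Field K] [Finite K] [AddCommGroup V]
    [Module K V] [Finite V] (hq : ¬ p ∣ Nat.card K - 1) {Q : Subgroup (SpecialLinearGroup K V)}
    (hQ : IsPGroup p Q) {x y : SpecialLinearGroup K V} (hx : x ∈ Q) (hy : y ∈ Q)
    (h : x * y * x⁻¹ * y⁻¹ ∈ Subgroup.center (SpecialLinearGroup K V)) : x * y = y * x := by
  classical
  have hp : p.Prime := Fact.out
  have hfin : Finite (V ≃ₗ[K] V) :=
    Finite.of_injective (fun g : V ≃ₗ[K] V => (g : V → V)) DFunLike.coe_injective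
  set w := x * y * x⁻¹ * y⁻¹ with hw
  have hwQ : w ∈ Q := Q.mul_mem (Q.mul_mem (Q.mul_mem hx hy) (Q.inv_mem hx)) (Q.inv_mem hy)
  have h1 : Nat.card (Subgroup.zpowers (SpecialLinearGroup.toLinearEquiv w)) ≤ 1 := by
    refine card_scalar_le (p := p) ?_ ?_ ?_
    · have h2 : IsPGroup p (Q.map (SpecialLinearGroup.toLinearEquiv (R := K) (V := V))) :=
        hQ.map _
      refine h2.to_le ?_
      rw [Subgroup.zpowers_le]
      exact ⟨w, hwQ, rfl⟩
    · rintro z hz
      obtain ⟨i, rfl⟩ := Subgroup.mem_zpowers_iff.mp hz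
      rw [← map_zpow]
      exact scalar_of_center (Subgroup.zpow_mem _ h i)
    · intro j hj
      rcases j with - | j
      · exact le_of_eq (pow_zero p)
      · exact absurd ((dvd_pow_self p (Nat.succ_ne_zero j)).trans hj) hq
  have h2 : SpecialLinearGroup.toLinearEquiv w = 1 := by
    have h3 : Subgroup.zpowers (SpecialLinearGroup.toLinearEquiv w) = ⊥ :=
      Subgroup.eq_bot_of_card_le _ h1
    rwa [Subgroup.zpowers_eq_bot] at h3
  have h3 : w = 1 := SpecialLinearGroup.toLinearEquiv_injective (h2.trans (map_one _).symm)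
  rw [hw, mul_inv_eq_one, mul_inv_eq_iff_eq_mul] at h3
  exact h3

/-- **Special linear groups**, all ranks, all fields. -/
theorem oneBd_slAllW_ofA {k : Type u} [Field k] [IsAlgClosed k] {p : ℕ} [Fact p.Prime] [CharP k p]
    {K V : Type} [Field K] [Finite K] [AddCommGroup V] [Module K V] [Finite V]
    [Finite (V ≃ₗ[K] V)] [Finite (SpecialLinearGroup K V)] (hpK : ¬ p ∣ Nat.card K)
    (hA : ∀ S : Subgroup (V ≃ₗ[K] V), IsPGroup p S → MaxIn p S →
      (∀ x ∈ S, ∀ y ∈ S, LinearMap.det (x : V →ₗ[K] V) = 1 →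
        LinearMap.det (y : V →ₗ[K] V) = 1 → x * y = y * x ∨
          (5 ≤ p ∧ x * y * x⁻¹ * y⁻¹ ∈ Subgroup.center (V ≃ₗ[K] V))) →
      ∀ x ∈ S, ∀ y ∈ S, x * y = y * x)
    {n : ℕ} {Q : Subgroup (SpecialLinearGroup K V)} (hQ : IsPGroup p Q) (hQn : Nat.card Q ≤ n)
    (hab : ∀ x ∈ Q, ∀ y ∈ Q, x * y = y * x ∨
      (5 ≤ p ∧ x * y * x⁻¹ * y⁻¹ ∈ Subgroup.center (SpecialLinearGroup K V))) :
    OneBd k Q (slC p n) := by
  classical
  have hn : 1 ≤ n := Nat.card_pos.trans_le hQn
  have hn2 : n ≤ n ^ 2 := by nlinarith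
  have mono : ∀ {C C' : ℕ}, C ≤ C' → OneBd k Q C → OneBd k Q C' := by
    intro C C' hCC h e a he ha hea hbr
    obtain ⟨i, h1, h2, h3, h4, h5⟩ := h e a he ha hea hbr
    exact ⟨i, h1, h2, h3, h4, h5.trans hCC⟩
  by_cases hcyc : IsCyclic Q
  · exact mono ((cycB_mono hQn).trans (le_max_right _ _)) (oneBd_cyc hQ hcyc)
  by_cases hq : p ∣ Nat.card K - 1
  · -- descent from the general linear group
    refine mono ?_ (oneBd_sl_of_NG hQ (C := glC p (n ^ 2)) ?_)
    · exact (Nat.mul_le_mul_right _ (Nat.factorial_le hQn)).trans (le_max_left _ _)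
    refine oneBd_pidx_of ?_ isPGroup_quot (primStmt_cyc _ isCyclic_quot isPGroup_quot)
      (hQ.map _) ?_
    · intro x y
      obtain ⟨a, rfl⟩ := QuotientGroup.mk_surjective x
      obtain ⟨b, rfl⟩ := QuotientGroup.mk_surjective y
      rw [← QuotientGroup.mk_mul, ← QuotientGroup.mk_mul, QuotientGroup.eq]
      refine NG_of_det ?_
      rw [map_mul, map_inv, map_mul, map_mul, mul_comm (LinearEquiv.det b), inv_mul_cancel]
    rintro S B z hS ⟨g, hg0⟩ hBb hz hBz hbr
    have hg : ∀ x, x ∈ S ⊓ NG p K V ↔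
        g⁻¹ * x * g ∈ (Q.map (jS p K V)).map (NG p K V).subtype := by
      intro x
      rw [hg0]
      exact mem_conjS
    have hmax : MaxIn p S := maxIn_of_block hS hz hBz hbr
    have hmapj : (Q.map (jS p K V)).map (NG p K V).subtype =
        Q.map (SpecialLinearGroup.toLinearEquiv (R := K) (V := V)) := by
      rw [Subgroup.map_map]
      rfl
    rw [hmapj] at hg
    -- the conjugation
    have hcg : ∀ x ∈ S ⊓ NG p K V, ∀ y ∈ S ⊓ NG p K V, x * y = y * x ∨
        (5 ≤ p ∧ x * y * x⁻¹ * y⁻¹ ∈ Subgroup.center (V ≃ₗ[K] V)) := by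
      intro x hx y hy
      obtain ⟨x', hx', hx1⟩ := (hg x).mp hx
      obtain ⟨y', hy', hy1⟩ := (hg y).mp hy
      rcases hab x' hx' y' hy' with h | ⟨h5, h⟩
      · left
        have h1 : g⁻¹ * x * g * (g⁻¹ * y * g) = g⁻¹ * y * g * (g⁻¹ * x * g) := by
          rw [← hx1, ← hy1, ← map_mul, ← map_mul, h]
        have h2 : g⁻¹ * (x * y) * g = g⁻¹ * (y * x) * g := by
          calc g⁻¹ * (x * y) * g = g⁻¹ * x * g * (g⁻¹ * y * g) := by group
            _ = g⁻¹ * y * g * (g⁻¹ * x * g) := h1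
            _ = g⁻¹ * (y * x) * g := by group
        exact mul_left_cancel (mul_right_cancel h2)
      · right
        refine ⟨h5, ?_⟩
        have h3 := center_of_center h
        rw [map_mul, map_mul, map_mul, map_inv, map_inv, hx1, hy1] at h3
        have h2 := Subgroup.Normal.conj_mem inferInstance _ h3 g
        have h4 : g * (g⁻¹ * x * g * (g⁻¹ * y * g) * (g⁻¹ * x * g)⁻¹ * (g⁻¹ * y * g)⁻¹) * g⁻¹ =
            x * y * x⁻¹ * y⁻¹ := by group
        rwa [h4] at h2
    let eQ : (S ⊓ NG p K V : Subgroup (V ≃ₗ[K] V)) ≃*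
        Q.map (SpecialLinearGroup.toLinearEquiv (R := K) (V := V)) :=
      { toFun := fun x => ⟨g⁻¹ * x * g, (hg x).mp x.2⟩
        invFun := fun x => ⟨g * x * g⁻¹, (hg _).mpr (by
          have h1 : g⁻¹ * (g * (x : V ≃ₗ[K] V) * g⁻¹) * g = x := by group
          rw [h1]
          exact x.2)⟩
        left_inv := fun x => Subtype.ext (by
          change g * (g⁻¹ * (x : V ≃ₗ[K] V) * g) * g⁻¹ = x
          group)
        right_inv := fun x => Subtype.ext (by
          change g⁻¹ * (g * (x : V ≃ₗ[K] V) * g⁻¹) * g = x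
          group)
        map_mul' := fun x y => Subtype.ext (by
          change g⁻¹ * ((x : V ≃ₗ[K] V) * y) * g = g⁻¹ * (x : V ≃ₗ[K] V) * g * (g⁻¹ * y * g)
          group) }
    let eQ2 : Q ≃* Q.map (SpecialLinearGroup.toLinearEquiv (R := K) (V := V)) :=
      Q.equivMapOfInjective _ SpecialLinearGroup.toLinearEquiv_injective
    have hcard : Nat.card (S ⊓ NG p K V : Subgroup (V ≃ₗ[K] V)) = Nat.card Q :=
      (Nat.card_congr eQ.toEquiv).trans (Nat.card_congr eQ2.toEquiv).symm
    have hdet : ∀ x : V ≃ₗ[K] V, LinearMap.det (x : V →ₗ[K] V) = 1 → x ∈ NG p K V := by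
      intro x hx
      refine NG_of_det (Units.ext ?_)
      rw [LinearEquiv.coe_det, hx, Units.val_one]
    have hSab : ∀ x ∈ S, ∀ y ∈ S, x * y = y * x :=
      hA S hS hmax fun x hx y hy hx1 hy1 => hcg x ⟨hx, hdet x hx1⟩ y ⟨hy, hdet y hy1⟩
    have hSN : S ⊓ NG p K V ≤ S ⊓ (LinearEquiv.det : (V ≃ₗ[K] V) →* Kˣ).ker := by
      rintro x ⟨hx, hxN⟩
      refine ⟨hx, ?_⟩
      obtain ⟨j, hj⟩ := hS ⟨x, hx⟩
      have hj : x ^ p ^ j = 1 := congrArg Subtype.val hj
      have hp : p.Prime := Fact.out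
      have hq1 : Nat.card K - 1 ≠ 0 := by
        have := Finite.one_lt_card (α := K)
        omega
      have h1 : (LinearEquiv.det x) ^ p ^ j = 1 := by rw [← map_pow, hj, map_one]
      have h2 := orderOf_dvd_of_pow_eq_one h1
      have h3 := orderOf_dvd_of_pow_eq_one (mem_NG.mp hxN)
      have h4 : Nat.Coprime (p ^ j) (ordCompl[p] (Nat.card K - 1)) :=
        (Nat.coprime_ordCompl hp hq1).pow_left j
      have h5 := Nat.eq_one_of_dvd_coprimes h4 h2 h3
      exact orderOf_eq_one_iff.mp h5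
    have hScard : Nat.card S ≤ n ^ 2 := by
      rcases H354.NumS.card_le_sq_or S hS hpK hSab hmax with h | h
      · exfalso
        apply hcyc
        haveI := h
        have h1 : IsCyclic (S ⊓ NG p K V : Subgroup (V ≃ₗ[K] V)) :=
          isCyclic_of_injective (Subgroup.inclusion inf_le_left) (Subgroup.inclusion_injective _)
        exact isCyclic_of_injective (eQ2.trans eQ.symm).toMonoidHom (eQ2.trans eQ.symm).injective
      · refine h.trans (Nat.pow_le_pow_left (le_trans ?_ hQn) 2)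
        rw [← hcard]
        refine Nat.card_le_card_of_injective (Subgroup.inclusion (inf_le_inf_left S ?_))
          (Subgroup.inclusion_injective _)
        exact fun x hx => NG_of_det hx
    exact oneBd_glb hpK hS hScard hSab
  · refine oneBd_slAll_ofA hpK ?_ hQ hQn ?_
    · intro S hS hmax h
      exact hA S hS hmax fun x hx y hy hx1 hy1 => Or.inl (h x hx y hy hx1 hy1)
    · intro x hx y hy
      rcases hab x hx y hy with h | ⟨-, h⟩
      · exact h
      · exact comm_of_weak hq hQ hx hy h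

end Vale.Agent.P180.H951
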