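import Vale.Agent.P180.H951.EvP
import Vale.Agent.P180.H951.GlueA
import Vale.Agent.P180.H951.GlueP
import Vale.Agent.P180.H951.GlueD
import Vale.Agent.P180.H951.Box1
import Vale.Agent.P180.H392.IndDef
import Vale.Agent.P180.H396.GeoC

/-! The step theorem, from the test idempotents. -/

set_option linter.all false

namespace Vale.Agent.P180.H951

universe u

open Module Subgroup Vale.Agent.P180 Vale.Agent.P180.H768.Gd Vale.Agent.P180.R2.H799
  Vale.Agent.P180.R2.H471.Hc Vale.Agent.P180.R2.H954.Hc Vale.Agent.P180.R2.H954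
  Vale.Agent.P180.R2.H12.Sl Vale.Agent.P180.H337 Vale.Agent.P180.R2.H854
open Vale.Agent.P180.H393 Vale.Agent.P180.H393.Fm Vale.Agent.P180.H392 Vale.Agent.P180.H392.Res
open Vale.Agent.P180.H568

/-- **The test idempotents**: for each primitive `ρ` and each `N` with `N deg ρ = rank`. -/
def TestStmt (k : Type u) [Field k] [IsAlgClosed k] [CharZero k] {K : Type} [Field K] [Finite K]
    {E : Type} [AddCommGroup E] [Module K E] [Finite (E ≃ₗ[K] E)]
    {Φ : HForm K E} {ι : Type} [Fintype ι] [DecidableEq ι] (P : Hyp Φ ι)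
    [DecidableEq (Om k K)] : Prop :=
  ∀ (ρ : Om k K) (N : ℕ), (glPSH k K).Prim ρ → N * ρ.deg = Fintype.card ι →
    ∃ e : MonoidAlgebra k ((ι → K) ≃ₗ[K] (ι → K)), e * e = e ∧
      (∀ w : Om k K, w.deg = Fintype.card ι → ev (X w (ι → K)) e =
        (((glPSH k K).cnt (Fintype.card ι) (List.replicate N ρ) (glPSH k K).one w : ℕ) : k)) ∧
      EvP k (IsoG Φ) P.Fx (BN.av k P.UU * mi k P.gl e) N.factorial

/-- the bound of one step -/
noncomputable def stB (p n B : ℕ) : ℕ := n ^ 2 * (n.factorial * (B * glC p n)) ^ 2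

theorem step_of_test {k : Type u} [Field k] [IsAlgClosed k] {p : ℕ} [Fact p.Prime] [CharP k p]
    [CharZero (KK k p)] {K : Type} [Field K] [Finite K] {E : Type} [AddCommGroup E] [Module K E]
    [FiniteDimensional K E] [Finite (E ≃ₗ[K] E)] [DecidableEq (Om (KK k p) K)]
    {Φ : HForm K E} {ι : Type} [Fintype ι] [DecidableEq ι] {P : Hyp Φ ι}
    [Finite (W P ≃ₗ[K] W P)] {Q : Subgroup (E ≃ₗ[K] E)} (hpK : ¬ p ∣ Nat.card K)
    (hQS : Q ≤ IsoG Φ) (hQ : IsPGroup p Q) {n : ℕ} (hQn : Nat.card Q ≤ n)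
    (hab : ∀ x ∈ Q, ∀ y ∈ Q, x * y = y * x) (hG : GoodHyp P Q)
    (hTest : TestStmt (KK k p) P) {B : ℕ} (hB : OneBd k (QC P Q) B) :
    OneBd k (Q.subgroupOf (IsoG Φ)) (stB p n B) := by
  classical
  have hp : p.Prime := Fact.out
  have hfE : Finite E := Module.finite_of_finite K
  have hfW : Finite (ι → K) := inferInstance
  have hfintA : Fintype (IsoG (res P)) := Fintype.ofFinite _
  have hfintS : Fintype (IsoG Φ) := Fintype.ofFinite _
  set S : Subgroup (E ≃ₗ[K] E) := IsoG Φ with hS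
  have hMS : MM P ≤ S := fun g hg => hg.1
  have hUS : P.UU ≤ S := fun g hg => hg.1
  set U : Subgroup S := P.UU.subgroupOf S with hU
  set M : Subgroup S := (MM P).subgroupOf S with hM
  set Q' : Subgroup S := Q.subgroupOf S with hQ'
  have hfintM : Fintype M := Fintype.ofFinite _
  have hfintU : Fintype U := Fintype.ofFinite _
  let eM : IsoG (res P) × ((ι → K) ≃ₗ[K] (ι → K)) ≃* M :=
    (mmE P).trans (Subgroup.subgroupOfEquivOfLe hMS).symm
  have heM : ∀ z, (((eM z : M) : S) : E ≃ₗ[K] E) =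
      ((fxEquiv P z.1 : P.Fx) : E ≃ₗ[K] E) * P.gl z.2 := fun z => rfl
  have hmap : Q'.map S.subtype = Q := Subgroup.map_subgroupOf_eq_of_le hQS
  have hQ'p : IsPGroup p Q' := hQ.comap_of_injective S.subtype S.subtype_injective
  have hcard : Nat.card Q' = Nat.card Q := Nat.card_congr (Subgroup.subgroupOfEquivOfLe hQS).toEquiv
  have hQM : Q' ≤ M := fun x hx => hG.le hx
  have hab' : ∀ x ∈ Q', ∀ y ∈ Q', x * y = y * x := fun x hx y hy => Subtype.ext (hab _ hx _ hy)
  -- the image of `Q` in the product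
  set QP : Subgroup (IsoG (res P) × ((ι → K) ≃ₗ[K] (ι → K))) :=
    (Q.subgroupOf (MM P)).map (mmE P).symm.toMonoidHom with hQP
  have hQPm : ∀ z, z ∈ QP ↔ ((mmE P z : MM P) : E ≃ₗ[K] E) ∈ Q := by
    intro z
    rw [hQP]
    constructor
    · rintro ⟨x, hx, rfl⟩
      change ((mmE P ((mmE P).symm x) : MM P) : E ≃ₗ[K] E) ∈ Q
      rw [(mmE P).apply_symm_apply]
      exact hx
    · intro hz
      exact ⟨mmE P z, hz, (mmE P).symm_apply_apply z⟩
  have hQPe : QP.map eM.toMonoidHom = Q'.subgroupOf M := by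
    ext x
    constructor
    · rintro ⟨z, hz, rfl⟩
      exact (hQPm z).mp hz
    · intro hx
      refine ⟨eM.symm x, (hQPm _).mpr ?_, eM.apply_symm_apply x⟩
      have h1 : (((eM (eM.symm x) : M) : S) : E ≃ₗ[K] E) ∈ Q := by
        rw [eM.apply_symm_apply]
        exact hx
      exact h1
  have hQPe' : (Q'.subgroupOf M).map eM.symm.toMonoidHom = QP := by
    rw [← hQPe, Subgroup.map_map]
    have h1 : eM.symm.toMonoidHom.comp eM.toMonoidHom = MonoidHom.id _ :=
      MonoidHom.ext fun z => eM.symm_apply_apply z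
    rw [h1, Subgroup.map_id]
  have hQPp : IsPGroup p QP := by
    rw [← hQPe']
    exact (hQ'p.comap_of_injective M.subtype M.subtype_injective).map _
  have hQPn : Nat.card QP ≤ n := by
    have h1 : Nat.card QP = Nat.card (Q'.subgroupOf M) := by
      rw [← hQPe]
      exact Nat.card_congr (QP.equivMapOfInjective _ eM.injective).toEquiv
    rw [h1, Nat.card_congr (Subgroup.subgroupOfEquivOfLe hQM).toEquiv, hcard]
    exact hQn
  have hQPab : ∀ x ∈ QP, ∀ y ∈ QP, x * y = y * x := by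
    intro x hx y hy
    apply (mmE P).injective
    apply Subtype.ext
    rw [map_mul, map_mul]
    exact hab _ ((hQPm x).mp hx) _ ((hQPm y).mp hy)
  have hQAp : IsPGroup p (QA P Q) := hQPp.map _
  have hQAn : Nat.card (QA P Q) ≤ n :=
    (Nat.card_le_card_of_surjective _ (MonoidHom.subgroupMap_surjective
      (MonoidHom.snd (IsoG (res P)) ((ι → K) ≃ₗ[K] (ι → K))) QP)).trans hQPn
  have hQAab : ∀ x ∈ QA P Q, ∀ y ∈ QA P Q, x * y = y * x := by
    rintro _ ⟨x, hx, rfl⟩ _ ⟨y, hy, rfl⟩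
    rw [← map_mul, ← map_mul, hQPab x hx y hy]
  -- the Levi subgroup
  have hOM : OneBd k (Q'.subgroupOf M) (B * glC p n) := by
    have h1 : OneBd k QP (B * glC p n) := oneBd_prod hQPp hB (oneBd_glb hpK hQAp hQAn hQAab)
    rw [← hQPe]
    refine oneBd_quot (q := eM.toMonoidHom) eM.surjective ?_ ?_ hQPp h1
    · intro x hx g
      have h2 : x = 1 := eM.injective (hx.trans (map_one eM).symm)
      rw [h2, one_mul, mul_one]
    · have h2 : eM.toMonoidHom.ker = ⊥ := (MonoidHom.ker_eq_bot_iff _).mpr eM.injective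
      rw [h2, Subgroup.card_bot]
      exact hp.one_lt.ne' ∘ Nat.dvd_one.mp
  -- the parabolic subgroup
  have hpU : ¬ p ∣ Nat.card U := by
    rw [hU, Nat.card_congr (Subgroup.subgroupOfEquivOfLe hUS).toEquiv]
    exact H396.not_dvd_card_UU hp hpK
  have hMU : M ≤ normalizer (U : Set S) := by
    intro g hg
    have h1 := MM_le_normalizer (P := P) hg
    rw [Subgroup.mem_normalizer_iff] at h1 ⊢
    exact fun h => h1 h
  have hCM : centralizer (Q' : Set S) ≤ M := by
    intro g hg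
    refine hG.cent _ g.2 fun q hq => ?_
    have h1 := Subgroup.mem_centralizer_iff.mp hg ⟨q, hQS hq⟩ hq
    exact (congrArg Subtype.val h1).symm
  have hCU : U ⊓ centralizer (Q' : Set S) = ⊥ := by
    rw [eq_bot_iff]
    intro g hg
    rw [Subgroup.mem_bot]
    apply Subtype.ext
    refine hG.triv _ hg.1 fun q hq => ?_
    have h1 := Subgroup.mem_centralizer_iff.mp hg.2 ⟨q, hQS hq⟩ hq
    exact (congrArg Subtype.val h1).symm
  have hmain : OneBd k Q' (Nat.card Q' ^ 2 * (n.factorial * (B * glC p n)) ^ 2) := by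
    refine oneBd_par (p := p) hpU hMU hQ'p hQM hCM hCU hab' hOM ?_
    intro f z j J hf hz hzF hfz hbr hfj hjM hJJ hJM hJj χ hχ
    set JK := MonoidAlgebra.mapRingHom S (toKK k p) J with hJK
    have hJKM : JK ∈ SubAlg (KK k p) M := by
      intro x hx
      rw [hJK, MonoidAlgebra.coeff_mapRingHom] at hx
      exact hJM x fun h => hx (by rw [h, map_zero])
    refine mult_le hχ hMU eM hJKM (by rw [hJK, ← map_mul, hJJ]) ?_
    intro ψ σ hne
    -- the block of the second factor
    have hπι : ∀ b, (MonoidHom.snd _ _).comp eM.symm.toMonoidHom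
        ((eM.toMonoidHom.comp (MonoidHom.inr (IsoG (res P)) ((ι → K) ≃ₗ[K] (ι → K)))) b) = b := by
      intro b
      change (eM.symm (eM (1, b))).2 = b
      rw [eM.symm_apply_apply]
    have hcc : ∀ b m, (MonoidHom.snd _ _).comp eM.symm.toMonoidHom m = 1 →
        (eM.toMonoidHom.comp (MonoidHom.inr (IsoG (res P)) ((ι → K) ≃ₗ[K] (ι → K)))) b * m =
        m * (eM.toMonoidHom.comp (MonoidHom.inr (IsoG (res P)) ((ι → K) ≃ₗ[K] (ι → K)))) b := by
      intro b m hm
      obtain ⟨⟨a', b'⟩, rfl⟩ := eM.surjective m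
      change (eM.symm (eM (a', b'))).2 = 1 at hm
      rw [eM.symm_apply_apply] at hm
      change b' = 1 at hm
      subst hm
      change eM (1, b) * eM (a', 1) = eM (a', 1) * eM (1, b)
      rw [← map_mul, ← map_mul, Prod.mk_mul_mk, Prod.mk_mul_mk, one_mul, mul_one, one_mul, mul_one]
    obtain ⟨g, a, hg, ha, hga, hbg, hgf⟩ := exists_factor' (k := k)
      (ι := eM.toMonoidHom.comp (MonoidHom.inr (IsoG (res P)) ((ι → K) ≃ₗ[K] (ι → K))))
      (π := (MonoidHom.snd _ _).comp eM.symm.toMonoidHom) hπι hcc hQ'p hQM hf hz hzF hfz hbr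
    have hR : (Q'.subgroupOf M).map ((MonoidHom.snd (IsoG (res P)) ((ι → K) ≃ₗ[K] (ι → K))).comp
        eM.symm.toMonoidHom) = QA P Q := by
      rw [← Subgroup.map_map, hQPe']
      rfl
    rw [hR] at ha hga hbg
    obtain ⟨E', hEc, hEE, hEg⟩ := exists_central_lift (p := p)
      (fun x => commute_of_mem (SubAlg_top x) hg.mem.2) hg.idem.eq
    have hgj : MonoidAlgebra.mapDomain (M.subtype.comp (eM.toMonoidHom.comp
        (MonoidHom.inr (IsoG (res P)) ((ι → K) ≃ₗ[K] (ι → K))))) g * j = j := by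
      rw [← hfj, ← mul_assoc, hgf]
    obtain ⟨w, hw, hwσ⟩ := exists_om (F := K) (V := ι → K) σ.2
    have hev := ev_factor_ne' (k := k) (p := p) hπι hcc hgj hJJ hJM hJj hEc hEE hEg
      (eIr (KK k p) eM (ψ, σ)).2 hne (m := ψ.1 1) (ξ := σ.1) (fun b => by
        rw [eIr_apply]
        change ψ.1 (eM.symm (eM (1, b))).1 * σ.1 (eM.symm (eM (1, b))).2 = _
        rw [eM.symm_apply_apply])
    rw [← hwσ] at hev
    have hBD : BD (ι → K) (QA P Q) g a E' w :=
      { pg := hQAp
        nt := hG.nt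
        ab := hQAab
        hom := hG.hom
        blk := hg
        fix := ha
        tra := hga
        bra := hbg
        cen := hEc
        idm := hEE
        red := hEg
        deg := hw
        evn := hev }
    obtain ⟨ρ, N, hρ, hN, hNd, hcnt⟩ := box1 hpK hBD
    rw [hw, finrank_fintype_fun_eq_card] at hNd hcnt
    obtain ⟨e, he, hee, hEv⟩ := hTest ρ N hρ hNd
    obtain ⟨m, hm, hmx⟩ := EvP.transport hUS eM (fxEquiv P) P.gl heM hEv hχ
    refine ⟨e, m, he, ?_, fun ψ => (hm ψ).trans (Nat.factorial_le (hN.trans hQAn)), hmx⟩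
    rw [← hwσ, hee w (by rw [hw, finrank_fintype_fun_eq_card])]
    exact Nat.cast_ne_zero.mpr hcnt
  intro e a he ha hea hbr
  obtain ⟨i, h1, h2, h3, h4, h5⟩ := hmain e a he ha hea hbr
  refine ⟨i, h1, h2, h3, h4, h5.trans ?_⟩
  unfold stB
  rw [hcard]
  exact Nat.mul_le_mul_right _ (Nat.pow_le_pow_left hQn 2)

end Vale.Agent.P180.H951
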