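import Vale.Agent.P180.H354.Count

/-! Irreducible characters of a finite group over algebraically closed fields of characteristic
zero: extension of the field. -/

set_option linter.all false

namespace Vale.Agent.P180.H951.Tr

open Finset Vale.Agent.P180.R2.H471.Hc
open Vale.Agent.P180.H393 (IsIr ev IsCh.cf)
open Vale.Agent.P180.H354
open P179P (Irr)

open scoped Classical TensorProduct

universe u

/-- the algebraic numbers -/
abbrev Qb : Type := AlgebraicClosure ℚ

section

variable {K : Type} [Field K] {K' : Type u} [Field K'] (ι : K →+* K') {H : Type} [Group H]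

theorem isCh_map {φ : H → K} (h : IsCh K H φ) : IsCh K' H (fun x => ι (φ x)) := by
  letI := ι.toAlgebra
  obtain ⟨V, _, _, _, ρ, hρ⟩ := h
  refine ⟨K' ⊗[K] V, inferInstance, inferInstance, inferInstance,
    ((Module.End.baseChangeHom K K' V : Module.End K V →ₐ[K] Module.End K' (K' ⊗[K] V)) :
      Module.End K V →* Module.End K' (K' ⊗[K] V)).comp ρ, fun x => ?_⟩
  have h1 := LinearMap.trace_baseChange (ρ x) K'
  change LinearMap.trace K' (K' ⊗[K] V) ((ρ x).baseChange K') = _
  rw [h1]
  change ι (ρ.character x) = ι (φ x)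
  rw [hρ]

variable [Fintype H]

theorem ip_map (φ ψ : H → K) : ip (fun x => ι (φ x)) (fun x => ι (ψ x)) = ι (ip φ ψ) := by
  unfold ip
  rw [map_mul, map_inv₀, map_natCast, map_sum]
  congr 1
  exact Finset.sum_congr rfl fun x _ => (map_mul ι _ _).symm

theorem isIr_map {φ : H → K} (h : IsIr K H φ) : IsIr K' H (fun x => ι (φ x)) :=
  ⟨isCh_map ι h.1, by rw [ip_map, h.2, map_one]⟩

end

section

variable {K : Type u} [Field K] [CharZero K] {H : Type} [Group H] [Fintype H]

/-- a complete system of irreducible characters contains each irreducible character -/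
theorem ct_unique {I : Type*} [Fintype I] {χ : I → H → K} (hct : CT χ)
    (hir : ∀ i, IsIr K H (χ i)) {ψ : H → K} (hψ : IsIr K H ψ) : ∃ i, χ i = ψ := by
  have h3 : ∀ x, ψ x = ∑ i, ip ψ (χ i) * χ i x := fun x => hct.exp ψ (IsCh.cf hψ.1) x
  choose m hm using fun i => hψ.1.ip_nat (hir i).1
  have h6 : ip ψ ψ = ∑ i, (m i : K) * m i := by
    have h8 : ∀ h : H, ψ h * ψ h⁻¹ = ∑ i, ip ψ (χ i) * (χ i h * ψ h⁻¹) := by
      intro h
      conv_lhs => rw [h3 h]
      rw [Finset.sum_mul]
      exact Finset.sum_congr rfl fun i _ => by ring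
    rw [show ip ψ ψ = (Nat.card H : K)⁻¹ * ∑ h, ψ h * ψ h⁻¹ from rfl,
      Finset.sum_congr rfl fun h _ => h8 h, Finset.sum_comm, Finset.mul_sum]
    refine Finset.sum_congr rfl fun i _ => ?_
    rw [← Finset.mul_sum, ← mul_assoc, mul_comm _ (ip ψ (χ i)), mul_assoc, hm]
    congr 1
    rw [← hm i, ip_comm]
    rfl
  rw [hψ.2] at h6
  have h7 : ∑ i, m i * m i = 1 := by exact_mod_cast h6.symm
  have h9 : ∃ i, m i ≠ 0 := by
    by_contra hcon
    push Not at hcon
    rw [Finset.sum_eq_zero fun i _ => by rw [hcon i, mul_zero]] at h7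
    exact absurd h7 (by norm_num)
  obtain ⟨i, hi⟩ := h9
  rw [← Finset.add_sum_erase _ _ (Finset.mem_univ i)] at h7
  have h10 : 1 ≤ m i * m i := Nat.one_le_iff_ne_zero.2 (mul_ne_zero hi hi)
  have h11 : m i * m i = 1 := by omega
  have h12 : ∑ x ∈ univ.erase i, m x * m x = 0 := by omega
  have h13 : m i = 1 := Nat.eq_one_of_mul_eq_one_right h11
  refine ⟨i, ?_⟩
  funext a
  rw [h3 a, Finset.sum_eq_single i]
  · rw [hm, h13, Nat.cast_one, one_mul]
  · intro j _ hj
    have h14 := (Finset.sum_eq_zero_iff.1 h12) j (Finset.mem_erase.2 ⟨hj, Finset.mem_univ j⟩)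
    have h15 : m j = 0 := by
      rcases Nat.mul_eq_zero.1 h14 with h | h <;> exact h
    rw [hm, h15, Nat.cast_zero, zero_mul]
  · intro h
    exact absurd (Finset.mem_univ i) h

end

section

variable {K : Type} [Field K] [CharZero K] {K' : Type u} [Field K'] [CharZero K'] (ι : K →+* K')
  {H : Type} [Group H] [Fintype H]

theorem ct_map {I : Type*} [Fintype I] {χ : I → H → K} (hct : CT χ) (hir : ∀ i, IsIr K H (χ i)) :
    CT (fun i x => ι (χ i x)) where
  conj i := fun g x => congrArg ι (hct.conj i g x)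
  orth i j := by
    have h := congrArg ι (hct.orth i j)
    rw [map_mul, map_inv₀, map_natCast, map_sum] at h
    simp only [map_mul] at h
    rw [h]
    split_ifs <;> simp
  exp f hf x := by
    have _ := Fintype.ofFinite (ConjClasses H)
    have h1 : ∀ C : ConjClasses H, ((P179C.ind C x : ℤ) : K') =
        ∑ g, ((P179C.ind C g : ℤ) : K') * ((Nat.card H : K')⁻¹ *
          ∑ i, ι (χ i g⁻¹) * ι (χ i x)) := by
      intro C
      have h2 := hct.exp (fun g => ((P179C.ind C g : ℤ) : K))
        (fun a b => congrArg (fun n : ℤ => (n : K)) (P179C.isCF_ind C a b)) x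
      have h3 := congrArg ι h2
      rw [map_intCast, map_sum] at h3
      rw [h3]
      simp only [map_mul, map_inv₀, map_natCast, map_sum, map_intCast, Finset.mul_sum,
        Finset.sum_mul]
      rw [Finset.sum_comm]
      exact Finset.sum_congr rfl fun g _ => Finset.sum_congr rfl fun i _ => by ring
    have h4 : ∑ i, ((Nat.card H : K')⁻¹ * ∑ g, f g * ι (χ i g⁻¹)) * ι (χ i x) =
        ∑ g, f g * ((Nat.card H : K')⁻¹ * ∑ i, ι (χ i g⁻¹) * ι (χ i x)) := by
      simp only [Finset.mul_sum, Finset.sum_mul]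
      rw [Finset.sum_comm]
      exact Finset.sum_congr rfl fun g _ => Finset.sum_congr rfl fun i _ => by ring
    rw [h4, P179C.cf_eq_sum hf x, Finset.sum_congr rfl fun C _ => by rw [h1 C]]
    simp only [Finset.mul_sum]
    rw [Finset.sum_comm]
    refine Finset.sum_congr rfl fun g _ => ?_
    rw [P179C.cf_eq_sum hf g]
    simp only [Finset.sum_mul, Finset.mul_sum]
    rw [Finset.sum_comm]
    refine Finset.sum_congr rfl fun i _ => Finset.sum_congr rfl fun C _ => by ring
  ev i z hz y := eigen (isIr_map ι (hir i)) hz y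

end

end Vale.Agent.P180.H951.Tr
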