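import Vale.Agent.P180.H951.TrpA

/-! Reduction of algebraic integers: the complex numbers and an algebraic closure of the fraction
field of the Witt vectors. -/

set_option linter.all false

namespace Vale.Agent.P180.H951.Tr

open Finset Vale.Agent.P180.R2.H471.Hc
open Vale.Agent.P180.H393 (IsIr ev IsCh.cf)
open Vale.Agent.P180.R2.H954.Hc (KK toKK charZero_KK)
open Vale.Agent.P180.H354
open P179P (Irr)

open scoped Classical

universe u

/-- A surjection onto an algebraically closed field extends to an integral extension. -/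
theorem exists_extend {R S : Type*} {k : Type*} [CommRing R] [CommRing S] [Field k]
    [IsAlgClosed k] [Algebra R S] [Algebra.IsIntegral R S]
    (hinj : Function.Injective (algebraMap R S)) (φ : R →+* k) (hφ : Function.Surjective φ) :
    ∃ ρ : S →+* k, ∀ r, ρ (algebraMap R S r) = φ r := by
  have hmax : (RingHom.ker φ).IsMaximal := RingHom.ker_isMaximal_of_surjective φ hφ
  obtain ⟨M, hM, hMc⟩ := Ideal.exists_ideal_over_maximal_of_isIntegral (S := S)
    (RingHom.ker φ) (by
      rw [(RingHom.injective_iff_ker_eq_bot _).1 hinj]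
      exact bot_le)
  let _ : Field (S ⧸ M) := Ideal.Quotient.field M
  let g : R →+* S ⧸ M := (Ideal.Quotient.mk M).comp (algebraMap R S)
  have hker : RingHom.ker φ ≤ RingHom.ker g := by
    intro r hr
    rw [RingHom.mem_ker]
    change Ideal.Quotient.mk M _ = 0
    rw [Ideal.Quotient.eq_zero_iff_mem, ← Ideal.mem_comap, hMc]
    exact hr
  let f : k →+* S ⧸ M := (φ.liftOfSurjective hφ) ⟨g, hker⟩
  have hf : ∀ r, f (φ r) = g r := fun r =>
    RingHom.liftOfSurjective_comp_apply φ hφ ⟨g, hker⟩ r
  have hint : f.IsIntegral := by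
    intro x
    obtain ⟨y, rfl⟩ := Ideal.Quotient.mk_surjective x
    obtain ⟨P, hP, hy⟩ := Algebra.IsIntegral.isIntegral (R := R) y
    refine ⟨P.map φ, hP.map φ, ?_⟩
    have h1 : f.comp φ = (Ideal.Quotient.mk M).comp (algebraMap R S) := RingHom.ext hf
    rw [Polynomial.eval₂_map, h1, ← Polynomial.hom_eval₂, hy, map_zero]
  have hb := IsAlgClosed.ringHom_bijective_of_isIntegral f hint
  let e : k ≃+* S ⧸ M := RingEquiv.ofBijective f hb
  refine ⟨(e.symm : S ⧸ M →+* k).comp (Ideal.Quotient.mk M), fun r => ?_⟩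
  change e.symm (Ideal.Quotient.mk M (algebraMap R S r)) = φ r
  rw [RingEquiv.symm_apply_eq]
  exact (hf r).symm

/-- The reduction of algebraic integers, for two fields of characteristic zero at once. -/
structure Trp (k : Type u) [Field k] [IsAlgClosed k] (p : ℕ) [Fact p.Prime] [CharP k p] where
  /-- the embedding into the complex numbers -/
  i1 : Qb →+* ℂ
  /-- the embedding into the other field -/
  i2 : Qb →+* KK k p
  /-- the reduction -/
  red : integralClosure ℤ ℂ →+* k
  /-- the reduction -/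
  rho : integralClosure (WittVector p k) (KK k p) →+* k
  rho_alg : ∀ w : WittVector p k, rho (algebraMap _ _ w) = WittVector.constantCoeff w
  compat : ∀ (y : Qb) (h1 : i1 y ∈ integralClosure ℤ ℂ)
    (h2 : i2 y ∈ integralClosure (WittVector p k) (KK k p)), red ⟨i1 y, h1⟩ = rho ⟨i2 y, h2⟩

theorem exists_trp (k : Type u) [Field k] [IsAlgClosed k] (p : ℕ) [Fact p.Prime] [CharP k p] :
    Nonempty (Trp k p) := by
  have hcz := charZero_KK k p
  have halg : Algebra.IsAlgebraic ℚ Qb := by
    have h := AlgebraicClosure.isAlgebraic ℚ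
    have e : (AlgebraicClosure.instAlgebra ℚ : Algebra ℚ (AlgebraicClosure ℚ)) =
        DivisionRing.toRatAlgebra := Subsingleton.elim _ _
    rw [e] at h
    exact h
  let i1 : Qb →ₐ[ℚ] ℂ := IsAlgClosed.lift
  let i2 : Qb →ₐ[ℚ] KK k p := IsAlgClosed.lift
  obtain ⟨rho, hrho⟩ := exists_extend (R := WittVector p k)
    (S := integralClosure (WittVector p k) (KK k p)) (k := k) (by
      intro x y hxy
      exact toKK_injective (congrArg Subtype.val hxy)) WittVector.constantCoeff
    (WittVector.constantCoeff_surjective p)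
  let j1 : Qb →ₐ[ℤ] ℂ := i1.toRingHom.toIntAlgHom
  let f1 : integralClosure ℤ Qb →+* integralClosure ℤ ℂ := (j1.mapIntegralClosure).toRingHom
  have hf1 : ∀ y, ((f1 y : integralClosure ℤ ℂ) : ℂ) = i1 (y : Qb) := fun y => rfl
  have hbij : Function.Bijective f1 := by
    constructor
    · intro x y hxy
      exact Subtype.ext (i1.injective (congrArg Subtype.val hxy))
    · rintro ⟨x, hx⟩
      have hxQ : IsIntegral ℚ x := IsIntegral.tower_top (R := ℤ) hx
      have h1 := (IsAlgClosed.splits ((minpoly ℚ x).map (algebraMap ℚ Qb))).image_rootSet i1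
      have h2 : x ∈ (minpoly ℚ x).rootSet ℂ := by
        rw [Polynomial.mem_rootSet]
        exact ⟨minpoly.ne_zero hxQ, minpoly.aeval ℚ x⟩
      rw [← h1] at h2
      obtain ⟨y, -, hy⟩ := h2
      have hyI : IsIntegral ℤ y := by
        refine (isIntegral_algHom_iff j1 i1.injective).1 ?_
        change IsIntegral ℤ (i1 y)
        rw [hy]
        exact hx
      exact ⟨⟨y, hyI⟩, Subtype.ext hy⟩
  let e1 : integralClosure ℤ Qb ≃+* integralClosure ℤ ℂ := RingEquiv.ofBijective f1 hbij
  have hf2 : ∀ y : integralClosure ℤ Qb, i2 (y : Qb) ∈ integralClosure (WittVector p k) (KK k p) := by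
    intro y
    obtain ⟨P, hP, h⟩ := y.2
    refine ⟨P.map (algebraMap ℤ (WittVector p k)), hP.map _, ?_⟩
    have h1 : (algebraMap (WittVector p k) (KK k p)).comp (algebraMap ℤ (WittVector p k)) =
        i2.toRingHom.comp (algebraMap ℤ Qb) := RingHom.ext_int _ _
    rw [Polynomial.eval₂_map, h1]
    have h2 := Polynomial.hom_eval₂ P (algebraMap ℤ Qb) i2.toRingHom (y : Qb)
    rw [h, map_zero] at h2
    exact h2.symm
  let f2 : integralClosure ℤ Qb →+* integralClosure (WittVector p k) (KK k p) :=
    { toFun := fun y => ⟨i2 (y : Qb), hf2 y⟩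
      map_one' := Subtype.ext (map_one i2)
      map_zero' := Subtype.ext (map_zero i2)
      map_add' := fun x y => Subtype.ext (map_add i2 _ _)
      map_mul' := fun x y => Subtype.ext (map_mul i2 _ _) }
  refine ⟨⟨i1, i2, rho.comp (f2.comp (e1.symm : integralClosure ℤ ℂ →+* integralClosure ℤ Qb)),
    rho, hrho, ?_⟩⟩
  intro y h1 h2
  have hy : IsIntegral ℤ y := (isIntegral_algHom_iff j1 i1.injective).1 h1
  have h3 : e1.symm ⟨i1 y, h1⟩ = ⟨y, hy⟩ := by
    rw [RingEquiv.symm_apply_eq]
    exact Subtype.ext rfl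
  change rho (f2 (e1.symm ⟨i1 y, h1⟩)) = _
  rw [h3]
  rfl

end Vale.Agent.P180.H951.Tr
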