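import Vale.Agent.P180.H951.TrpB

/-! Irreducible characters over the complex numbers and over an algebraic closure of the fraction
field of the Witt vectors: the dictionary. -/

set_option linter.all false

namespace Vale.Agent.P180.H951.Tr

open Finset Vale.Agent.P180.R2.H471.Hc
open Vale.Agent.P180.H393 (IsIr ev IsCh.cf)
open Vale.Agent.P180.R2.H954.Hc (KK toKK charZero_KK)
open Vale.Agent.P180.H354
open P179P (Irr)
open P179C (ind isCF_ind lam redC_of_mem)

open scoped Classical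

universe u

section

variable {G : Type} [Group G] [Fintype G]

/-- a complex irreducible character is one in the other sense -/
theorem irr_isIr (χ : Irr G) : IsIr ℂ G χ.1 := by
  have h1 := (ct_complex (G := G)).orth χ χ
  rw [if_pos rfl] at h1
  obtain ⟨n, ρ, hρ, he⟩ := χ.2
  exact ⟨⟨Fin n → ℂ, inferInstance, inferInstance, inferInstance, ρ, fun h => congrFun he h⟩, h1⟩

theorem exists_irr_c {ψ : G → ℂ} (h : IsIr ℂ G ψ) : ∃ χ : Irr G, χ.1 = ψ :=
  ct_unique (ct_complex (G := G)) irr_isIr h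

end

section

variable {k : Type u} [Field k] [IsAlgClosed k] {p : ℕ} [Fact p.Prime] [CharP k p] (T : Trp k p)

theorem Trp.int_c {y : Qb} (h : T.i1 y ∈ integralClosure ℤ ℂ) : IsIntegral ℤ y :=
  (isIntegral_algHom_iff T.i1.toIntAlgHom T.i1.injective).1 h

theorem Trp.int_K {y : Qb} (h : IsIntegral ℤ y) :
    T.i2 y ∈ integralClosure (WittVector p k) (KK k p) := by
  obtain ⟨P, hP, h⟩ := h
  refine ⟨P.map (algebraMap ℤ (WittVector p k)), hP.map _, ?_⟩
  have h1 : (algebraMap (WittVector p k) (KK k p)).comp (algebraMap ℤ (WittVector p k)) =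
      T.i2.comp (algebraMap ℤ Qb) := RingHom.ext_int _ _
  rw [Polynomial.eval₂_map, h1]
  have h2 := Polynomial.hom_eval₂ P (algebraMap ℤ Qb) T.i2 y
  rw [h, map_zero] at h2
  exact h2.symm

variable {G : Type} [Group G] [Fintype G]

theorem Trp.ir_K {χ0 : G → Qb} (h : IsIr Qb G χ0) : IsIr (KK k p) G (fun g => T.i2 (χ0 g)) :=
  isIr_map T.i2 h

theorem Trp.ir_c {χ0 : G → Qb} (h : IsIr Qb G χ0) : ∃ χc : Irr G, ∀ g, χc.1 g = T.i1 (χ0 g) := by
  obtain ⟨χ, hχ⟩ := exists_irr_c (isIr_map T.i1 h)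
  exact ⟨χ, fun g => congrFun hχ g⟩

theorem Trp.exists_of_K {χ : G → KK k p} (h : IsIr (KK k p) G χ) :
    ∃ χ0 : G → Qb, IsIr Qb G χ0 ∧ ∀ g, χ g = T.i2 (χ0 g) := by
  have := charZero_KK k p
  obtain ⟨n, χ0, hct, hir, hinj, hsurj⟩ := exists_ct (K := Qb) (H := G)
  obtain ⟨i, hi⟩ := ct_unique (ct_map T.i2 hct hir) (fun i => isIr_map T.i2 (hir i)) h
  exact ⟨χ0 i, hir i, fun g => (congrFun hi g).symm⟩

theorem Trp.exists_of_c (χ : Irr G) :
    ∃ χ0 : G → Qb, IsIr Qb G χ0 ∧ ∀ g, χ.1 g = T.i1 (χ0 g) := by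
  obtain ⟨n, χ0, hct, hir, hinj, hsurj⟩ := exists_ct (K := Qb) (H := G)
  obtain ⟨i, hi⟩ := ct_unique (ct_map T.i1 hct hir) (fun i => isIr_map T.i1 (hir i)) (irr_isIr χ)
  exact ⟨χ0 i, hir i, fun g => (congrFun hi g).symm⟩

/-- **The dictionary for characters** -/
theorem Trp.exists_c {χ : G → KK k p} (h : IsIr (KK k p) G χ) :
    ∃ (χ0 : G → Qb) (χc : Irr G), IsIr Qb G χ0 ∧ (∀ g, χ g = T.i2 (χ0 g)) ∧
      ∀ g, χc.1 g = T.i1 (χ0 g) := by
  obtain ⟨χ0, h0, h1⟩ := T.exists_of_K h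
  obtain ⟨χc, h2⟩ := T.ir_c h0
  exact ⟨χ0, χc, h0, h1, h2⟩

/-- **The dictionary for blocks** -/
theorem Trp.ev_iff {χ0 : G → Qb} (h0 : IsIr Qb G χ0) (χc : Irr G)
    (hc : ∀ g, χc.1 g = T.i1 (χ0 g)) {e : MonoidAlgebra k G}
    {E : MonoidAlgebra (WittVector p k) G} (hEc : ∀ x, x * E = E * x) (hEE : E * E = E)
    (hEe : MonoidAlgebra.mapRingHom G (WittVector.constantCoeff (p := p) (R := k)) E = e) :
    (ev (fun g => T.i2 (χ0 g)) (MonoidAlgebra.mapRingHom G (toKK k p) E) ≠ 0 →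
      lam T.red χc.1 (fun g => e.coeff g) = 1) ∧
    (ev (fun g => T.i2 (χ0 g)) (MonoidAlgebra.mapRingHom G (toKK k p) E) = 0 →
      lam T.red χc.1 (fun g => e.coeff g) = 0) := by
  have hcz := charZero_KK k p
  have _ := Fintype.ofFinite (ConjClasses G)
  set EK := MonoidAlgebra.mapRingHom G (toKK k p) E with hEK
  have hEKc : ∀ x, x * EK = EK * x := R2.H12.Sl.mapRingHom_central _ hEc
  have hEKE : EK * EK = EK := by rw [hEK, ← map_mul, hEE]
  have hcf : P179C.IsCF (fun g => EK.coeff g) := by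
    rw [← P179C.mem_center_iff, Subalgebra.mem_center_iff]
    exact hEKc
  have h1 := om_idem (T.ir_K h0) hEKc hEKE
  -- the values of the central characters
  set y : ConjClasses G → Qb := fun C => omF χ0 (fun g => ((ind C g : ℤ) : Qb)) with hy
  have hy1 : ∀ C, P179C.om χc.1 (ind C) = T.i1 (y C) := by
    intro C
    rw [P179P.om_eq_omC, P179P.omC, hy]
    simp only [omF, map_div₀, map_sum, map_mul, map_intCast, hc]
  have hm1 : ∀ C, T.i1 (y C) ∈ integralClosure ℤ ℂ := by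
    intro C
    rw [← hy1]
    exact P179C.isIntegral_om χc.2 (isCF_ind C)
  have hm2 : ∀ C, T.i2 (y C) ∈ integralClosure (WittVector p k) (KK k p) := fun C =>
    T.int_K (T.int_c (hm1 C))
  have hy2 : ∀ C, omF (fun g => T.i2 (χ0 g)) (fun g => ((ind C g : ℤ) : KK k p)) =
      T.i2 (y C) := by
    intro C
    rw [hy]
    simp only [omF, map_div₀, map_sum, map_mul, map_intCast]
  set s : integralClosure (WittVector p k) (KK k p) :=
    ∑ C : ConjClasses G, algebraMap (WittVector p k) _ (E.coeff C.out) * ⟨T.i2 (y C), hm2 C⟩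
    with hs
  have hs1 : (s : KK k p) = omF (fun g => T.i2 (χ0 g)) (fun g => EK.coeff g) := by
    rw [← om_sum _ hcf, hs, AddSubmonoidClass.coe_finset_sum]
    refine Finset.sum_congr rfl fun C _ => ?_
    rw [hy2, hEK, MonoidAlgebra.coeff_mapRingHom]
    rfl
  have hs2 : T.rho s = lam T.red χc.1 (fun g => e.coeff g) := by
    rw [lam, finsum_eq_sum_of_fintype, hs, map_sum]
    refine Finset.sum_congr rfl fun C _ => ?_
    rw [map_mul, T.rho_alg, ← hEe, MonoidAlgebra.coeff_mapRingHom, ← T.compat (y C) (hm1 C),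
      hy1, redC_of_mem T.red (hm1 C)]
  constructor
  · intro h
    rw [if_pos h, ← hs1] at h1
    have h2 : s = 1 := Subtype.ext h1
    rw [← hs2, h2, map_one]
  · intro h
    rw [if_neg (not_not.2 h), ← hs1] at h1
    have h2 : s = 0 := Subtype.ext h1
    rw [← hs2, h2, map_zero]

theorem Trp.ev_ne_iff {χ0 : G → Qb} (h0 : IsIr Qb G χ0) (χc : Irr G)
    (hc : ∀ g, χc.1 g = T.i1 (χ0 g)) {e : MonoidAlgebra k G}
    {E : MonoidAlgebra (WittVector p k) G} (hEc : ∀ x, x * E = E * x) (hEE : E * E = E)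
    (hEe : MonoidAlgebra.mapRingHom G (WittVector.constantCoeff (p := p) (R := k)) E = e) :
    ev (fun g => T.i2 (χ0 g)) (MonoidAlgebra.mapRingHom G (toKK k p) E) ≠ 0 ↔
      lam T.red χc.1 (fun g => e.coeff g) = 1 := by
  have h := T.ev_iff h0 χc hc hEc hEE hEe
  refine ⟨h.1, fun h1 h2 => ?_⟩
  rw [h.2 h2] at h1
  exact zero_ne_one h1

end

end Vale.Agent.P180.H951.Tr
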